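import Vale.Agent.P057T.Rg.Defs
import Vale.Agent.P057T.Eq.Bdw

/-! Demotion of an exact pivot of weight at least two. -/

set_option linter.all false

open MvPolynomial Finset
open scoped Real

namespace Vale.Agent.P057T.Rg

open Vale.Agent.P057T.Eq

noncomputable section

namespace Dem

variable {ι : Type} [Fintype ι] [DecidableEq ι]

theorem wt_le {w w' : ι → ℕ} (h : ∀ a, w' a ≤ w a) (m : ι →₀ ℕ) :
    Finsupp.weight w' m ≤ Finsupp.weight w m := by
  rw [Finsupp.weight_eq_sum, Finsupp.weight_eq_sum]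
  exact sum_le_sum fun a _ => nsmul_le_nsmul_right (h a) _

theorem single_of {w : ι → ℕ} (hw : ∀ a, 1 ≤ w a) {m : ι →₀ ℕ} {b : ι} (hb : m b ≠ 0)
    (h : Finsupp.weight w m ≤ w b) : m = Finsupp.single b 1 := by
  have h1 := Finsupp.weight_sub_single_add (w := w) hb
  ext c
  have h2 := Finsupp.le_weight w (s := c) (by have := hw c; omega) (m - Finsupp.single b 1)
  rw [Finsupp.tsub_apply] at h2
  by_cases hc : c = b
  · subst hc
    rw [Finsupp.single_eq_same] at h2 ⊢
    omega
  · rw [Finsupp.single_eq_of_ne hc] at h2 ⊢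
    omega

theorem sub_top {w : ι → ℕ} {e : ℕ} {F : MvPolynomial ι ℝ}
    (h : ∀ m ∈ F.support, Finsupp.weight w m ≤ e) :
    ∀ m ∈ (F - weightedHomogeneousComponent w e F).support, Finsupp.weight w m < e := by
  intro m hm
  rw [mem_support_iff, coeff_sub, coeff_weightedHomogeneousComponent] at hm
  split_ifs at hm with h1
  · exact absurd (sub_self _) hm
  · rw [sub_zero] at hm
    exact lt_of_le_of_ne (h m (mem_support_iff.2 hm)) h1

theorem vars_top {w : ι → ℕ} {e : ℕ} {F : MvPolynomial ι ℝ} {b : ι}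
    (hb : b ∈ (weightedHomogeneousComponent w e F).vars) :
    ∃ m ∈ F.support, m b ≠ 0 ∧ Finsupp.weight w m = e := by
  obtain ⟨m, hm, hbm⟩ := (mem_vars_iff_mem_support b).1 hb
  rw [mem_support_iff, coeff_weightedHomogeneousComponent] at hm
  split_ifs at hm with h1
  · exact ⟨m, mem_support_iff.2 hm, Finsupp.mem_support_iff.1 hbm, h1⟩
  · exact absurd rfl hm

/-- the sum of a shifted Gaussian over integers -/
theorem th1 {β : ℝ} (hβ : 0 < β) (t : ℝ) (E : Finset ℤ) :
    ∑ y ∈ E, Real.exp (-π * (β⁻¹ * y + t) ^ 2) ≤ 1 + β := by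
  have hb : 0 < π * β⁻¹ ^ 2 := by positivity
  let f : ℝ → ℝ := fun x => Real.exp (-(π * β⁻¹ ^ 2) * (x + β * t) ^ 2)
  have ef : ∀ x : ℝ, Real.exp (-π * (β⁻¹ * x + t) ^ 2) = f x := by
    intro x
    simp only [f]
    congr 1
    field_simp
  have hi : MeasureTheory.Integrable f := (integrable_exp_neg_mul_sq hb).comp_add_right (β * t)
  have hv : ∫ x, f x = β := by
    simp only [f]
    rw [MeasureTheory.integral_add_right_eq_self (fun x => Real.exp (-(π * β⁻¹ ^ 2) * x ^ 2)),
      integral_gaussian]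
    have : π / (π * β⁻¹ ^ 2) = β ^ 2 := by field_simp
    rw [this, Real.sqrt_sq hβ.le]
  have hs := hi.hasSum_intervalIntegral 0
  rw [hv] at hs
  obtain ⟨y0, hy0⟩ : ∃ y0 : ℤ, |-(β * t) - y0| ≤ 1 / 2 := ⟨_, abs_sub_round _⟩
  obtain ⟨hy1, hy2⟩ := abs_le.1 hy0
  let k : ℤ → ℤ := fun y => if y0 < y then y - 1 else y
  have h1 : ∀ y ∈ E.erase y0, f y ≤ ∫ x in (0 : ℝ) + k y..(0 : ℝ) + k y + 1, f x := by
    intro y hy
    have h2 := intervalIntegral.integral_mono_on (μ := MeasureTheory.volume)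
      (a := (0 : ℝ) + k y) (b := (0 : ℝ) + k y + 1) (f := fun _ => f y) (g := f) (by linarith)
      intervalIntegrable_const hi.intervalIntegrable fun x hx => by
        refine Real.exp_le_exp.2 (mul_le_mul_of_nonpos_left ?_ (by linarith))
        obtain ⟨hx1, hx2⟩ := hx
        simp only [k] at hx1 hx2
        by_cases h : y0 < y
        · rw [if_pos h] at hx1 hx2
          have h3 : (y0 : ℝ) + 1 ≤ y := by exact_mod_cast h
          push_cast at hx1 hx2
          exact sq_le_sq' (by linarith) (by linarith)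
        · rw [if_neg h] at hx1 hx2
          have h3 : (y : ℝ) + 1 ≤ y0 := by
            have := ne_of_mem_erase hy
            exact_mod_cast (by omega : y + 1 ≤ y0)
          rw [← neg_sq (y + β * t)]
          exact sq_le_sq' (by linarith) (by linarith)
    simpa using h2
  have h2 : ∑ y ∈ E.erase y0, f y ≤ β := by
    refine (sum_le_sum h1).trans ?_
    rw [← sum_image (f := fun n : ℤ => ∫ x in (0 : ℝ) + n..(0 : ℝ) + n + 1, f x) (g := k)
      fun a ha b hb e => by
        have := ne_of_mem_erase ha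
        have := ne_of_mem_erase hb
        simp only [k] at e
        split_ifs at e <;> omega]
    exact sum_le_hasSum _ (fun n _ => intervalIntegral.integral_nonneg (by linarith)
      fun x _ => (Real.exp_pos _).le) hs
  have h3 : f y0 ≤ 1 := Real.exp_le_one_iff.2
    (mul_nonpos_of_nonpos_of_nonneg (by linarith) (sq_nonneg _))
  simp only [ef]
  calc ∑ y ∈ E, f y ≤ ∑ y ∈ insert y0 (E.erase y0), f y :=
        sum_le_sum_of_subset_of_nonneg (subset_insert_iff.2 le_rfl)
          fun _ _ _ => (Real.exp_pos _).le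
    _ ≤ 1 + β := by
        rw [sum_insert (notMem_erase _ _)]
        linarith

variable (S : St ι) (g : ℕ) (j : ι) (β : ℝ)

def lam (c : ι) : ℝ := if S.G.g c = g then coeff (Finsupp.single c 1) (S.p j) else 0

def nw : ι → ℕ := Function.update S.G.w j (g + 1)

def q0 (a : ι) : MvPolynomial ι ℝ := weightedHomogeneousComponent (nw S g j) (S.G.w a) (S.G.q a)

def rr : MvPolynomial ι ℝ :=
  weightedHomogeneousComponent (nw S g j) (g + 1) (S.p j) - ∑ c, C (lam S g j c) * X c

def NG : GT ι where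
  g := Function.update S.G.g j g
  w := nw S g j
  A := Matrix.of fun a c => if a = j then (if c = j then β⁻¹ else lam S g j c) else
    (if c = j then 0 else S.G.A a c)
  B := Matrix.of fun a c => if a = j then (if c = j then β else -β * ∑ d, lam S g j d * S.G.B d c)
    else (if c = j then 0 else S.G.B a c)
  q := fun a => if a = j then C (-β) * (rr S g j + ∑ c, C (lam S g j c) * q0 S g j c) else q0 S g j a
  ex := S.G.ex.erase j

def NS : St ι := ⟨NG S g j β, fun a => S.ch a - (NG S g j β).th a, S.pi⟩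

structure Hy (s : ℕ) : Prop where
  ok : S.Ok s
  hg : S.G.g j = g + 1
  ex : j ∈ S.G.ex
  pos : 0 < β
  rA : ∀ c, S.G.A j c = if c = j then β⁻¹ else 0
  rB : ∀ c, S.G.B j c = if c = j then β else 0

variable {S g j β} {s : ℕ}

theorem hy (hS : S.Ok s) (hg : S.G.g j = g + 1) (hP : S.Pv (gp S.G (g + 1) ∩ S.G.ex) j β) :
    Hy S g j β s := by
  obtain ⟨h1, h2, h3, h4⟩ := hP
  have hex := (mem_inter.1 h1).2
  have rA : ∀ c, S.G.A j c = if c = j then β⁻¹ else 0 := by
    intro c
    split_ifs with hc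
    · rw [hc, h3]
    · by_cases k1 : c ∈ S.G.ex
      · by_contra k2
        exact k2 (h4 c (mem_inter.2 ⟨mem_filter.2 ⟨mem_univ _,
          ((hS.ok.blk j c (Or.inl k2)).1.symm.trans hg)⟩, k1⟩) hc)
      · exact (hS.tri j hex c k1).1
  refine ⟨hS, hg, hex, h2, rA, fun c => ?_⟩
  have h5 := congrFun (congrFun hS.ok.AB j) c
  rw [Matrix.mul_apply, Matrix.one_apply] at h5
  simp only [rA, ite_mul, zero_mul, sum_ite_eq', mem_univ, if_true] at h5
  have h6 : S.G.B j c = β * (β⁻¹ * S.G.B j c) := by field_simp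
  rw [h6, h5]
  by_cases hc : c = j
  · simp [hc]
  · simp [hc, Ne.symm hc]

theorem Hy.wj (H : Hy S g j β s) : S.G.w j = g + 2 := by rw [← H.ok.lv j, H.hg]

theorem Hy.lj (H : Hy S g j β s) : lam S g j j = 0 := if_neg (by rw [H.hg]; omega)

theorem nw_j : nw S g j j = g + 1 := Function.update_self ..

theorem nw_ne {a : ι} (h : a ≠ j) : nw S g j a = S.G.w a := Function.update_of_ne h ..

theorem ng_j : (NG S g j β).g j = g := Function.update_self ..

theorem ng_ne {a : ι} (h : a ≠ j) : (NG S g j β).g a = S.G.g a := Function.update_of_ne h ..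

theorem Hy.nw_le (H : Hy S g j β s) (a : ι) : nw S g j a ≤ S.G.w a := by
  by_cases h : a = j
  · rw [h, nw_j, H.wj]; omega
  · rw [nw_ne h]

theorem Hy.ng_le (H : Hy S g j β s) (a : ι) : (NG S g j β).g a ≤ S.G.g a := by
  by_cases h : a = j
  · rw [h, ng_j, H.hg]; omega
  · rw [ng_ne h]

theorem Hy.lv (H : Hy S g j β s) (a : ι) : (NG S g j β).g a + 1 = nw S g j a := by
  by_cases h : a = j
  · rw [h, ng_j, nw_j]
  · rw [ng_ne h, nw_ne h, H.ok.lv]

theorem lam_ne {c : ι} (h : lam S g j c ≠ 0) : S.G.g c = g := by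
  by_contra k
  exact h (if_neg k)

theorem A_jj : (NG S g j β).A j j = β⁻¹ := by simp [NG]
theorem A_jc {c : ι} (h : c ≠ j) : (NG S g j β).A j c = lam S g j c := by simp [NG, h]
theorem A_aj {a : ι} (h : a ≠ j) : (NG S g j β).A a j = 0 := by simp [NG, h]
theorem A_ac {a c : ι} (h : a ≠ j) (k : c ≠ j) : (NG S g j β).A a c = S.G.A a c := by
  simp [NG, h, k]
theorem B_jj : (NG S g j β).B j j = β := by simp [NG]
theorem B_jc {c : ι} (h : c ≠ j) :
    (NG S g j β).B j c = -β * ∑ d, lam S g j d * S.G.B d c := by simp [NG, h]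
theorem B_aj {a : ι} (h : a ≠ j) : (NG S g j β).B a j = 0 := by simp [NG, h]
theorem B_ac {a c : ι} (h : a ≠ j) (k : c ≠ j) : (NG S g j β).B a c = S.G.B a c := by
  simp [NG, h, k]
theorem q_j : (NG S g j β).q j = C (-β) * (rr S g j + ∑ c, C (lam S g j c) * q0 S g j c) :=
  if_pos rfl
theorem q_a {a : ι} (h : a ≠ j) : (NG S g j β).q a = q0 S g j a := if_neg h

theorem sum_j {M : Type} [AddCommMonoid M] (f : ι → M) : ∑ c, f c = f j + ∑ c ∈ univ.erase j, f c :=
  (add_sum_erase univ f (mem_univ j)).symm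

theorem Hy.AB (H : Hy S g j β s) : (NG S g j β).A * (NG S g j β).B = 1 := by
  ext a c
  rw [Matrix.mul_apply, sum_j (j := j)]
  by_cases hc : c = j
  · subst hc
    rw [sum_eq_zero fun d hd => by rw [B_aj (ne_of_mem_erase hd), mul_zero], add_zero, B_jj]
    by_cases ha : a = c
    · rw [ha, A_jj, Matrix.one_apply_eq, inv_mul_cancel₀ H.pos.ne']
    · rw [A_aj ha, zero_mul, Matrix.one_apply_ne ha]
  · by_cases ha : a = j
    · subst ha
      have e : ∑ d ∈ univ.erase a, (NG S g a β).A a d * (NG S g a β).B d c =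
          ∑ d ∈ univ.erase a, lam S g a d * S.G.B d c := sum_congr rfl fun d hd => by
        rw [A_jc (ne_of_mem_erase hd), B_ac (ne_of_mem_erase hd) hc]
      rw [e, A_jj, B_jc hc, Matrix.one_apply_ne (Ne.symm hc), sum_j (j := a) (fun d => _ * _), H.lj,
        zero_mul, zero_add]
      have := H.pos.ne'
      field_simp
      ring
    · rw [A_aj ha, zero_mul, ← H.ok.ok.AB, Matrix.mul_apply, sum_j (j := j) (fun d => _ * _), H.rB,
        if_neg hc, mul_zero]
      congr 1
      exact sum_congr rfl fun d hd => by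
        rw [A_ac ha (ne_of_mem_erase hd), B_ac (ne_of_mem_erase hd) hc]

theorem Hy.blk (H : Hy S g j β s) (a b : ι)
    (h : (NG S g j β).A a b ≠ 0 ∨ (NG S g j β).B a b ≠ 0) : (NG S g j β).g a = (NG S g j β).g b := by
  by_cases hb : b = j
  · by_cases ha : a = j
    · rw [ha, hb]
    · rw [hb, A_aj ha, B_aj ha] at h
      simp at h
  by_cases ha : a = j
  · rw [ha, A_jc hb, B_jc hb] at h
    rw [ha, ng_j, ng_ne hb]
    rcases h with h | h
    · exact (lam_ne h).symm
    · obtain ⟨d, _, hd⟩ := exists_ne_zero_of_sum_ne_zero (right_ne_zero_of_mul h)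
      rw [← lam_ne (left_ne_zero_of_mul hd)]
      exact (H.ok.ok.blk d b (Or.inr (right_ne_zero_of_mul hd))).1
  · rw [A_ac ha hb, B_ac ha hb] at h
    rw [ng_ne ha, ng_ne hb]
    exact (H.ok.ok.blk a b h).1

theorem q0_hm (a : ι) : IsWeightedHomogeneous (nw S g j) (q0 S g j a) (S.G.w a) :=
  weightedHomogeneousComponent_isWeightedHomogeneous _ _

theorem Hy.q0_lo (H : Hy S g j β s) (a : ι) : ∀ b ∈ (q0 S g j a).vars, (NG S g j β).g b < S.G.g a := by
  intro b hb
  obtain ⟨m, hm, hbm, -⟩ := vars_top hb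
  exact lt_of_le_of_lt (H.ng_le b) (H.ok.ok.ql a b ((mem_vars_iff_mem_support b).2
    ⟨m, hm, Finsupp.mem_support_iff.2 hbm⟩))

theorem Hy.sum_hm (H : Hy S g j β s) (f : ι → MvPolynomial ι ℝ)
    (hf : ∀ c, c ≠ j → IsWeightedHomogeneous (nw S g j) (f c) (S.G.w c)) :
    IsWeightedHomogeneous (nw S g j) (∑ c, C (lam S g j c) * f c) (g + 1) := by
  refine IsWeightedHomogeneous.sum _ _ _ fun c _ => ?_
  by_cases h : lam S g j c = 0
  · rw [h, C_0, zero_mul]
    exact isWeightedHomogeneous_zero _ _ _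
  · have h1 : c ≠ j := fun k => h (k ▸ H.lj)
    have h2 := hf c h1
    rw [← H.ok.lv c, lam_ne h] at h2
    exact h2.C_mul _

theorem Hy.rr_hm (H : Hy S g j β s) : IsWeightedHomogeneous (nw S g j) (rr S g j) (g + 1) :=
  (weightedHomogeneousComponent_isWeightedHomogeneous _ _).sub
    (H.sum_hm X fun c hc => nw_ne (S := S) (g := g) hc ▸ isWeightedHomogeneous_X ℝ _ c)

theorem Hy.rr_lo (H : Hy S g j β s) : ∀ b ∈ (rr S g j).vars, (NG S g j β).g b < g := by
  intro b hb
  by_contra k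
  obtain ⟨m, hm, hbm⟩ := (mem_vars_iff_mem_support b).1 hb
  rw [mem_support_iff] at hm
  have h1 := H.rr_hm hm
  have h2 := H.lv b
  have h3 : m = Finsupp.single b 1 := single_of (w := nw S g j) (fun a => by rw [← H.lv a]; omega)
    (Finsupp.mem_support_iff.1 hbm) (by omega)
  apply hm
  rw [rr, coeff_sub, coeff_weightedHomogeneousComponent, if_pos h1, coeff_sum, h3,
    sum_eq_single b (fun c _ hc => by
      rw [coeff_C_mul, coeff_X', if_neg (fun e => hc (Finsupp.single_left_injective one_ne_zero e)),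
        mul_zero]) (fun h => absurd (mem_univ b) h), coeff_C_mul, coeff_X', if_pos rfl, mul_one]
  rw [h3, Finsupp.weight_single, one_smul] at h1
  by_cases hj : b = j
  · rw [hj, H.lj, sub_zero]
    by_contra k2
    have := H.ok.pd j _ (mem_support_iff.2 k2)
    rw [Finsupp.weight_single, one_smul] at this
    exact lt_irrefl _ this
  · rw [lam, if_pos (by rw [← ng_ne (β := β) (g := g) hj]; omega), sub_self]

theorem Hy.gok (H : Hy S g j β s) : (NG S g j β).Ok s where
  w1 a := by show 1 ≤ nw S g j a; rw [← H.lv a]; omega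
  ws a := (H.nw_le a).trans (H.ok.ok.ws a)
  gs a := lt_of_le_of_lt (H.ng_le a) (H.ok.ok.gs a)
  AB := H.AB
  blk a b h := ⟨H.blk a b h, by show nw S g j a = nw S g j b; rw [← H.lv, ← H.lv, H.blk a b h]⟩
  qh a := by
    show IsWeightedHomogeneous (nw S g j) _ (nw S g j a)
    by_cases h : a = j
    · rw [h, q_j, nw_j]
      exact (H.rr_hm.add (H.sum_hm _ fun c _ => q0_hm c)).C_mul _
    · rw [q_a h, nw_ne h]
      exact q0_hm a
  ql a := by
    by_cases h : a = j
    · rw [h, q_j, ng_j]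
      refine Chart.vars_mul' (Chart.vars_C' _) (Chart.vars_add' H.rr_lo
        (Chart.vars_sum' fun c _ => ?_))
      by_cases k : lam S g j c = 0
      · simp [k]
      · exact Chart.vars_mul' (Chart.vars_C' _) (lam_ne k ▸ H.q0_lo c)
    · rw [q_a h, ng_ne h]
      exact H.q0_lo a
  qe a ha := by
    rw [q_a (ne_of_mem_erase ha), q0, H.ok.ok.qe a (mem_of_mem_erase ha), map_zero]

theorem Hy.th_j (H : Hy S g j β s) : S.ch j - (NG S g j β).th j =
    S.p j - weightedHomogeneousComponent (nw S g j) (g + 1) (S.p j) := by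
  have h1 : S.G.th j = C β⁻¹ * X j := by
    rw [GT.th, sum_eq_single j (fun c _ hc => by rw [H.rA, if_neg hc, C_0, zero_mul])
      (fun h => absurd (mem_univ j) h), H.rA, if_pos rfl, H.ok.ok.qe j H.ex, sub_zero]
  have h2 : (NG S g j β).th j = C β⁻¹ * (X j - (NG S g j β).q j) +
      (∑ c, C (lam S g j c) * X c - ∑ c, C (lam S g j c) * q0 S g j c) := by
    rw [GT.th, sum_j (j := j), A_jj, ← sum_sub_distrib, sum_j (j := j) (fun c => _ - _), H.lj, C_0,
      zero_mul, zero_mul, sub_zero, zero_add]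
    congr 1
    exact sum_congr rfl fun c hc => by
      rw [A_jc (ne_of_mem_erase hc), q_a (ne_of_mem_erase hc), mul_sub]
  have h3 : (C β⁻¹ : MvPolynomial ι ℝ) * C (-β) = -1 := by
    rw [← C_mul, mul_neg, inv_mul_cancel₀ H.pos.ne', C_neg, C_1]
  rw [St.ch, h1, h2, q_j, rr]
  linear_combination (weightedHomogeneousComponent (nw S g j) (g + 1) (S.p j) -
    ∑ c, C (lam S g j c) * X c + ∑ c, C (lam S g j c) * q0 S g j c) * h3

theorem Hy.th_a (H : Hy S g j β s) {a : ι} (ha : a ≠ j) : (NG S g j β).th a =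
    weightedHomogeneousComponent (nw S g j) (S.G.w a) (S.G.th a) := by
  rw [GT.th, GT.th, map_sum]
  refine sum_congr rfl fun c _ => ?_
  rw [weightedHomogeneousComponent_C_mul]
  by_cases h0 : S.G.A a c = 0
  · by_cases hc : c = j
    · rw [h0, hc, A_aj ha, C_0, zero_mul, zero_mul]
    · rw [A_ac ha hc, h0, C_0, zero_mul, zero_mul]
  rw [(H.ok.ok.blk a c (Or.inl h0)).2, map_sub]
  by_cases hc : c = j
  · rw [hc, A_aj ha, H.ok.ok.qe j H.ex, C_0, zero_mul, map_zero, sub_zero,
      (isWeightedHomogeneous_X ℝ (nw S g j) j).weightedHomogeneousComponent_ne _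
        (by rw [nw_j, H.wj]; omega), mul_zero]
  · rw [A_ac ha hc, q_a hc, q0, ← nw_ne (g := g) hc,
      (isWeightedHomogeneous_X ℝ (nw S g j) c).weightedHomogeneousComponent_same]

theorem Hy.sok (H : Hy S g j β s) : (NS S g j β).Ok s where
  ok := H.gok
  lv := H.lv
  pd a := by
    show ∀ m ∈ (S.ch a - (NG S g j β).th a).support, Finsupp.weight (nw S g j) m < nw S g j a
    by_cases h : a = j
    · rw [h, H.th_j, nw_j]
      refine sub_top fun m hm => ?_
      have h1 := H.ok.pd j m hm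
      have h2 := wt_le H.nw_le m
      rw [H.wj] at h1
      omega
    · rw [H.th_a h, nw_ne h, St.ch, add_sub_right_comm]
      intro m hm
      rcases mem_union.1 (support_add hm) with k | k
      · exact sub_top (fun m hm => (wt_le H.nw_le m).trans
          (th_hm H.ok.ok a (mem_support_iff.1 hm)).le) m k
      · exact lt_of_le_of_lt (wt_le H.nw_le m) (H.ok.pd a m k)
  tri a ha b hb := by
    have h1 := ne_of_mem_erase ha
    by_cases h : b = j
    · rw [h]
      exact ⟨A_aj h1, B_aj h1⟩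
    · show (NG S g j β).A a b = 0 ∧ (NG S g j β).B a b = 0
      rw [A_ac h1 h, B_ac h1 h]
      exact H.ok.tri a (mem_of_mem_erase ha) b fun k => hb (mem_erase.2 ⟨h, k⟩)
  pz := H.ok.pz
  p1 m hm := lt_of_le_of_lt (wt_le H.nw_le m) (H.ok.p1 m hm)

theorem ch_eq (a : ι) : (NS S g j β).ch a = S.ch a := add_sub_cancel _ _

theorem wt_eq : (NS S g j β).wt = S.wt := by
  funext z
  simp only [St.wt, St.sq, ch_eq]

theorem dv_eq {V : Finset ι} (h : j ∉ V) : (NG S g j β).dv V = S.G.dv V := by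
  unfold GT.dv
  congr 2
  ext a c
  exact B_ac (fun e => h (e ▸ a.2)) (fun e => h (e ▸ c.2))

theorem Hy.dv_new (H : Hy S g j β s) (hD : DVP) {V : Finset ι} (h : j ∈ V) :
    (NG S g j β).dv V = β * S.G.dv (V.erase j) := by
  rw [hD ι _ V j h (Or.inr fun c _ hc => B_aj hc), B_jj, abs_of_pos H.pos, dv_eq (notMem_erase j V)]

theorem Hy.dv_old (H : Hy S g j β s) (hD : DVP) {V : Finset ι} (h : j ∈ V) :
    S.G.dv V = β * S.G.dv (V.erase j) := by
  rw [hD ι _ V j h (Or.inl fun c _ hc => by rw [H.rB, if_neg hc]), H.rB, if_pos rfl,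
    abs_of_pos H.pos]

theorem Hy.gq_eq (H : Hy S g j β s) (z : ι → ℤ) :
    Poi.gq (NG S g j β).A (cz z) = Poi.gq S.G.A (cz (Function.update z j 0)) *
      Real.exp (-π * (β⁻¹ * z j + ∑ c, lam S g j c * cz (Function.update z j 0) c) ^ 2) := by
  have u0 : cz (Function.update z j 0) j = 0 := by simp [cz]
  have u1 : ∀ c, c ≠ j → cz (Function.update z j 0) c = cz z c := fun c hc => by simp [cz, hc]
  have h1 : ((NG S g j β).A.mulVec (cz z)) j =
      β⁻¹ * z j + ∑ c, lam S g j c * cz (Function.update z j 0) c := by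
    rw [Matrix.mulVec, dotProduct, sum_j (j := j), A_jj, sum_j (j := j) (fun c => _ * _), u0,
      mul_zero, zero_add]
    congr 1
    exact sum_congr rfl fun c hc => by rw [A_jc (ne_of_mem_erase hc), u1 c (ne_of_mem_erase hc)]
  have h2 : (S.G.A.mulVec (cz (Function.update z j 0))) j = 0 := by
    rw [Matrix.mulVec, dotProduct]
    refine sum_eq_zero fun c _ => ?_
    rw [H.rA]
    split_ifs with hc
    · rw [hc, u0, mul_zero]
    · rw [zero_mul]
  have h3 : ∀ a ∈ univ.erase j, ((NG S g j β).A.mulVec (cz z)) a ^ 2 =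
      (S.G.A.mulVec (cz (Function.update z j 0))) a ^ 2 := by
    intro a ha
    congr 1
    rw [Matrix.mulVec, Matrix.mulVec, dotProduct, dotProduct]
    refine sum_congr rfl fun c _ => ?_
    by_cases hc : c = j
    · rw [hc, A_aj (ne_of_mem_erase ha), u0, zero_mul, mul_zero]
    · rw [A_ac (ne_of_mem_erase ha) hc, u1 c hc]
  unfold Poi.gq Vale.Agent.P267.H775.qf
  rw [← Real.exp_add, sum_j (j := j), sum_j (j := j) (fun a => (S.G.A.mulVec _) a ^ 2), h1, h2,
    sum_congr rfl h3]
  congr 1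
  ring

theorem ind_nonneg (G : GT ι) (Q : Set (ι → ℤ)) (z : ι → ℤ) :
    0 ≤ Q.indicator (fun z => Poi.gq G.A (cz z)) z :=
  Set.indicator_nonneg (fun _ _ => (Poi.gq_pos _ _).le) z

theorem tk_nonneg (G : GT ι) (Q : Set (ι → ℤ)) : 0 ≤ tk G Q := tsum_nonneg (ind_nonneg G Q)

theorem sum_le_tk {G : GT ι} (hG : G.Ok s) (Q : Set (ι → ℤ)) (E : Finset (ι → ℤ)) :
    ∑ z ∈ E, Q.indicator (fun z => Poi.gq G.A (cz z)) z ≤ tk G Q := by
  have h1 : G.A.det ≠ 0 := (Matrix.isUnit_det_of_right_inverse hG.AB).ne_zero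
  have h2 := Poi.summable_gq h1 0
  simp only [zero_add] at h2
  exact (h2.indicator Q).sum_le_tsum E fun z _ => ind_nonneg G Q z

theorem Hy.tk0 (H : Hy S g j β s) {Q Q' : Set (ι → ℤ)} (h : ∀ z ∈ Q', z j = 0 ∧ z ∈ Q) :
    tk (NG S g j β) Q' ≤ tk S.G Q := by
  refine tsum_le_of_sum_le' (tk_nonneg _ _) fun E =>
    (sum_le_sum fun z _ => ?_).trans (sum_le_tk H.ok.ok Q E)
  by_cases hz : z ∈ Q'
  · rw [Set.indicator_of_mem hz, Set.indicator_of_mem (h z hz).2, H.gq_eq,
      Function.update_eq_self_iff.2 (h z hz).1.symm]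
    refine mul_le_of_le_one_right (Poi.gq_pos _ _).le (Real.exp_le_one_iff.2 ?_)
    exact mul_nonpos_of_nonpos_of_nonneg (by linarith [Real.pi_pos]) (sq_nonneg _)
  · rw [Set.indicator_of_notMem hz]
    exact ind_nonneg _ _ _

theorem Hy.tk1 (H : Hy S g j β s) {Q Q' : Set (ι → ℤ)} (h : ∀ z ∈ Q', Function.update z j 0 ∈ Q) :
    tk (NG S g j β) Q' ≤ (1 + β) * tk S.G Q := by
  have hβ := H.pos
  refine tsum_le_of_sum_le' (mul_nonneg (by linarith) (tk_nonneg _ _)) fun E => ?_
  let φ : (ι → ℤ) × ℤ → ℝ := fun x => Q.indicator (fun z => Poi.gq S.G.A (cz z)) x.1 *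
    Real.exp (-π * (β⁻¹ * x.2 + ∑ c, lam S g j c * cz x.1 c) ^ 2)
  have h0 : ∀ x, 0 ≤ φ x := fun x => mul_nonneg (ind_nonneg _ _ _) (Real.exp_pos _).le
  have hi : Function.Injective fun z : ι → ℤ => (Function.update z j 0, z j) := by
    intro x y e
    obtain ⟨e1, e2⟩ := Prod.mk.inj e
    funext c
    by_cases hc : c = j
    · rw [hc]; exact e2
    · have := congrFun e1 c
      rwa [Function.update_of_ne hc, Function.update_of_ne hc] at this
  calc _ ≤ ∑ z ∈ E, φ (Function.update z j 0, z j) := by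
        refine sum_le_sum fun z _ => ?_
        by_cases hz : z ∈ Q'
        · rw [Set.indicator_of_mem hz, H.gq_eq]
          simp only [φ]
          rw [Set.indicator_of_mem (h z hz)]
        · rw [Set.indicator_of_notMem hz]
          exact h0 _
    _ = ∑ x ∈ E.image (fun z : ι → ℤ => (Function.update z j 0, z j)), φ x :=
        (sum_image fun x _ y _ e => hi e).symm
    _ ≤ ∑ x ∈ (E.image fun z : ι → ℤ => Function.update z j 0) ×ˢ (E.image fun z => z j), φ x := by
        refine sum_le_sum_of_subset_of_nonneg (fun x hx => ?_) fun x _ _ => h0 x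
        obtain ⟨z, hz, rfl⟩ := mem_image.1 hx
        exact mem_product.2 ⟨mem_image_of_mem _ hz, mem_image_of_mem _ hz⟩
    _ ≤ ∑ u ∈ (E.image fun z : ι → ℤ => Function.update z j 0),
          (1 + β) * Q.indicator (fun z => Poi.gq S.G.A (cz z)) u := by
        rw [sum_product]
        refine sum_le_sum fun u _ => ?_
        simp only [φ]
        rw [← mul_sum, mul_comm]
        exact mul_le_mul_of_nonneg_right (th1 hβ _ _) (ind_nonneg _ _ _)
    _ ≤ _ := by
        rw [← mul_sum]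
        exact mul_le_mul_of_nonneg_left (sum_le_tk H.ok.ok Q _) (by linarith)

/-- a block which gains the variable `j` -/
theorem Hy.gain (H : Hy S g j β s) (hD : DVP) {l x n : ℝ} (hl : 1 + β⁻¹ ≤ Real.exp l) (hn : 0 ≤ n)
    {Q Q' : Set (ι → ℤ)} {V : Finset ι} (hV : j ∈ V) (h : ∀ z ∈ Q', Function.update z j 0 ∈ Q)
    (hb : n * tk S.G Q ≤ Real.exp x * S.G.dv (V.erase j)) :
    n * tk (NG S g j β) Q' ≤ Real.exp (x + l) * (NG S g j β).dv V := by
  have hβ := H.pos
  have h1 : 1 + β ≤ Real.exp l * β := by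
    have := mul_le_mul_of_nonneg_right hl hβ.le
    rwa [add_mul, one_mul, inv_mul_cancel₀ hβ.ne', add_comm] at this
  rw [H.dv_new hD hV, Real.exp_add]
  calc n * tk (NG S g j β) Q' ≤ n * ((1 + β) * tk S.G Q) := mul_le_mul_of_nonneg_left (H.tk1 h) hn
    _ = (1 + β) * (n * tk S.G Q) := by ring
    _ ≤ (Real.exp l * β) * (Real.exp x * S.G.dv (V.erase j)) :=
      mul_le_mul h1 hb (mul_nonneg hn (tk_nonneg _ _)) (by positivity)
    _ = _ := by ring

theorem lat_up {V : Finset ι} {z : ι → ℤ} (hz : z ∈ Lat V) :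
    Function.update z j 0 ∈ Lat (V.erase j) := by
  intro a ha
  by_cases h : a = j
  · rw [h, Function.update_self]
  · rw [Function.update_of_ne h]
    exact hz a fun k => ha (mem_erase.2 ⟨h, k⟩)

theorem gp_er (x : ℕ) : (gp (NG S g j β) x).erase j = (gp S.G x).erase j := by
  ext a
  by_cases h : a = j
  · simp [h]
  · simp [gp, h, ng_ne h]

end Dem

open Dem in
theorem dem (hD : DVP) : DEM := by
  intro s N A ι _ _ S θ θn γ ρ b β o l g j hI hg hP ho hl
  have H := hy hI.ok hg hP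
  have hβ := H.pos
  have hl0 : 0 ≤ l := by
    have : 1 ≤ Real.exp l := le_trans (by linarith [inv_pos.2 hβ]) hl
    exact Real.one_le_exp_iff.1 this
  have jn : ∀ x, j ∈ gp (NG S g j β) x ↔ g = x := fun x => by simp [gp, ng_j]
  have jo : ∀ x, j ∈ gp S.G x ↔ g + 1 = x := fun x => by simp [gp, hg]
  have e0 : ∀ x, x ≠ g → gp (NG S g j β) x = (gp S.G x).erase j := fun x hx => by
    rw [← gp_er (β := β), erase_eq_of_notMem fun k => hx ((jn x).1 k).symm]
  have e1 : (gp (NG S g j β) g).erase j = gp S.G g := by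
    rw [gp_er, erase_eq_of_notMem fun k => by have := (jo g).1 k; omega]
  refine ⟨NS S g j β, ⟨H.sok, fun x => ?_, fun x => ?_, ?_, ?_, ?_⟩, ?_⟩
  · show tk (NG S g j β) (Lat (gp (NG S g j β) x)) ≤ Real.exp (θ x + _ + _) *
      (NG S g j β).dv (gp (NG S g j β) x)
    by_cases hx : x = g
    · subst hx
      rw [if_neg (by omega), if_pos rfl, add_zero, ← one_mul (tk _ _)]
      refine H.gain hD hl zero_le_one (Q := Lat (gp S.G x)) ((jn x).2 rfl)
        (fun z hz => e1 ▸ lat_up hz) ?_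
      rw [one_mul, e1]
      exact hI.ph x
    · rw [if_neg hx, add_zero, e0 x hx, dv_eq (notMem_erase _ _)]
      refine (H.tk0 (Q := Lat (gp S.G x)) (Q' := Lat ((gp S.G x).erase j))
        fun z hz => ⟨hz j (notMem_erase _ _),
        fun a ha => hz a fun k => ha (mem_of_mem_erase k)⟩).trans ((hI.ph x).trans ?_)
      by_cases h1 : x = g + 1
      · rw [if_pos h1, H.dv_old hD ((jo x).2 h1.symm), Real.exp_add, mul_assoc]
        exact mul_le_mul_of_nonneg_left (mul_le_mul_of_nonneg_right ho (dv_nonneg _ _))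
          (Real.exp_pos _).le
      · rw [if_neg h1, add_zero, erase_eq_of_notMem fun k => h1 ((jo x).1 k).symm]
  · show tk (NG S g j β) (Lat (gp (NG S g j β) x \ S.G.ex.erase j)) ≤ Real.exp (θn x + _) *
      (NG S g j β).dv (gp (NG S g j β) x \ S.G.ex.erase j)
    have e2 : (gp (NG S g j β) x \ S.G.ex.erase j).erase j = gp S.G x \ S.G.ex := by
      ext a
      by_cases h : a = j
      · simp [h, H.ex]
      · simp [gp, h, ng_ne h]
    by_cases hx : x = g
    · rw [if_pos hx, ← one_mul (tk _ _)]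
      refine H.gain hD hl zero_le_one (Q := Lat (gp S.G x \ S.G.ex))
        (mem_sdiff.2 ⟨(jn x).2 hx.symm, notMem_erase _ _⟩) (fun z hz => e2 ▸ lat_up hz) ?_
      rw [one_mul, e2]
      exact hI.pn x
    · have h1 : j ∉ gp (NG S g j β) x \ S.G.ex.erase j :=
        fun k => hx ((jn x).1 (mem_sdiff.1 k).1).symm
      rw [erase_eq_of_notMem h1] at e2
      rw [if_neg hx, add_zero, dv_eq h1, e2]
      exact (H.tk0 (Q' := Lat (gp S.G x \ S.G.ex)) fun z hz => ⟨hz j (e2 ▸ h1), hz⟩).trans (hI.pn x)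
  · show Real.exp (-γ) * (NG S g j β).dv univ ≤ ∑' z, (NS S g j β).wt z
    rw [wt_eq, H.dv_new hD (mem_univ j), ← H.dv_old hD (mem_univ j)]
    exact hI.ma
  · show N * tk (NG S g j β) (NS S g j β).ker ≤ Real.exp (ρ + l) *
      (NG S g j β).dv (gp (NG S g j β) 0)
    by_cases hx : g = 0
    · subst hx
      refine H.gain hD hl (Nat.cast_nonneg N) (Q := S.ker) ((jn 0).2 rfl) (fun z hz => ?_) ?_
      · refine ⟨e1 ▸ lat_up hz.1, Eq.trans ?_ hz.2⟩
        refine eval₂Hom_congr' rfl (fun c hc _ => ?_) rfl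
        have h1 : c ≠ j := by
          rintro rfl
          obtain ⟨m, hm, hcm⟩ := (mem_vars_iff_mem_support c).1 hc
          have h2 := (Finsupp.le_weight_of_ne_zero' S.G.w (Finsupp.mem_support_iff.1 hcm)).trans_lt
            (H.ok.p1 m hm)
          rw [H.wj] at h2
          omega
        simp [cz, h1]
      · rw [e1]
        exact hI.kr
    · have h1 : gp (NG S g j β) 0 = gp S.G 0 := by
        rw [e0 0 (Ne.symm hx), erase_eq_of_notMem fun k => by have := (jo 0).1 k; omega]
      have h2 : j ∉ gp S.G 0 := fun k => by have := (jo 0).1 k; omega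
      rw [h1, dv_eq h2]
      refine (mul_le_mul_of_nonneg_left (H.tk0 (Q := S.ker) fun z hz => ?_)
        (Nat.cast_nonneg N)).trans (hI.kr.trans (mul_le_mul_of_nonneg_right
          (Real.exp_le_exp.2 (by linarith)) (dv_nonneg _ _)))
      have h3 : z ∈ Lat (gp S.G 0) := h1 ▸ hz.1
      exact ⟨h3 j h2, h3, hz.2⟩
  · show b * ∑' z, (NS S g j β).wt z ≤ ∑' z, (NS S g j β).wt z * S.ind A z
    rw [wt_eq]
    exact hI.de
  · show 2 * ∑ a, nw S g j a + ((S.G.ex.erase j)ᶜ).card < 2 * ∑ a, S.G.w a + (S.G.exᶜ).card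
    have h1 : ∑ a, nw S g j a + 1 = ∑ a, S.G.w a := by
      rw [sum_j (j := j), sum_j (j := j) S.G.w, nw_j, H.wj,
        sum_congr rfl fun a ha => nw_ne (ne_of_mem_erase ha)]
      omega
    have h2 : ((S.G.ex.erase j)ᶜ).card ≤ (S.G.exᶜ).card + 1 := by
      rw [compl_erase]
      exact card_insert_le _ _
    omega

end

end Vale.Agent.P057T.Rg
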