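import Vale.Agent.P057T.Rg.Defs
import Vale.Agent.P057T.Eq.P1m

/-! Rows BR, TAILW, PHI: bridge to `Eq`, tails, short dual vectors. -/

open MvPolynomial Finset Matrix
open scoped Real
open Vale.Agent.P267.H775 Vale.Agent.P057T.Poi

namespace Vale.Agent.P057T.Rg

open Vale.Agent.P057T.Eq

set_option linter.unusedSectionVars false

noncomputable section

variable {ι : Type} [Fintype ι] [DecidableEq ι]

namespace BrP

/-- all integer points -/
def latU : (ι → ℤ) ≃ Lat (univ : Finset ι) where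
  toFun z := ⟨z, fun a ha => absurd (mem_univ a) ha⟩
  invFun z := z.1
  left_inv _ := rfl
  right_inv _ := rfl

/-- the analytic data with constant scale -/
def atc (S : St ι) (σ : ℝ) : AT ι := ⟨univ, S.p, fun _ => σ⟩

theorem aok {S : St ι} {s : ℕ} (h : S.Ok s) {σ P : ℝ} (h1 : P⁻¹ ≤ σ) (h2 : σ ≤ P) :
    S.G.AOk (atc S σ) P where
  bk := fun a b _ => by simp [atc]
  qv := fun _ _ => subset_univ _
  pv := fun _ _ => subset_univ _
  pd := fun a _ => h.pd a
  pl := fun a _ b hb => by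
    have h3 := Br.vars_w (h.pd a) hb
    have h4 := h.lv a
    have h5 := h.lv b
    omega
  s1 := fun _ => h1
  s2 := fun _ => h2

theorem nu_atc (S : St ι) (σ : ℝ) (z : ι → ℤ) :
    S.G.nu (atc S σ) z = Real.exp (-π * (σ ^ 2 * S.sq z)) := by
  simp only [GT.nu, atc, St.sq, mul_pow, Finset.mul_sum]
  rfl

theorem summ {S : St ι} {s : ℕ} (h : S.Ok s) {σ : ℝ} (hσ : 0 < σ) :
    Summable fun z : ι → ℤ => Real.exp (-π * (σ ^ 2 * S.sq z)) := by
  have hP : 0 < σ + σ⁻¹ := by positivity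
  have h1 : (σ + σ⁻¹)⁻¹ ≤ σ := by
    rw [inv_le_comm₀ hP hσ]
    linarith
  have h2 : σ ≤ σ + σ⁻¹ := by
    have := inv_pos.2 hσ
    linarith
  have h3 := (Br.summ_le h.ok hP (aok h h1 h2)).1
  exact ((latU.summable_iff.2 h3).congr fun z => nu_atc S σ z)

theorem ms_atc (S : St ι) (σ : ℝ) :
    S.G.ms (atc S σ) = ∑' z : ι → ℤ, Real.exp (-π * (σ ^ 2 * S.sq z)) := by
  have h := (latU (ι := ι)).tsum_eq fun z => S.G.nu (atc S σ) z.1
  exact h.symm.trans (tsum_congr fun z => nu_atc S σ z)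

theorem sq_nn (S : St ι) (z : ι → ℤ) : 0 ≤ S.sq z := sum_nonneg fun _ _ => sq_nonneg _

/-- the block of a matrix -/
abbrev bl (M : Matrix ι ι ℝ) (V : Finset ι) : Matrix V V ℝ :=
  M.submatrix (Subtype.val : V → ι) (Subtype.val : V → ι)

theorem bl_mul {G : GT ι} {s : ℕ} (hG : G.Ok s) {V : Finset ι}
    (hV : ∀ a b, a ∉ V → b ∈ V → G.A a b = 0) : bl G.B V * bl G.A V = 1 := by
  ext c b
  have h0 : G.B * G.A = 1 := mul_eq_one_comm.1 hG.AB
  have h := congrFun (congrFun h0 c) b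
  rw [mul_apply, Br.sum_bk (V := V) _ fun a ha => by rw [hV a b ha b.2, mul_zero]] at h
  rw [mul_apply]
  simp only [submatrix_apply]
  rw [h, one_apply, one_apply]
  simp only [Subtype.ext_iff]

theorem det_mul_det {G : GT ι} {s : ℕ} (hG : G.Ok s) {V : Finset ι}
    (hV : ∀ a b, a ∉ V → b ∈ V → G.A a b = 0) : (bl G.B V).det * (bl G.A V).det = 1 := by
  rw [← det_mul, bl_mul hG hV, det_one]

theorem dv_pos {G : GT ι} {s : ℕ} (hG : G.Ok s) {V : Finset ι}
    (hV : ∀ a b, a ∉ V → b ∈ V → G.A a b = 0) : 0 < G.dv V :=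
  abs_pos.2 (left_ne_zero_of_mul_eq_one (det_mul_det hG hV))

theorem detA_ne {G : GT ι} {s : ℕ} (hG : G.Ok s) {V : Finset ι}
    (hV : ∀ a b, a ∉ V → b ∈ V → G.A a b = 0) : (bl G.A V).det ≠ 0 :=
  right_ne_zero_of_mul_eq_one (det_mul_det hG hV)

theorem gq_ex0 {G : GT ι} {V : Finset ι} (hV : ∀ a b, a ∉ V → b ∈ V → G.A a b = 0) (y : V → ℤ) :
    gq G.A (cz (Br.ex0 V y)) = gq (bl G.A V) (toR y) := by
  have h1 : ∀ a, (G.A *ᵥ cz (Br.ex0 V y)) a = ∑ b : V, G.A a b * (y b : ℝ) := by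
    intro a
    rw [mulVec, dotProduct, Br.sum_bk (V := V) _ fun b hb => by
      simp [cz, Br.ex0_mem V y b hb]]
    exact sum_congr rfl fun b _ => by rw [cz, Br.ex0_coe]
  unfold gq qf
  rw [Br.sum_bk (V := V) _ fun a ha => by
    rw [h1, sum_eq_zero fun b _ => by rw [hV a b ha b.2, zero_mul]]
    ring]
  simp only [h1]
  rfl

/-- the Gaussian sum over a block is a theta value -/
theorem tk_eq {G : GT ι} {V : Finset ι} (hV : ∀ a b, a ∉ V → b ∈ V → G.A a b = 0) :
    tk G (Lat V) = th (bl G.A V) 0 := by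
  rw [tk, ← _root_.tsum_subtype, th_zero]
  have h := (Br.latE V).tsum_eq fun z => gq G.A (cz z.1)
  exact h.symm.trans (tsum_congr fun y => gq_ex0 hV y)

/-- dual form -/
theorem tk_dual {G : GT ι} {s : ℕ} (hG : G.Ok s) {V : Finset ι}
    (hV : ∀ a b, a ∉ V → b ∈ V → G.A a b = 0) :
    tk G (Lat V) = th (bl G.B V)ᵀ 0 * G.dv V := by
  have h1 : (bl G.A V)⁻¹ = bl G.B V := Matrix.inv_eq_left_inv (bl_mul hG hV)
  have h2 := th_dual (detA_ne hG hV)
  have h3 : G.dv V * |(bl G.A V).det| = 1 := by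
    rw [GT.dv, ← abs_mul, det_mul_det hG hV, abs_one]
  rw [h1] at h2
  rw [tk_eq hV, h2]
  linear_combination (-th (bl G.A V) 0) * h3

/-- theta values are at least the expected mass -/
theorem dv_le_tk {G : GT ι} {s : ℕ} (hG : G.Ok s) {V : Finset ι}
    (hV : ∀ a b, a ∉ V → b ∈ V → G.A a b = 0) : G.dv V ≤ tk G (Lat V) := by
  have hd : ((bl G.B V)ᵀ).det ≠ 0 := by
    rw [det_transpose]
    exact left_ne_zero_of_mul_eq_one (det_mul_det hG hV)
  rw [tk_dual hG hV]
  exact le_mul_of_one_le_left (dv_pos hG hV).le (one_le_th hd)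

end BrP

open BrP

theorem br0 : BR := by
  intro s ι _ _ S h
  refine ⟨fun P hP => aok h (inv_le_one_of_one_le₀ hP) hP, ?_, ?_, ?_, fun V hV => dv_pos h.ok hV⟩
  · exact (summ h one_pos).congr fun z => by rw [one_pow, one_mul, St.wt]
  · exact (tsum_congr fun z => by rw [one_pow, one_mul, St.wt]).trans (ms_atc S 1).symm
  · simp [GT.mn, St.AT]

theorem br (_ : SUMM) : BR := br0

theorem tailw0 : TAILW := by
  intro s
  obtain ⟨c, hc⟩ := p1m s
  refine ⟨c + 2, fun ι _ _ S WW P Z h hW hz => ?_⟩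
  have hP := hz.P2
  have h1 : P⁻¹ ≤ 1 / 2 := by
    rw [one_div]
    exact inv_anti₀ two_pos hP
  have h2 := (hc ι S.G (atc S (1 / 2)) WW P 0 h.ok hW hz (aok h h1 (by linarith))).2
  have e1 : (atc S (1 / 2)).U.filter (fun a => S.G.g a < 0) = ∅ := by simp
  have e2 : (atc S (1 / 2)).U.filter (fun a => ¬ S.G.g a < 0) = univ := by simp [atc]
  have e3 : S.G.ms ((atc S (1 / 2)).rs ∅) = 1 := by
    have hu : ∀ z : Lat (∅ : Finset ι), z = 0 := fun z =>
      Subtype.ext (funext fun a => z.2 a (notMem_empty a))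
    rw [GT.ms, tsum_eq_single (0 : Lat ((atc S (1 / 2)).rs ∅).U) fun z hz => absurd (hu z) hz]
    simp [GT.nu, AT.rs]
  have e4 : S.G.mn (atc S (1 / 2)).sg univ = S.G.dv univ * 2 ^ Fintype.card ι := by
    simp [GT.mn, atc]
  rw [e1, e2, e3, e4, ms_atc, mul_one] at h2
  have hs := summ h (σ := 1 / 2) (by norm_num)
  have h3 : ∑' z : ι → ℤ, (if Z ≤ S.sq z then S.wt z else 0) ≤
      Real.exp (-Z) * ∑' z : ι → ℤ, Real.exp (-π * ((1 / 2) ^ 2 * S.sq z)) := by
    rw [← tsum_mul_left]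
    have hb : ∀ z : ι → ℤ, (if Z ≤ S.sq z then S.wt z else 0) ≤
        Real.exp (-Z) * Real.exp (-π * ((1 / 2) ^ 2 * S.sq z)) := by
      intro z
      split_ifs with hz
      · rw [St.wt, ← Real.exp_add, Real.exp_le_exp]
        have := sq_nn S z
        have := Real.pi_gt_three
        nlinarith
      · positivity
    have h0 : ∀ z : ι → ℤ, 0 ≤ (if Z ≤ S.sq z then S.wt z else 0) := by
      intro z
      split_ifs
      · exact (Real.exp_pos _).le
      · exact le_rfl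
    exact (Summable.of_nonneg_of_le h0 hb (hs.mul_left _)).tsum_le_tsum hb (hs.mul_left _)
  have h4 : (2 : ℝ) ^ Fintype.card ι ≤ Real.exp P := by
    refine le_trans ?_ (Real.exp_le_exp.2 hz.cd)
    rw [← mul_one (Fintype.card ι : ℝ), Real.exp_nat_mul]
    refine pow_le_pow_left₀ zero_le_two ?_ _
    linarith [Real.add_one_le_exp 1]
  have hd := dv_nonneg S.G univ
  have h5 : 1 ≤ P ^ c := one_le_pow₀ (by linarith)
  have h6 := hW.nn 0
  have h7 : P ^ c * (1 + WW 0) + P ≤ P ^ (c + 2) * (1 + WW 0) := by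
    have a1 : P ^ c + P ≤ P ^ (c + 2) := by
      rw [pow_add]
      nlinarith [mul_le_mul h5 hP zero_le_two (by linarith : (0 : ℝ) ≤ P ^ c),
        mul_nonneg (by linarith : (0 : ℝ) ≤ P ^ c - 1) (by linarith : (0 : ℝ) ≤ P),
        mul_nonneg (mul_nonneg (by linarith : (0 : ℝ) ≤ P ^ c) (by linarith : (0 : ℝ) ≤ P))
          (by linarith : (0 : ℝ) ≤ P - 2),
        mul_nonneg (by linarith : (0 : ℝ) ≤ P ^ c) (by linarith : (0 : ℝ) ≤ P - 1)]
    nlinarith [mul_nonneg (by linarith : (0 : ℝ) ≤ P ^ (c + 2) - P ^ c) h6]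
  calc _ ≤ Real.exp (-Z) * (Real.exp (P ^ c * (1 + WW 0)) * (S.G.dv univ * Real.exp P)) := by
        refine h3.trans (mul_le_mul_of_nonneg_left (h2.trans ?_) (Real.exp_pos _).le)
        gcongr
    _ = Real.exp (P ^ c * (1 + WW 0) + P - Z) * S.G.dv univ := by
        rw [sub_eq_add_neg, Real.exp_add, Real.exp_add]
        ring
    _ ≤ _ := by gcongr

theorem tailw (_ : P1M) (_ : BR) : TAILW := tailw0

theorem phi : PHI := by
  intro s ι _ _ G V θ k hG hV h hk hkV
  by_contra hn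
  push Not at hn
  have hd : ((bl G.B V)ᵀ).det ≠ 0 := by
    rw [det_transpose]
    exact left_ne_zero_of_mul_eq_one (det_mul_det hG hV)
  rw [tk_dual hG hV] at h
  have h1 : th (bl G.B V)ᵀ 0 ≤ Real.exp θ := le_of_mul_le_mul_right h (dv_pos hG hV)
  have h0 : 0 ≤ θ := Real.one_le_exp_iff.1 ((one_le_th hd).trans h1)
  set D : ℝ := (Fintype.card ι : ℝ) with hD
  have hD0 : 0 ≤ D := Nat.cast_nonneg _
  set ε : ℝ := Real.exp (-(θ + D + 4)) with hε
  set M : ℕ := ⌈Real.exp (θ + 2)⌉₊ with hM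
  set y : V → ℤ := fun a => k a with hy
  have hy0 : y ≠ 0 := by
    intro hy0
    refine hk (funext fun a => ?_)
    by_cases ha : a ∈ V
    · exact congrFun hy0 ⟨a, ha⟩
    · exact hkV a ha
  have hM1 : Real.exp (θ + 2) ≤ M := Nat.le_ceil _
  have hM2 : (M : ℝ) ≤ Real.exp (θ + 3) := by
    have a1 : (M : ℝ) < Real.exp (θ + 2) + 1 := Nat.ceil_lt_add_one (Real.exp_pos _).le
    have a2 : 1 ≤ Real.exp (θ + 2) := Real.one_le_exp (by linarith)
    have a3 : Real.exp (θ + 3) = Real.exp (θ + 2) * Real.exp 1 := by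
      rw [← Real.exp_add]
      congr 1
      ring
    nlinarith [Real.add_one_le_exp 1]
  have hq : qf (bl G.B V)ᵀ (toR y) ≤ D * ε ^ 2 := by
    have a1 : ∀ a : V, ((bl G.B V)ᵀ *ᵥ toR y) a ^ 2 ≤ ε ^ 2 := by
      intro a
      have a2 : ((bl G.B V)ᵀ *ᵥ toR y) a = ∑ b, (k b : ℝ) * G.B b a := by
        rw [Br.sum_bk (V := V) _ fun b hb => by simp [hkV b hb], mulVec, dotProduct]
        exact sum_congr rfl fun b _ => mul_comm _ _
      rw [a2]
      exact sq_le_sq' (abs_le.1 (hn a a.2).le).1 (abs_le.1 (hn a a.2).le).2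
    have a3 : (Fintype.card V : ℝ) ≤ D := Nat.cast_le.2 (Fintype.card_subtype_le _)
    refine (sum_le_card_nsmul _ _ _ fun a _ => a1 a).trans ?_
    rw [nsmul_eq_mul, card_univ]
    gcongr
  have hinj : Function.Injective fun n : ℕ => (n : ℤ) • y := fun n m hnm =>
    Nat.cast_injective (smul_left_injective ℤ hy0 hnm)
  have hc := card_le hd 0 (K := 1 / 4) ((range M).image fun n : ℕ => (n : ℤ) • y) fun z hz => by
    obtain ⟨n, hn, rfl⟩ := mem_image.1 hz
    have a1 : qf (bl G.B V)ᵀ (0 + toR ((n : ℤ) • y)) = (n : ℝ) ^ 2 * qf (bl G.B V)ᵀ (toR y) := by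
      have : 0 + toR ((n : ℤ) • y) = (n : ℝ) • toR y := by
        ext i
        simp
      rw [this]
      simp only [qf, mulVec_smul, Pi.smul_apply, smul_eq_mul, mul_pow, Finset.mul_sum]
    have a2 : (n : ℝ) ≤ Real.exp (θ + 3) :=
      (Nat.cast_le.2 (mem_range.1 hn).le).trans hM2
    have a3 : Real.exp (θ + 3) ^ 2 * (Real.exp D * ε ^ 2) = Real.exp (-D - 2) := by
      rw [hε, sq, sq]
      simp only [← Real.exp_add]
      congr 1
      ring
    have a4 : D ≤ Real.exp D := by linarith [Real.add_one_le_exp D]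
    have a5 : Real.exp (-D - 2) ≤ 1 / 4 := by
      have b1 : Real.exp (-D - 2) * (Real.exp 1 * Real.exp 1) ≤ 1 := by
        simp only [← Real.exp_add]
        exact Real.exp_le_one_iff.2 (by linarith)
      have b2 := Real.add_one_le_exp 1
      have b3 := Real.exp_pos (-D - 2)
      nlinarith [mul_nonneg b3.le (by nlinarith : 0 ≤ Real.exp 1 * Real.exp 1 - 4)]
    rw [a1]
    refine le_trans ?_ (a3.le.trans a5)
    have a6 := qf_nonneg (bl G.B V)ᵀ (toR y)
    have a7 : qf (bl G.B V)ᵀ (toR y) ≤ Real.exp D * ε ^ 2 := hq.trans (by gcongr)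
    gcongr
  rw [card_image_of_injective _ hinj, card_range] at hc
  have h2 : Real.exp (π * (1 / 4)) * th (bl G.B V)ᵀ 0 ≤ Real.exp 1 * Real.exp θ := by
    have := (th_pos hd 0).le
    have := Real.pi_le_four
    gcongr
    linarith
  have h3 := (hM1.trans hc).trans h2
  rw [← Real.exp_add, Real.exp_le_exp] at h3
  linarith

end

end Vale.Agent.P057T.Rg
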