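import Vale.Agent.P057T.Rg.Defs

/-! Row HRM: Hermite bases of the exact parts of all groups. -/

set_option linter.all false

open MvPolynomial Finset
open scoped Real

namespace Vale.Agent.P057T.Rg

open Vale.Agent.P057T.Eq Vale.Agent.P057T.Herm

namespace HrmA

variable {ι : Type} [Fintype ι] [DecidableEq ι]

/-- extension by the identity -/
def ext (V : Finset ι) (U : Matrix V V ℤ) : Matrix ι ι ℤ := fun a b =>
  if h : a ∈ V ∧ b ∈ V then U ⟨a, h.1⟩ ⟨b, h.2⟩ else if a = b then 1 else 0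

theorem ext_in {V : Finset ι} (U : Matrix V V ℤ) (a b : V) : ext V U a b = U a b :=
  dif_pos ⟨a.2, b.2⟩

theorem ext_l {V : Finset ι} (U : Matrix V V ℤ) {a : ι} (h : a ∉ V) (b : ι) :
    ext V U a b = if a = b then 1 else 0 := dif_neg fun c => h c.1

theorem ext_r {V : Finset ι} (U : Matrix V V ℤ) (a : ι) {b : ι} (h : b ∉ V) :
    ext V U a b = if a = b then 1 else 0 := dif_neg fun c => h c.2

theorem sum_V {M : Type} [AddCommMonoid M] (V : Finset ι) (f : ι → M) (h : ∀ c, c ∉ V → f c = 0) :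
    ∑ c, f c = ∑ c : V, f c.1 := by
  rw [sum_coe_sort V f]
  exact (sum_subset (subset_univ V) fun c _ hc => h c hc).symm

theorem ext_mul {V : Finset ι} {U U' : Matrix V V ℤ} (h : U * U' = 1) :
    ext V U * ext V U' = 1 := by
  ext a c
  rw [Matrix.mul_apply, Matrix.one_apply]
  by_cases ha : a ∈ V
  · rw [sum_V V _ fun b hb => by rw [ext_r U a hb, if_neg (fun e : a = b => hb (e ▸ ha)), zero_mul]]
    by_cases hc : c ∈ V
    · have := congrFun (congrFun h ⟨a, ha⟩) ⟨c, hc⟩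
      rw [Matrix.mul_apply, Matrix.one_apply] at this
      simp only [Subtype.mk.injEq] at this
      rw [← this]
      exact sum_congr rfl fun b _ => congrArg₂ _ (ext_in U ⟨a, ha⟩ b) (ext_in U' b ⟨c, hc⟩)
    · rw [if_neg fun e : a = c => hc (e ▸ ha)]
      exact sum_eq_zero fun b _ => by
        rw [ext_r U' _ hc, if_neg (fun e : b.1 = c => hc (e ▸ b.2)), mul_zero]
  · rw [sum_eq_single a (fun b _ hb => by rw [ext_l U ha, if_neg hb.symm, zero_mul])
      (fun h => (h (mem_univ _)).elim), ext_l U ha, ext_l U' ha, if_pos rfl, one_mul]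

theorem ext_ne {V : Finset ι} {U : Matrix V V ℤ} {a b : ι} (h : ext V U a b ≠ 0) :
    a = b ∨ (a ∈ V ∧ b ∈ V) := by
  by_contra hc
  rw [not_or] at hc
  exact h ((dif_neg hc.2).trans (if_neg hc.1))

/-- the Hermite property on one group -/
def Hg (S : St ι) (g : ℕ) : Prop := ∀ j ∈ S.G.ex, S.G.g j = g → ∀ x : ι → ℝ,
  (∀ c, x c ≠ 0 → c ∈ S.G.ex ∧ S.G.g c = S.G.g j) →
  x j ^ 2 * ∑ a ∈ S.G.ex, S.G.A a j ^ 2 ≤
    2 ^ (Fintype.card ι ^ 2) * ∑ a ∈ S.G.ex, (∑ c, S.G.A a c * x c) ^ 2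

theorem step (hR : RECO) {s N : ℕ} {A : Finset ℤ} {S : St ι} {θ θn : ℕ → ℝ} {γ ρ b : ℝ}
    (h : S.Inv s N A θ θn γ ρ b) (g : ℕ) : ∃ S' : St ι, S'.Inv s N A θ θn γ ρ b ∧ S.Sa S' ∧
      Hg S' g ∧ ∀ g', g' ≠ g → Hg S g' → Hg S' g' := by
  set V := gp S.G g ∩ S.G.ex with hV
  have mV : ∀ a, a ∈ V ↔ S.G.g a = g ∧ a ∈ S.G.ex := fun a => by simp [hV, gp]
  have z1 : ∀ a ∈ V, ∀ c, c ∉ V → S.G.A a c = 0 := fun a ha c hc => by
    by_contra h0
    refine hc ((mV c).2 ⟨(h.ok.ok.blk a c (Or.inl h0)).1 ▸ ((mV a).1 ha).1, ?_⟩)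
    by_contra he
    exact h0 (h.ok.tri a ((mV a).1 ha).2 c he).1
  let M : Matrix V V ℝ := S.G.A.submatrix Subtype.val Subtype.val
  have hM : M * S.G.B.submatrix Subtype.val Subtype.val = (1 : Matrix V V ℝ) := by
    ext a c
    have := congrFun (congrFun h.ok.ok.AB a.1) c.1
    rw [Matrix.mul_apply, sum_V V _ fun b hb => by rw [z1 a.1 a.2 b hb, zero_mul],
      Matrix.one_apply] at this
    rw [Matrix.mul_apply, Matrix.one_apply]
    simp only [Subtype.ext_iff]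
    exact this
  have d0 : M.det ≠ 0 := Matrix.det_ne_zero_of_right_inverse hM
  obtain ⟨U, u1, u2⟩ := hermite M d0
  have d1 : (M * cs U).det ^ 2 = M.det ^ 2 := by
    rw [Matrix.det_mul, mul_pow, det_cs_sq u1, mul_one]
  have d2 : (M * cs U).det ≠ 0 := fun e => by
    rw [e] at d1
    exact pow_ne_zero 2 d0 (by rw [← d1]; ring)
  have cr := cramer_bound (M * cs U) d2 (d1 ▸ u2)
  obtain ⟨S', i1, i2, i3, -⟩ := hR s N A ι S θ θn γ ρ b g V (ext V U) (ext V U⁻¹) h (Or.inl rfl)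
    (ext_mul (Matrix.mul_nonsing_inv U u1)) (fun a b h => h.elim ext_ne ext_ne)
    (fun a ha => ⟨(ext_l _ ha a).trans (if_pos rfl), (ext_l _ ha a).trans (if_pos rfl)⟩)
  have a0 : ∀ a c, S'.G.A a c = ∑ b, S.G.A a b * (ext V U b c : ℝ) := fun a c => by
    rw [i3, Matrix.mul_apply]; rfl
  have a1 : ∀ a c, c ∉ V → S'.G.A a c = S.G.A a c := fun a c hc => by
    rw [a0, sum_eq_single c (fun b _ hb => by rw [ext_r U b hc, if_neg hb, Int.cast_zero, mul_zero])
      (fun h => (h (mem_univ _)).elim), ext_r U c hc, if_pos rfl, Int.cast_one, mul_one]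
  have a2 : ∀ a c : V, S'.G.A a c = (M * cs U) a c := fun a c => by
    rw [a0, sum_V V _ fun b hb => by rw [z1 a.1 a.2 b hb, zero_mul], Matrix.mul_apply]
    exact sum_congr rfl fun b _ => by rw [ext_in U b c]; rfl
  refine ⟨S', i1, i2, fun j hj hg x hx => ?_, fun g' hg' H j hj hg x hx => ?_⟩
  · rw [i2.2.2] at hj ⊢
    rw [i2.1] at hg
    rw [i2.1, i2.2.2] at hx
    have jV : j ∈ V := (mV j).2 ⟨hg, hj⟩
    have xV : ∀ c, c ∉ V → x c = 0 := fun c hc => by
      by_contra h0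
      exact hc ((mV c).2 ⟨(hx c h0).2.trans hg, (hx c h0).1⟩)
    have sV : V ⊆ S.G.ex := inter_subset_right
    have e1 : ∑ a ∈ S.G.ex, S'.G.A a j ^ 2 = ∑ a : V, (M * cs U) a ⟨j, jV⟩ ^ 2 := by
      rw [← sum_subset sV fun a ha hn => ?_, ← sum_coe_sort V]
      · exact sum_congr rfl fun a _ => by rw [a2 a ⟨j, jV⟩]
      · have : S'.G.A a j = 0 := by
          by_contra h0
          have := (i1.ok.ok.blk a j (Or.inl h0)).1
          rw [i2.1] at this
          exact hn ((mV a).2 ⟨this.trans hg, ha⟩)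
        rw [this]; ring
    have e2 : ql (M * cs U) (fun c => x c.1) ≤ ∑ a ∈ S.G.ex, (∑ c, S'.G.A a c * x c) ^ 2 := by
      refine le_trans (le_of_eq ?_) (sum_le_sum_of_subset_of_nonneg sV fun _ _ _ => sq_nonneg _)
      rw [← sum_coe_sort V, ql]
      refine sum_congr rfl fun a _ => ?_
      rw [sum_V V _ fun c hc => by rw [xV c hc, mul_zero]]
      exact congrArg (· ^ 2) (sum_congr rfl fun c _ => by rw [a2 a c])
    rw [e1]
    refine (cr (fun c => x c.1) ⟨j, jV⟩).trans (mul_le_mul ?_ e2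
      (sum_nonneg fun _ _ => sq_nonneg _) (by positivity))
    refine pow_le_pow_right₀ (by norm_num) ?_
    rw [sq]
    exact Nat.mul_le_mul (Fintype.card_subtype_le _) (Fintype.card_subtype_le _)
  · rw [i2.2.2] at hj ⊢
    rw [i2.1] at hg
    rw [i2.1, i2.2.2] at hx
    have nV : ∀ c, S.G.g c = S.G.g j → c ∉ V := fun c hc hv =>
      hg' (hg.symm.trans (hc.symm.trans ((mV c).1 hv).1))
    rw [sum_congr rfl fun a _ => by rw [a1 a j (nV j rfl)],
      sum_congr (f := fun a => (∑ c, S'.G.A a c * x c) ^ 2)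
        (g := fun a => (∑ c, S.G.A a c * x c) ^ 2) rfl fun a _ =>
        congrArg (· ^ 2) (sum_congr rfl fun c _ => by
          by_cases h0 : x c = 0
          · rw [h0, mul_zero, mul_zero]
          · rw [a1 a c (nV c (hx c h0).2)])]
    exact H j hj hg x hx

end HrmA

theorem hrm (hR : RECO) : HRM := by
  intro s N A ι _ _ S θ θn γ ρ b h
  have key : ∀ n : ℕ, ∃ S' : St ι, S'.Inv s N A θ θn γ ρ b ∧ S.Sa S' ∧ ∀ g < n, HrmA.Hg S' g := by
    intro n
    induction n with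
    | zero => exact ⟨S, h, ⟨rfl, rfl, rfl⟩, fun g hg => by omega⟩
    | succ n ih =>
      obtain ⟨S1, a1, a2, a3⟩ := ih
      obtain ⟨S2, b1, b2, b3, b4⟩ := HrmA.step hR a1 n
      refine ⟨S2, b1, ⟨b2.1.trans a2.1, b2.2.1.trans a2.2.1, b2.2.2.trans a2.2.2⟩, fun g hg => ?_⟩
      by_cases e : g = n
      · exact e ▸ b3
      · exact b4 g e (a3 g (by omega))
  obtain ⟨S', a1, a2, a3⟩ := key s
  exact ⟨S', a1, a2, fun j hj => a3 _ (a1.ok.ok.gs j) j hj rfl⟩

end Vale.Agent.P057T.Rg
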