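import Vale.Agent.P057T.Rg.Defs
import Vale.Agent.P057T.Eq.Bdw

/-! Adding a small form to one chart. -/

set_option linter.all false

open MvPolynomial Finset
open scoped Real

namespace Vale.Agent.P057T.Rg

open Vale.Agent.P057T.Eq Vale.Agent.P057L

noncomputable section

namespace Pe

variable {ι : Type} [Fintype ι] [DecidableEq ι] {G : GT ι}

theorem dl_add {e : ℕ} {F F' : MvPolynomial ι ℝ} (h : G.Dl e F) (h' : G.Dl e F') :
    G.Dl e (F + F') := fun m hm => (mem_union.1 (support_add hm)).elim (h m) (h' m)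

theorem dl_mul {a b : ℕ} {F F' : MvPolynomial ι ℝ} (h : G.Dl a F) (h' : G.Dl (b + 1) F') :
    G.Dl (a + b) (F * F') := fun m hm => by
  obtain ⟨x, hx, y, hy, rfl⟩ := mem_add.1 (support_mul F F' hm)
  have h1 := h x hx
  have h2 := h' y hy
  rw [map_add]
  omega

theorem hm_dl {e : ℕ} {F : MvPolynomial ι ℝ} (h : G.Hm e F) : G.Dl (e + 1) F := fun m hm => by
  rw [h (mem_support_iff.1 hm)]
  omega

theorem dl_zero (e : ℕ) : G.Dl e 0 := fun m hm => by simp at hm

/-- equal up to lower order -/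
def Nr (G : GT ι) (e : ℕ) (u v : MvPolynomial ι ℝ) : Prop := G.Dl (e + 1) v ∧ G.Dl e (u - v)

theorem Nr.mul {a b : ℕ} {u v u' v' : MvPolynomial ι ℝ} (h : Nr G a u v) (h' : Nr G b u' v') :
    Nr G (a + b) (u * u') (v * v') := by
  have h1 : G.Dl (b + 1) u' := by
    rw [show u' = u' - v' + v' by ring]
    exact dl_add (h'.2.mono (by omega)) h'.1
  refine ⟨(dl_mul h.1 h'.1).mono (by omega), ?_⟩
  rw [show u * u' - v * v' = (u - v) * u' + (u' - v') * v by ring]
  exact dl_add (dl_mul h.2 h1) ((dl_mul h'.2 h.1).mono (by omega))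

theorem nr_C (c : ℝ) : Nr G 0 (C c) (C c) :=
  ⟨hm_dl (isWeightedHomogeneous_C G.w c), by rw [sub_self]; exact dl_zero 0⟩

theorem Nr.pow {a : ℕ} {u v : MvPolynomial ι ℝ} (h : Nr G a u v) (n : ℕ) :
    Nr G (n * a) (u ^ n) (v ^ n) := by
  induction n with
  | zero => simpa using nr_C (G := G) 1
  | succ n ih => rw [pow_succ, pow_succ, Nat.succ_mul]; exact ih.mul h

theorem dl_aeval {u v : ι → MvPolynomial ι ℝ} (h : ∀ a, Nr G (G.w a) (u a) (v a)) {e : ℕ}
    {f : MvPolynomial ι ℝ} (hf : G.Hm e f) : G.Dl e (aeval u f - aeval v f) := by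
  rw [f.as_sum, map_sum, map_sum, ← sum_sub_distrib]
  refine sum_induction _ (G.Dl e) (fun _ _ => dl_add) (dl_zero e) fun m hm => ?_
  have h1 : ∀ t : Finset ι, Nr G (∑ a ∈ t, m a * G.w a) (∏ a ∈ t, u a ^ m a)
      (∏ a ∈ t, v a ^ m a) := fun t => by
    induction t using Finset.induction_on with
    | empty => simpa using nr_C (G := G) 1
    | insert a t ha ih =>
      rw [sum_insert ha, prod_insert ha, prod_insert ha]
      exact ((h a).pow (m a)).mul ih
  have h2 := ((nr_C (coeff m f)).mul (h1 m.support)).2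
  rw [aeval_monomial, aeval_monomial, ← hf (mem_support_iff.1 hm), Finsupp.weight_apply]
  rw [zero_add] at h2
  exact h2

/-- the perturbed tower -/
def ns (S : St ι) (j : ι) (f : MvPolynomial ι ℝ) : St ι where
  G := { S.G with q := fun a => S.G.q a - C (S.G.B a j) * aeval S.G.th f }
  p := fun a => S.p a + if a = j then aeval S.ch f - aeval S.G.th f else 0
  pi := S.pi

variable {S : St ι} {s : ℕ} {j : ι} {f : MvPolynomial ι ℝ}

theorem ns_ch (h : S.Ok s) (a : ι) :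
    (ns S j f).ch a = S.ch a + if a = j then aeval S.ch f else 0 := by
  have e : (ns S j f).G.th a = S.G.th a + if a = j then aeval S.G.th f else 0 := by
    have h1 := congrFun (congrFun h.ok.AB a) j
    rw [Matrix.mul_apply, Matrix.one_apply] at h1
    have h2 : (if a = j then aeval S.G.th f else 0) =
        C (∑ b, S.G.A a b * S.G.B b j) * aeval S.G.th f := by
      rw [h1]; split_ifs <;> simp
    rw [h2, map_sum, sum_mul]
    show ∑ b, C (S.G.A a b) * (X b - (S.G.q b - C (S.G.B b j) * aeval S.G.th f)) = _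
    rw [GT.th, ← sum_add_distrib]
    exact sum_congr rfl fun b _ => by rw [map_mul]; ring
  rw [St.ch, e, St.ch]
  show _ + (S.p a + if a = j then aeval S.ch f - aeval S.G.th f else 0) = _
  split_ifs <;> ring

theorem ns_ok (h : S.Ok s) (hj : j ∉ S.G.ex) (hl : S.G.Lo (S.G.g j) f) (hh : S.G.Hm (S.G.w j) f) :
    (ns S j f).Ok s := by
  have hG := h.ok
  refine ⟨⟨hG.w1, hG.ws, hG.gs, hG.AB, hG.blk, fun a => ?_, fun a => ?_, fun a ha => ?_⟩, h.lv,
    fun a => ?_, h.tri, h.pz, h.p1⟩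
  · show S.G.Hm (S.G.w a) (S.G.q a - C (S.G.B a j) * aeval S.G.th f)
    by_cases hb : S.G.B a j = 0
    · rw [hb, map_zero, zero_mul, sub_zero]; exact hG.qh a
    · refine (weightedHomogeneousSubmodule ℝ S.G.w _).sub_mem (hG.qh a) ?_
      rw [C_mul', (hG.blk a j (Or.inr hb)).2]
      exact (weightedHomogeneousSubmodule ℝ S.G.w _).smul_mem _ ((hm_iff hG _ f).1 hh)
  · show S.G.Lo (S.G.g a) (S.G.q a - C (S.G.B a j) * aeval S.G.th f)
    by_cases hb : S.G.B a j = 0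
    · rw [hb, map_zero, zero_mul, sub_zero]; exact hG.ql a
    · refine Chart.vars_sub' (hG.ql a) (Chart.vars_mul' (Chart.vars_C' _) ?_)
      rw [(hG.blk a j (Or.inr hb)).1]
      exact (lo_iff hG _ f).1 hl
  · show S.G.q a - C (S.G.B a j) * aeval S.G.th f = 0
    rw [hG.qe a ha, (h.tri a ha j hj).2, map_zero, zero_mul, sub_zero]
  · show S.G.Dl (S.G.w a) (S.p a + if a = j then aeval S.ch f - aeval S.G.th f else 0)
    refine dl_add (h.pd a) ?_
    split_ifs with ha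
    · rw [ha]
      exact dl_aeval (fun c => ⟨hm_dl (th_hm hG c), by rw [St.ch, add_sub_cancel_left]; exact h.pd c⟩) hh
    · exact dl_zero _

theorem ev_aeval (x : ι → ℝ) (u : ι → MvPolynomial ι ℝ) (f : MvPolynomial ι ℝ) :
    eval x (aeval u f) = eval (fun a => eval x (u a)) f := by
  induction f using MvPolynomial.induction_on with
  | C a => simp
  | add p q hp hq => simp only [map_add, hp, hq]
  | mul_X p b hp => simp only [map_mul, hp, aeval_X, eval_X]

theorem sq_near (h : S.Ok s) (hl : S.G.Lo (S.G.g j) f) (hh : S.G.Hm (S.G.w j) f) {Z : ℝ}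
    (hZ : 1 ≤ Z) (h1 : l1 f * Z ^ s ≤ 1) (z : ι → ℤ) (hz : S.sq z ≤ Z ∨ (ns S j f).sq z ≤ Z) :
    |(ns S j f).sq z - S.sq z| ≤ 3 * Z * (l1 f * Z ^ s) := by
  obtain ⟨u, hu⟩ : ∃ u : ι → ℝ, u = fun a => eval (cz z) (S.ch a) := ⟨_, rfl⟩
  obtain ⟨φ, hφ⟩ : ∃ φ, φ = eval u f := ⟨_, rfl⟩
  have e1 : S.sq z = u j ^ 2 + ∑ a ∈ univ.erase j, u a ^ 2 := by
    rw [hu, St.sq, ← add_sum_erase univ _ (mem_univ j)]
  have e2 : (ns S j f).sq z = (u j + φ) ^ 2 + ∑ a ∈ univ.erase j, u a ^ 2 := by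
    rw [hφ, hu, St.sq, ← add_sum_erase univ _ (mem_univ j), ns_ch h, if_pos rfl, map_add, ev_aeval]
    exact congrArg₂ (· + ·) rfl (sum_congr rfl fun a ha => by
      rw [ns_ch h, if_neg (ne_of_mem_erase ha), add_zero])
  have r0 : 0 ≤ ∑ a ∈ univ.erase j, u a ^ 2 := sum_nonneg fun _ _ => sq_nonneg _
  rw [e1, e2] at hz ⊢
  have r1 : ∑ a ∈ univ.erase j, u a ^ 2 ≤ Z :=
    hz.elim (fun hz => (le_add_of_nonneg_left (sq_nonneg _)).trans hz)
      fun hz => (le_add_of_nonneg_left (sq_nonneg _)).trans hz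
  have ab : ∀ x : ℝ, x ^ 2 ≤ Z → |x| ≤ Z := fun x hx =>
    abs_le_of_sq_le_sq' (by nlinarith) (by linarith) |> abs_le.2
  have b1 : |φ| ≤ l1 f * Z ^ s := by
    have e3 : φ = eval (Function.update u j 0) f := hφ.trans <|
      hom_congr_vars (f₁ := eval u) (f₂ := eval (Function.update u j 0)) (by ext r; simp)
        (fun i hi _ => by
          have : i ≠ j := fun e => lt_irrefl _ (e ▸ hl i hi)
          simp [Function.update_of_ne this]) rfl
    rw [e3]
    refine L1.abs_eval_le hZ (fun i => ?_)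
      ((Chart.totalDegree_le_of_hom h.ok.w1 hh).trans (h.ok.ws j))
    by_cases hi : i = j
    · rw [hi, Function.update_self, abs_zero]; linarith
    · rw [Function.update_of_ne hi]
      exact ab _ ((single_le_sum (f := fun a => u a ^ 2) (fun _ _ => sq_nonneg _)
        (mem_erase.2 ⟨hi, mem_univ i⟩)).trans r1)
  have b2 : |2 * u j + φ| ≤ 3 * Z := by
    have c1 := abs_le.1 (b1.trans h1)
    rcases hz with hz | hz
    · have c2 := abs_le.1 (ab (u j) (by linarith))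
      exact abs_le.2 ⟨by linarith, by linarith⟩
    · have c2 := abs_le.1 (ab (u j + φ) (by linarith))
      exact abs_le.2 ⟨by linarith, by linarith⟩
  rw [show (u j + φ) ^ 2 + ∑ a ∈ univ.erase j, u a ^ 2 -
    (u j ^ 2 + ∑ a ∈ univ.erase j, u a ^ 2) = (2 * u j + φ) * φ by ring, abs_mul]
  exact mul_le_mul b2 b1 (abs_nonneg _) (by linarith)

theorem num {P Ω : ℝ} (hP : 2 ≤ P) (hΩ : 1 ≤ Ω) (c : ℕ) :
    P ^ c * (1 + (Ω + P + 5 + P ^ 2)) + (2 * Ω + 3) ≤ (P * Ω) ^ (c + 5) := by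
  have h1 : 1 ≤ P ^ c := one_le_pow₀ (by linarith)
  have h2 : 4 ≤ P ^ 2 := by nlinarith
  have h3 : 1 + (Ω + P + 5 + P ^ 2) ≤ 4 * P ^ 2 * Ω := by nlinarith
  have h4 : 2 * Ω + 3 ≤ P ^ c * (4 * P ^ 2 * Ω) := by nlinarith
  have h5 : Ω ≤ Ω ^ (c + 5) := le_self_pow₀ hΩ (by omega)
  have h6 : 8 ≤ P ^ 3 := by nlinarith
  have h7 := mul_le_mul_of_nonneg_left h3 (zero_le_one.trans h1)
  have h8 : P ^ c * P ^ 2 * 8 * Ω ≤ P ^ c * P ^ 2 * P ^ 3 * Ω ^ (c + 5) :=
    mul_le_mul (mul_le_mul_of_nonneg_left h6 (by positivity)) h5 (by linarith) (by positivity)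
  rw [mul_pow, show P ^ (c + 5) = P ^ c * P ^ 2 * P ^ 3 by ring]
  linarith

theorem fin1 {η x y : ℝ} (h0 : 0 < η) (h1 : η ≤ 1 / 2) (hx : 0 ≤ x) (hy : 0 ≤ y)
    (h : (1 - η / 8) * y ≤ (1 + η / 8) * x) : (1 - η) * y ≤ (1 - η / 4) * x := by
  refine le_of_mul_le_mul_left ?_ (show 0 < 1 - η / 8 by linarith)
  have h2 := mul_le_mul_of_nonneg_left h (show 0 ≤ 1 - η by linarith)
  have h3 : (1 - η) * (1 + η / 8) ≤ (1 - η / 8) * (1 - η / 4) := by nlinarith
  nlinarith [mul_le_mul_of_nonneg_right h3 hx]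

end Pe

open Pe

theorem pert (hB : BR) (hT : TAILW) (hF : PHI) : PERT := by
  intro s
  obtain ⟨c, hT⟩ := hT s
  refine ⟨(c + 5) * (s + 1) + 7, fun N A ι _ _ S θ θn γ ρ b η P Ω j f h hP Ω1 hθ hγ η0 η1 hb hj
    hl hh hf => ?_⟩
  have P2 := hP.P2
  have hG := h.ok.ok
  have k1 := ns_ok h.ok hj hl hh
  have c0 : (0 : ℝ) ≤ Fintype.card ι := Nat.cast_nonneg _
  have hW : S.G.Wd fun _ => Ω + P + 5 + P ^ 2 := by
    refine Wb.wd_of_wf hG (WW := fun _ => Ω + Fintype.card ι + 4) antitone_const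
      (fun g k hk hg => ?_) antitone_const (fun _ => by positivity) fun _ => by
        nlinarith [pow_le_pow_left₀ c0 hP.cd 2, hP.cd]
    obtain ⟨a, -, ha⟩ := hF s ι S.G (gp S.G g) (θ g) k hG (fun a c h1 h2 => by
      by_contra h3
      exact h1 (mem_filter.2 ⟨mem_univ _, (hG.blk a c (Or.inl h3)).1.trans (mem_filter.1 h2).2⟩))
      (h.ph g) hk fun a ha => by
        by_contra h3
        exact ha (mem_filter.2 ⟨mem_univ _, hg a h3⟩)
    exact ⟨a, le_trans (Real.exp_le_exp.2 (by linarith [hθ g])) ha⟩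
  have hW' : (ns S j f).G.Wd fun _ => Ω + P + 5 + P ^ 2 := ⟨hW.1, hW.2, hW.3⟩
  obtain ⟨Z, hZ⟩ : ∃ Z, Z = P ^ c * (1 + (Ω + P + 5 + P ^ 2)) + (2 * Ω + 3) := ⟨_, rfl⟩
  have Z1 : 1 ≤ Z := by
    have : 0 ≤ P ^ c * (1 + (Ω + P + 5 + P ^ 2)) := by positivity
    linarith
  have PΩ : 2 ≤ P * Ω := by nlinarith
  have l0 : 0 ≤ l1 f := sum_nonneg fun _ _ => abs_nonneg _
  have f1 : 128 * (Z * (l1 f * Z ^ s)) ≤ η := by
    refine le_trans ?_ hf
    have h1 : Z ^ (s + 1) ≤ (P * Ω) ^ ((c + 5) * (s + 1)) := by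
      rw [pow_mul]
      exact pow_le_pow_left₀ (by linarith) (hZ ▸ num P2 Ω1 c) _
    have h2 : (2 : ℝ) ^ 7 ≤ (P * Ω) ^ 7 := pow_le_pow_left₀ (by norm_num) PΩ 7
    rw [pow_add, show 128 * (Z * (l1 f * Z ^ s)) = l1 f * (Z ^ (s + 1) * 2 ^ 7) by ring]
    exact mul_le_mul_of_nonneg_left (mul_le_mul h1 h2 (by norm_num) (by positivity)) l0
  have f0 : 0 ≤ l1 f * Z ^ s := by positivity
  have f2 : l1 f * Z ^ s ≤ 1 := by nlinarith
  have nr : ∀ z, S.sq z ≤ Z ∨ (ns S j f).sq z ≤ Z →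
      |π * ((ns S j f).sq z - S.sq z)| ≤ η / 8 := fun z hz => by
    have h1 := sq_near h.ok hl hh Z1 f2 z hz
    rw [abs_mul, abs_of_pos Real.pi_pos]
    refine (mul_le_mul Real.pi_le_four h1 (abs_nonneg _) (by norm_num)).trans ?_
    nlinarith [mul_nonneg (zero_le_one.trans Z1) f0]
  have w0 : ∀ (S : St ι) z, 0 < S.wt z := fun _ _ => Real.exp_pos _
  have lo1 : ∀ z, (1 - η / 8) * S.wt z - (if Z ≤ S.sq z then S.wt z else 0) ≤
      (ns S j f).wt z := fun z => by
    split_ifs with hz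
    · nlinarith [w0 S z, w0 (ns S j f) z]
    · have h1 := (abs_le.1 (nr z (Or.inl (not_le.1 hz).le))).2
      rw [sub_zero, St.wt, St.wt, show -π * (ns S j f).sq z =
        -(π * ((ns S j f).sq z - S.sq z)) + -π * S.sq z by ring, Real.exp_add]
      exact mul_le_mul_of_nonneg_right
        (by linarith [Real.add_one_le_exp (-(π * ((ns S j f).sq z - S.sq z)))]) (Real.exp_pos _).le
  have up1 : ∀ z, (1 - η / 8) * (ns S j f).wt z -
      (if Z ≤ (ns S j f).sq z then (ns S j f).wt z else 0) ≤ S.wt z := fun z => by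
    split_ifs with hz
    · nlinarith [w0 S z, w0 (ns S j f) z]
    · have h1 := (abs_le.1 (nr z (Or.inr (not_le.1 hz).le))).1
      rw [sub_zero, St.wt, St.wt, show -π * S.sq z =
        π * ((ns S j f).sq z - S.sq z) + -π * (ns S j f).sq z by ring, Real.exp_add]
      exact mul_le_mul_of_nonneg_right
        (by linarith [Real.add_one_le_exp (π * ((ns S j f).sq z - S.sq z))]) (Real.exp_pos _).le
  have s1 := (hB s ι S h.ok).2.1
  have s2 := (hB s ι _ k1).2.1
  have st : ∀ S : St ι, Summable S.wt → Summable fun z => if Z ≤ S.sq z then S.wt z else 0 :=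
    fun S hs => hs.of_nonneg_of_le (fun z => by split_ifs; exacts [(w0 S z).le, le_rfl])
      fun z => by split_ifs; exacts [le_rfl, (w0 S z).le]
  have i0 : ∀ z, 0 ≤ S.ind A z ∧ S.ind A z ≤ 1 := fun z => by
    unfold St.ind
    split_ifs <;> norm_num
  have si : ∀ S' : St ι, Summable S'.wt → Summable fun z => S'.wt z * S.ind A z := fun S' hs =>
    hs.of_nonneg_of_le (fun z => mul_nonneg (w0 S' z).le (i0 z).1)
      fun z => mul_le_of_le_one_right (w0 S' z).le (i0 z).2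
  have m0 := ms_nonneg S
  have tl : Real.exp (P ^ c * (1 + (Ω + P + 5 + P ^ 2)) - Z) * S.G.dv univ ≤ η * b / 8 * S.ms := by
    have h1 : Real.exp (-3) ≤ 1 / 8 := by
      rw [Real.exp_neg, one_div]
      refine inv_anti₀ (by norm_num) ?_
      have h2 : (2 : ℝ) ≤ Real.exp 1 := by linarith [Real.add_one_le_exp 1]
      have h3 := pow_le_pow_left₀ (by norm_num) h2 3
      rw [← Real.exp_nat_mul] at h3
      norm_num at h3 ⊢
      exact h3
    have h2 := (mul_le_mul_of_nonneg_right (Real.exp_le_exp.2 (neg_le_neg hγ))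
      (dv_nonneg S.G univ)).trans h.ma
    rw [hZ, show P ^ c * (1 + (Ω + P + 5 + P ^ 2)) - (P ^ c * (1 + (Ω + P + 5 + P ^ 2)) +
      (2 * Ω + 3)) = -Ω + -3 + -Ω by ring, Real.exp_add, Real.exp_add, mul_assoc]
    refine mul_le_mul ?_ h2 (mul_nonneg (Real.exp_pos _).le (dv_nonneg _ _))
      (by linarith [Real.exp_pos (-Ω)])
    nlinarith [Real.exp_pos (-Ω), Real.exp_pos (-3 : ℝ)]
  have t1 := (hT ι S _ P Z h.ok hW hP).trans tl
  have t2 := (hT ι (ns S j f) _ P Z k1 hW' hP).trans tl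
  have a1 : (1 - η / 8) * S.ms - η * b / 8 * S.ms ≤ (ns S j f).ms := by
    have := ((s1.mul_left _).sub (st S s1)).tsum_le_tsum lo1 s2
    rw [(s1.mul_left _).tsum_sub (st S s1), tsum_mul_left] at this
    exact le_trans (sub_le_sub_left t1 _) this
  have a2 : (1 - η / 8) * (ns S j f).ms - η * b / 8 * S.ms ≤ S.ms := by
    have := ((s2.mul_left _).sub (st _ s2)).tsum_le_tsum up1 s1
    rw [(s2.mul_left _).tsum_sub (st _ s2), tsum_mul_left] at this
    exact le_trans (sub_le_sub_left t2 _) this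
  have a3 : (1 - η / 8) * S.hit A - η * b / 8 * S.ms ≤ (ns S j f).hit A := by
    have := (((si S s1).mul_left (1 - η / 8)).sub (st S s1)).tsum_le_tsum (fun z => by
      have h1 := mul_le_mul_of_nonneg_right (lo1 z) (i0 z).1
      have h2 : 0 ≤ (if Z ≤ S.sq z then S.wt z else 0) := by
        split_ifs; exacts [(w0 S z).le, le_rfl]
      have h3 := mul_le_mul_of_nonneg_left (i0 z).2 h2
      show _ ≤ (ns S j f).wt z * S.ind A z
      nlinarith) (si _ s2)
    rw [((si S s1).mul_left _).tsum_sub (st S s1), tsum_mul_left] at this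
    exact le_trans (sub_le_sub_left t1 _) this
  have a4 : S.hit A ≤ S.ms := (si S s1).tsum_le_tsum
    (fun z => mul_le_of_le_one_right (w0 S z).le (i0 z).2) s1
  have a5 := h.de
  have b0 : 0 < b := by
    by_contra h1
    nlinarith [Real.exp_pos (-Ω), mul_nonneg η0.le (neg_nonneg.2 (not_lt.1 h1))]
  have a6 : η * b / 8 * S.ms ≤ η / 8 * S.ms := by nlinarith
  refine ⟨ns S j f, ⟨k1, h.ph, h.pn, ?_, h.kr, ?_⟩, ⟨rfl, rfl, rfl⟩, rfl, rfl, fun a => rfl⟩
  · have h1 : Real.exp (-1) ≤ 1 / 2 := by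
      rw [Real.exp_neg, one_div]
      exact inv_anti₀ (by norm_num) (by linarith [Real.add_one_le_exp 1])
    have h2 := h.ma
    show Real.exp (-(γ + 1)) * S.G.dv univ ≤ _
    rw [show -(γ + 1) = -1 + -γ by ring, Real.exp_add, mul_assoc]
    have h3 := mul_le_mul h1 h2 (mul_nonneg (Real.exp_pos _).le (dv_nonneg _ _)) (by norm_num)
    nlinarith
  · have m1 := ms_nonneg (ns S j f)
    have h1 : (1 - η / 8) * (ns S j f).ms ≤ (1 + η / 8) * S.ms := by linarith
    have h2 : (1 - η) * (ns S j f).ms ≤ (1 - η / 4) * S.ms := fin1 η0 η1 m0 m1 h1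
    have h3 := mul_le_mul_of_nonneg_left h2 b0.le
    have h4 := mul_le_mul_of_nonneg_left a5 (show 0 ≤ 1 - η / 8 by linarith)
    refine le_trans ?_ a3
    calc (1 - η) * b * (ns S j f).ms = b * ((1 - η) * (ns S j f).ms) := by ring
      _ ≤ b * ((1 - η / 4) * S.ms) := h3
      _ = (1 - η / 8) * (b * S.ms) - η * b / 8 * S.ms := by ring
      _ ≤ _ := sub_le_sub_right h4 _

end

end Vale.Agent.P057T.Rg
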