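import Vale.Agent.P057T.Rg.Defs
import Vale.Agent.P057T.Chart

/-! Round of type A. -/

open MvPolynomial Finset

namespace Vale.Agent.P057T.Rg

open Vale.Agent.P057T.Eq Vale.Agent.P057T.L1

set_option linter.unusedSectionVars false

theorem l1_scale {ι : Type} {w : ι → ℕ} {e : ℕ} (he : 1 ≤ e) {f : MvPolynomial ι ℝ}
    (hf : f.IsWeightedHomogeneous w e) {σ : ℝ} (h0 : 0 ≤ σ) (h1 : σ ≤ 1) :
    l1 (aeval (fun a => (C σ * X a : MvPolynomial ι ℝ)) f) ≤ σ * l1 f := by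
  refine (nrm_aeval_le_sum _ f).trans ?_
  rw [l1, Finset.mul_sum]
  refine Finset.sum_le_sum fun m hm => ?_
  rw [mul_comm σ]
  refine mul_le_mul_of_nonneg_left ?_ (abs_nonneg _)
  have hn : ∀ i : ι, nrm (C σ * X i : MvPolynomial ι ℝ) = σ := fun i => by
    rw [nrm_C_mul, abs_of_nonneg h0]; simp
  simp only [hn]
  rw [Finset.prod_pow_eq_pow_sum]
  have hm0 : m ≠ 0 := by
    rintro rfl
    have := hf (mem_support_iff.1 hm)
    simp at this
    omega
  obtain ⟨i, hi⟩ := Finsupp.support_nonempty_iff.2 hm0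
  have h2 : 1 ≤ ∑ i ∈ m.support, m i :=
    le_trans (Nat.one_le_iff_ne_zero.2 (Finsupp.mem_support_iff.1 hi))
      (Finset.single_le_sum (f := fun i => m i) (fun _ _ => Nat.zero_le _) hi)
  simpa using pow_le_pow_of_le_one h0 h1 h2

theorem big_pow (c : ℕ) {P : ℝ} (hP : 2 ≤ P) :
    (c + 1 : ℝ) + P * (4 + c * ((4 * c + 7 : ℕ) + 4)) ≤ P ^ (4 * c + 7) := by
  have h1 : ((2 * c + 3 : ℕ) : ℝ) + 1 ≤ 2 ^ (2 * c + 3) := by
    exact_mod_cast Nat.lt_two_pow_self (n := 2 * c + 3)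
  have h2 : (2 : ℝ) ^ (2 * c + 3) ≤ P ^ (2 * c + 3) := pow_le_pow_left₀ zero_le_two hP _
  have h3 : P ^ (4 * c + 7) = P * (P ^ (2 * c + 3) * P ^ (2 * c + 3)) := by ring
  have hc : (0 : ℝ) ≤ c := Nat.cast_nonneg c
  have h4 : (((2 * c + 3 : ℕ) : ℝ) + 1) * (((2 * c + 3 : ℕ) : ℝ) + 1) ≤
      P ^ (2 * c + 3) * P ^ (2 * c + 3) :=
    mul_le_mul (h1.trans h2) (h1.trans h2) (by positivity) (by positivity)
  rw [h3]
  push_cast at h4 ⊢
  have h5 := mul_le_mul_of_nonneg_left h4 (by linarith : 0 ≤ P)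
  nlinarith [mul_nonneg hc hc]

theorem e3le : Real.exp (-3) ≤ 1 / 10 := by
  have h1 : (2.7 : ℝ) ≤ Real.exp 1 := by have := Real.exp_one_gt_d9; linarith
  have h2 : Real.exp 3 = Real.exp 1 ^ 3 := by rw [← Real.exp_nat_mul]; norm_num
  have h3 : (2.7 : ℝ) ^ 3 ≤ Real.exp 1 ^ 3 := pow_le_pow_left₀ (by norm_num) h1 3
  rw [Real.exp_neg, one_div]
  exact inv_anti₀ (by norm_num) (by rw [h2]; linarith)

theorem e2le : Real.exp (-2) ≤ 1 / 5 := by
  have h1 : (2.7 : ℝ) ≤ Real.exp 1 := by have := Real.exp_one_gt_d9; linarith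
  have h2 : Real.exp 2 = Real.exp 1 ^ 2 := by rw [← Real.exp_nat_mul]; norm_num
  have h3 : (2.7 : ℝ) ^ 2 ≤ Real.exp 1 ^ 2 := pow_le_pow_left₀ (by norm_num) h1 2
  rw [Real.exp_neg, one_div]
  exact inv_anti₀ (by norm_num) (by rw [h2]; linarith)

theorem ra_num (c : ℕ) : ∃ c2 : ℕ, ∀ P Λ h t D η : ℝ, 2 ≤ P → 1 ≤ Λ → 0 ≤ h → h ≤ Real.exp Λ →
    0 ≤ t → t ≤ Real.exp Λ → 0 ≤ D → D ≤ P → Real.exp (-Λ) ≤ η →
    ∃ l Ω : ℝ, 0 < l ∧ h + (t + P + 4) ≤ l ∧ 8 * Real.exp Λ ≤ Ω ∧ Real.exp Λ + D * l ≤ Ω ∧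
      Real.exp (t + P + 4 - l + h) * (P * Ω) ^ c ≤ η / 5 ∧
      D * l + D * l ≤ P ^ c2 * (h + t + Λ) := by
  obtain ⟨c1, hc1⟩ : ∃ c1 : ℕ, ∀ P : ℝ, 2 ≤ P →
      (c + 1 : ℝ) + P * (4 + c * ((c1 : ℝ) + 4)) ≤ P ^ c1 := ⟨4 * c + 7, fun P hP => big_pow c hP⟩
  refine ⟨c1 + 2, fun P Λ h t D η P2 hΛ hh0 hh hn0 hn hD0 hD' hη => ?_⟩
  have hbig := hc1 P P2
  have η0 : 0 < η := (Real.exp_pos _).trans_le hη
  have hc0 : (0 : ℝ) ≤ c := Nat.cast_nonneg c
  have P0 : 0 ≤ P := by linarith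
  have Pc1 : 1 ≤ P ^ c1 := one_le_pow₀ (by linarith)
  have c10 : (0 : ℝ) ≤ c1 := Nat.cast_nonneg _
  obtain ⟨l, hl⟩ : ∃ l, l = P ^ c1 * (h + t + Λ) := ⟨_, rfl⟩
  have hlb : h + t + (c + 1) * Λ + 4 * P + c * (((c1 : ℝ) + 4) * P) ≤ l := by
    have e1 : h + t ≤ P ^ c1 * (h + t) := le_mul_of_one_le_left (by linarith) Pc1
    have e2 := mul_le_mul_of_nonneg_right hbig (by linarith : 0 ≤ Λ)
    have e3 : P * (4 + c * ((c1 : ℝ) + 4)) ≤ P * (4 + c * ((c1 : ℝ) + 4)) * Λ :=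
      le_mul_of_one_le_right (by positivity) hΛ
    rw [hl]
    linarith
  have hcc : 0 ≤ c * (((c1 : ℝ) + 4) * P) := by positivity
  have hcΛ : 0 ≤ (c : ℝ) * Λ := by positivity
  have l0 : 0 < l := by linarith
  have EΛ : Λ + 1 ≤ Real.exp Λ := Real.add_one_le_exp Λ
  have PE : P ≤ Real.exp P := by have := Real.add_one_le_exp P; linarith
  have E0 := Real.exp_pos Λ
  have Q0 : 0 ≤ P ^ c1 := by linarith
  have P3 : P ^ c1 * 8 ≤ P ^ (c1 + 3) := by
    rw [pow_add]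
    refine mul_le_mul_of_nonneg_left ?_ Q0
    have := pow_le_pow_left₀ zero_le_two P2 3
    linarith
  have P4 : 4 * (P * P ^ c1) ≤ P ^ (c1 + 3) := by
    have : P ^ (c1 + 3) = P ^ 2 * (P * P ^ c1) := by ring
    rw [this]
    refine mul_le_mul_of_nonneg_right ?_ (by positivity)
    have := pow_le_pow_left₀ zero_le_two P2 2
    linarith
  refine ⟨l, P ^ (c1 + 3) * Real.exp Λ, l0, by linarith,
    mul_le_mul_of_nonneg_right (by linarith) E0.le, ?_, ?_, ?_⟩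
  · have e1 : l ≤ P ^ c1 * (3 * Real.exp Λ) := by
      rw [hl]; exact mul_le_mul_of_nonneg_left (by linarith) Q0
    have e2 : D * l ≤ P * (P ^ c1 * (3 * Real.exp Λ)) := mul_le_mul hD' e1 l0.le P0
    have e4 : 1 ≤ P * P ^ c1 := one_le_mul_of_one_le_of_one_le (by linarith) Pc1
    have e5 := mul_le_mul_of_nonneg_right P4 E0.le
    have e6 := mul_le_mul_of_nonneg_right e4 E0.le
    linarith
  · have e1 : P * (P ^ (c1 + 3) * Real.exp Λ) ≤ Real.exp (Λ + (c1 + 4) * P) := by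
      have : P * (P ^ (c1 + 3) * Real.exp Λ) = P ^ (c1 + 4) * Real.exp Λ := by ring
      rw [this, add_comm Λ, Real.exp_add]
      refine mul_le_mul_of_nonneg_right ?_ E0.le
      have e := pow_le_pow_left₀ P0 PE (c1 + 4)
      rw [← Real.exp_nat_mul] at e
      push_cast at e
      exact e
    have e2 := pow_le_pow_left₀ (by positivity) e1 c
    rw [← Real.exp_nat_mul] at e2
    refine (mul_le_mul_of_nonneg_left e2 (Real.exp_pos _).le).trans ?_
    rw [← Real.exp_add]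
    have e4 : Real.exp (-Λ + -2) ≤ η / 5 := by
      rw [Real.exp_add]
      have := mul_le_mul hη e2le (Real.exp_pos _).le η0.le
      linarith
    refine le_trans (Real.exp_le_exp.2 ?_) e4
    linarith
  · have : P ^ (c1 + 2) * (h + t + Λ) = P * (P * l) := by rw [hl]; ring
    rw [this]
    have e1 := mul_le_mul_of_nonneg_right hD' l0.le
    have e2 := mul_le_mul_of_nonneg_right P2 (by positivity : 0 ≤ P * l)
    linarith

theorem ra_eta {η b : ℝ} (h0 : 0 < η) (h1 : η ≤ 1 / 2) (b0 : 0 < b) :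
    η * b / 10 ≤ η / 5 * ((1 - 2 * (η / 5)) * b) ∧
    η * b / 10 ≤ η / 5 * ((1 - η / 5) * ((1 - 2 * (η / 5)) * b)) ∧
    (1 - η) * b ≤ (1 - 2 * (η / 5)) * ((1 - η / 5) * ((1 - 2 * (η / 5)) * b)) := by
  have ηb : 0 < η * b := by positivity
  have bb : 1 / 2 ≤ (1 - η / 5) * (1 - 2 * (η / 5)) := by nlinarith
  have e : 1 - η ≤ (1 - 2 * (η / 5)) * ((1 - η / 5) * (1 - 2 * (η / 5))) := by
    nlinarith [mul_nonneg h0.le h0.le, mul_nonneg (mul_nonneg h0.le h0.le) (by linarith : 0 ≤ 1 - η)]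
  have e1 := mul_le_mul_of_nonneg_right bb ηb.le
  have e2 := mul_le_mul_of_nonneg_right e b0.le
  have e3 := mul_le_mul_of_nonneg_right (by linarith : 1 / 2 ≤ 1 - 2 * (η / 5)) ηb.le
  refine ⟨by linarith, by linarith, by linarith⟩

theorem ra (hR : REL) (hS : SHR) (hP : PERT) (hD : DIL) (hH : SHEAR) : RA := by
  intro s
  obtain ⟨c, hP⟩ := hP s
  obtain ⟨c2, hnum⟩ := ra_num c
  refine ⟨c2, ?_⟩
  intro N A ι _ _ S θ θn γ ρ b η P Λ x h g hI hz hΛ hθ hγ hx0 hx hh0 hh hn0 hn hη hη2 hxb hB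
  have P2 := hz.P2
  have hD' := hz.cd
  have hD0 : (0 : ℝ) ≤ Fintype.card ι := Nat.cast_nonneg _
  have η0 : 0 < η := (Real.exp_pos _).trans_le hη
  have b0 : 0 < b := by
    have := (Real.exp_pos _).trans_le hxb
    exact (pos_iff_pos_of_mul_pos this).1 η0
  obtain ⟨S1, j, δ, n, f, I1, sa1, hj, pv1, n1, nδ, δl, rl, lf⟩ :=
    hR s N A ι S θ θn γ ρ b (Real.exp h) g hI hB
  obtain ⟨l, Ω, l0, hlb, Ω8, lΩ, hsm0, hL⟩ := hnum P Λ h (θn g) _ η P2 hΛ hh0 hh hn0 hn hD0 hD' hη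
  obtain ⟨η1, η2, η3⟩ := ra_eta η0 hη2 b0
  have e3 := e3le
  have hx3 : Real.exp (-(x + 3)) ≤ η * b / 10 := by
    rw [neg_add, Real.exp_add]
    have := mul_le_mul hxb e3 (Real.exp_pos _).le (by positivity)
    linarith
  have ηb : 0 < η * b := by positivity
  obtain ⟨S2, I2, sa2, q2, A2, B2⟩ := hS s N A ι S1 θ θn γ ρ b (η / 5) (x + 3) l g I1 l0
    (by positivity) (by linarith)
  have δ0 : 0 < δ := pv1.2.1
  have n1' : (1 : ℝ) ≤ n := by exact_mod_cast n1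
  have nδ0 : 0 < n * δ := by positivity
  have g1 : S1.G.g = S.G.g := sa1.1
  have g2 : S2.G.g = S.G.g := sa2.1.trans g1
  have x2 : S2.G.ex = S.G.ex := sa2.2.2.trans sa1.2.2
  have jV := pv1.1
  have jx : j ∉ S.G.ex := (mem_sdiff.1 jV).2
  set f1 : MvPolynomial ι ℝ :=
    C (n * δ)⁻¹ * aeval (fun a => (C (Real.exp (-l)) * X a : MvPolynomial ι ℝ)) f with hf1
  have th2 : ∀ a, S.G.g a < g → C (Real.exp (-l)) * S2.G.th a = S1.G.th a := by
    intro a ha
    simp only [GT.th, q2, A2, g1, ha, if_true, Finset.mul_sum]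
    refine Finset.sum_congr rfl fun d _ => ?_
    rw [← mul_assoc, ← C_mul, ← mul_assoc, ← Real.exp_add]
    simp
  have lof : ∀ a ∈ f.vars, S.G.g a < g := fun a ha => by
    have := rl.1 a ha
    rwa [g1, hj] at this
  have ev1 : aeval S2.G.th f1 = C (n * δ)⁻¹ * aeval S1.G.th f := by
    rw [hf1, map_mul, aeval_C, algebraMap_eq, ← AlgHom.comp_apply, comp_aeval]
    congr 1
    refine Chart.aeval_congr_vars fun a ha => ?_
    rw [map_mul, aeval_C, algebraMap_eq, aeval_X]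
    exact th2 a (lof a ha)
  have w2 : S2.G.w = S1.G.w := sa2.2.1
  have hσ : Real.exp (-l) ≤ 1 := Real.exp_le_one_iff.2 (by linarith)
  have lf1 : l1 f1 ≤ Real.exp (θn g + P + 4 - l + h) := by
    have e1 : l1 f1 = |(n * δ)⁻¹| * l1 (aeval
        (fun a => (C (Real.exp (-l)) * X a : MvPolynomial ι ℝ)) f) := nrm_C_mul _ _
    have e2 := l1_scale (I1.ok.ok.w1 j) rl.2.1 (Real.exp_pos (-l)).le hσ
    have e4 : (n * δ)⁻¹ ≤ Real.exp (θn g + P + 4) := by
      rw [inv_le_comm₀ nδ0 (Real.exp_pos _), ← Real.exp_neg]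
      refine le_trans (Real.exp_le_exp.2 (by linarith)) (δl.trans ?_)
      exact le_mul_of_one_le_left δ0.le n1'
    rw [e1, abs_of_pos (inv_pos.2 nδ0)]
    refine (mul_le_mul e4 (e2.trans (mul_le_mul_of_nonneg_left lf (Real.exp_pos _).le))
      (nrm_nonneg _) (Real.exp_pos _).le).trans ?_
    rw [← Real.exp_add, ← Real.exp_add]
    exact le_of_eq (by congr 1; ring)
  have EΛ : Λ + 1 ≤ Real.exp Λ := Real.add_one_le_exp Λ
  have hsm : l1 f1 * (P * Ω) ^ c ≤ η / 5 :=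
    (mul_le_mul_of_nonneg_right lf1 (pow_nonneg (mul_nonneg (by linarith) (by linarith)) c)).trans hsm0
  obtain ⟨S3, I3, sa3, A3, B3, q3⟩ := hP N A ι S2 _ _ _ _ _ (η / 5) P Ω j f1 I2 hz (by linarith)
    (fun g' => by
      have := hθ g'
      have e : (if g' < g then (Fintype.card ι : ℝ) * l else 0) ≤ Fintype.card ι * l := by
        split_ifs
        · exact le_rfl
        · positivity
      simp only [lo]
      linarith) (by linarith) (by positivity) (by linarith)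
    ((Real.exp_le_exp.2 (by linarith : -Ω ≤ -(x + 3))).trans (hx3.trans η1))
    (by rw [x2]; exact jx)
    (by
      rw [g2, hj]
      intro a ha
      rw [g2]
      refine Chart.vars_mul' (P := fun a => S.G.g a < g) (Chart.vars_C' _)
        (Chart.vars_aeval fun i hi => Chart.vars_mul' (Chart.vars_C' _)
          (Chart.vars_X' (lof i hi))) a ha)
    (by
      show f1.IsWeightedHomogeneous S2.G.w (S2.G.w j)
      rw [w2, ← zero_add (S1.G.w j)]
      refine (isWeightedHomogeneous_C _ _).mul (Chart.hom_aeval rl.2.1 fun i => ?_)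
      rw [← zero_add (S1.G.w i)]
      exact (isWeightedHomogeneous_C _ _).mul (isWeightedHomogeneous_X ℝ _ i))
    hsm
  have Bjj : S1.G.B j j = δ := by
    have e := congrFun (congrFun I1.ok.ok.AB j) j
    rw [Matrix.mul_apply, Matrix.one_apply_eq, Finset.sum_eq_single j, pv1.2.2.1] at e
    · field_simp at e; exact e
    · intro d _ hd
      by_cases h1 : d ∈ S.G.ex
      · rw [(I1.ok.tri d (sa1.2.2 ▸ h1) j (sa1.2.2 ▸ jx)).2, mul_zero]
      · by_cases h2 : S.G.g d = g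
        · rw [pv1.2.2.2 d (by simp [gp, h1, h2]) hd, zero_mul]
        · have : S1.G.A j d = 0 := by
            by_contra h3
            have := (I1.ok.ok.blk j d (Or.inl h3)).1
            rw [g1, hj] at this
            exact h2 this.symm
          rw [this, zero_mul]
    · simp
  have jl : ¬ S.G.g j < g := by omega
  have z3 : IsZ (C (n : ℝ) * S3.G.q j) := by
    have e : C (n : ℝ) * S3.G.q j = C (n : ℝ) * S1.G.q j - aeval S1.G.th f := by
      rw [q3, ev1, B2, g1, if_neg jl, one_mul, Bjj, q2, mul_sub, ← mul_assoc, ← mul_assoc,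
        ← C_mul, ← C_mul, mul_inv_cancel₀ nδ0.ne', C_1, one_mul]
    rw [e]
    exact rl.2.2
  have g3 : S3.G.g = S.G.g := sa3.1.trans g2
  have nl : (n : ℝ) ≤ Real.exp l := by
    have e1 : Real.exp (-(θn g + P + 4)) ≤ δ := le_trans (Real.exp_le_exp.2 (by linarith)) δl
    have e2 : n * Real.exp (-(θn g + P + 4)) ≤ Real.exp h :=
      (mul_le_mul_of_nonneg_left e1 (by linarith)).trans nδ
    rw [Real.exp_neg, ← div_eq_mul_inv, div_le_iff₀ (Real.exp_pos _), ← Real.exp_add] at e2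
    exact e2.trans (Real.exp_le_exp.2 hlb)
  obtain ⟨S4, I4, sa4, A4, B4, q4⟩ := hD s N A ι S3 _ _ _ _ _ (η / 5) (x + 3) l g n I3 n1 nl
    (by positivity) (hx3.trans η2)
  have g4 : S4.G.g = S.G.g := sa4.1.trans g3
  have x4 : S4.G.ex = S.G.ex := sa4.2.2.trans (sa3.2.2.trans x2)
  have w4 : S4.G.w = S.G.w := sa4.2.1.trans (sa3.2.1.trans (w2.trans sa1.2.1))
  have row : ∀ d, S4.G.A j d = S1.G.A j d := fun d => by
    rw [A4, g3, if_neg jl, one_mul, A3, A2, g1, if_neg jl, one_mul]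
  have j4 : S4.G.g j = g := by rw [g4, hj]
  obtain ⟨S5, I5, p5⟩ := hH s N A ι S4 _ _ _ _ _ δ h j I4 (by
      have e : gp S4.G (S4.G.g j) \ S4.G.ex = gp S.G g \ S.G.ex := by
        rw [j4, x4, gp, gp, g4]
      rw [e]
      exact ⟨jV, δ0, (row j).trans pv1.2.2.1, fun d hd hne => (row d).trans (pv1.2.2.2 d hd hne)⟩)
    ((le_mul_of_one_le_left δ0.le n1').trans nδ) (q4 j (by rw [g3, hj]) z3)
  refine ⟨S5, I5.mono ?_ ?_ (by linarith) (by linarith) ?_, ?_⟩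
  · intro g'
    simp only [lo]
    split_ifs <;> linarith
  · intro g'
    simp only [lo, at1, j4]
    split_ifs <;> linarith
  · exact η3
  · have : S4.pot = S.pot := by rw [St.pot, St.pot, w4, x4]
    exact this ▸ p5

end Vale.Agent.P057T.Rg
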