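import Vale.Agent.P057T.Rg.Defs
import Vale.Agent.P057T.Cp.Coa
import Vale.Agent.P057T.Eq.Bdw

/-! Change of basis inside the exact or the non exact part of a group. -/

set_option linter.all false

open MvPolynomial Finset

namespace Vale.Agent.P057T.Rg

open Vale.Agent.P057T.Eq Vale.Agent.P057T.Cp

namespace Reco

variable {ι : Type} [Fintype ι] [DecidableEq ι]

/-- the bijection of the integer points -/
def eqv {U U' : Matrix ι ι ℤ} (h : U * U' = 1) : (ι → ℤ) ≃ (ι → ℤ) where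
  toFun := U.mulVec
  invFun := U'.mulVec
  left_inv z := by rw [Matrix.mulVec_mulVec, mul_eq_one_comm.1 h, Matrix.one_mulVec]
  right_inv z := by rw [Matrix.mulVec_mulVec, h, Matrix.one_mulVec]

theorem lat_iff {U U' : Matrix ι ι ℤ} (h : U * U' = 1) {W : Finset ι}
    (hW : ∀ a b, (U a b ≠ 0 ∨ U' a b ≠ 0) → (a ∈ W ↔ b ∈ W)) (z : ι → ℤ) :
    z ∈ Lat W ↔ U.mulVec z ∈ Lat W := by
  refine ⟨Ca.lat fun a b k => hW a b (Or.inl k), fun hz => ?_⟩
  have := Ca.lat (N := U') (fun a b k => hW a b (Or.inr k)) hz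
  rwa [Matrix.mulVec_mulVec, mul_eq_one_comm.1 h, Matrix.one_mulVec] at this

theorem cz_mul (U : Matrix ι ι ℤ) (z : ι → ℤ) :
    (U.map (Int.cast : ℤ → ℝ)).mulVec (cz z) = cz (U.mulVec z) := by
  funext a
  simp [cz, Matrix.mulVec, dotProduct]

theorem tk_eq (G : GT ι) {U U' : Matrix ι ι ℤ} (h : U * U' = 1) (Q Q' : Set (ι → ℤ))
    (hQ : ∀ z, z ∈ Q' ↔ U.mulVec z ∈ Q) : tk (co G U U') Q' = tk G Q := by
  unfold tk
  rw [← (eqv h).tsum_eq (Q.indicator _)]
  refine tsum_congr fun z => ?_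
  have e : Poi.gq (co G U U').A (cz z) = Poi.gq G.A (cz (U.mulVec z)) := by
    rw [← cz_mul]
    simp only [Poi.gq, co, Vale.Agent.P267.H775.qf, Matrix.mulVec_mulVec]
  show Q'.indicator _ z = Q.indicator _ (U.mulVec z)
  by_cases hz : z ∈ Q'
  · rw [Set.indicator_of_mem hz, Set.indicator_of_mem ((hQ z).1 hz), e]
  · rw [Set.indicator_of_notMem hz, Set.indicator_of_notMem fun k => hz ((hQ z).2 k)]

theorem dv_eq (G : GT ι) {U U' : Matrix ι ι ℤ} (h : U * U' = 1) {W : Finset ι}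
    (hW : ∀ a b, (U a b ≠ 0 ∨ U' a b ≠ 0) → (a ∈ W ↔ b ∈ W)) : (co G U U').dv W = G.dv W := by
  unfold GT.dv
  show |((U'.map (Int.cast : ℤ → ℝ) * G.B).submatrix _ _).det| = _
  rw [Ca.sub_mul _ _ W fun a ha c hc => (hW a c (Or.inr (Ca.map_ne hc))).1 ha, Matrix.det_mul,
    abs_mul, Ca.det_one h W fun a ha c hc => (hW a c (Or.inl hc)).1 ha, one_mul]

end Reco

open Reco in
theorem reco : RECO := by
  intro s N A ι _ _ S θ θn γ ρ b g V U U' hI hV h hU hD
  have hO := hI.ok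
  have hVg : ∀ a ∈ V, S.G.g a = g := by
    intro a ha
    rcases hV with rfl | rfl
    · exact (mem_filter.1 (mem_inter.1 ha).1).2
    · exact (mem_filter.1 (mem_sdiff.1 ha).1).2
  have hg : ∀ a c, (U a c ≠ 0 ∨ U' a c ≠ 0) → S.G.g a = S.G.g c := by
    intro a c k
    rcases hU a c k with rfl | k
    · rfl
    · rw [hVg a k.1, hVg c k.2]
  have hw : ∀ a c, (U a c ≠ 0 ∨ U' a c ≠ 0) → S.G.w a = S.G.w c := fun a c k => by
    rw [← hO.lv, ← hO.lv, hg a c k]
  have he : ∀ a c, (U a c ≠ 0 ∨ U' a c ≠ 0) → (a ∈ S.G.ex ↔ c ∈ S.G.ex) := by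
    intro a c k
    rcases hU a c k with rfl | k
    · rfl
    · rcases hV with rfl | rfl
      · exact iff_of_true (mem_inter.1 k.1).2 (mem_inter.1 k.2).2
      · exact iff_of_false (mem_sdiff.1 k.1).2 (mem_sdiff.1 k.2).2
  have hC : Co S.G U U' (∑ c, ∑ a, |(U a c : ℝ)|) :=
    ⟨h, fun a c k => ⟨hg a c k, hw a c k⟩, fun a c k => (he a c k).1, fun c =>
      single_le_sum (f := fun c => ∑ a, |(U a c : ℝ)|)
        (fun _ _ => sum_nonneg fun _ _ => abs_nonneg _) (mem_univ c)⟩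
  have h1 : ∀ g' a c, (U a c ≠ 0 ∨ U' a c ≠ 0) → (a ∈ gp S.G g' ↔ c ∈ gp S.G g') := by
    intro g' a c k
    simp only [gp, mem_filter, mem_univ, true_and, hg a c k]
  have h2 : ∀ g' a c, (U a c ≠ 0 ∨ U' a c ≠ 0) →
      (a ∈ gp S.G g' \ S.G.ex ↔ c ∈ gp S.G g' \ S.G.ex) := by
    intro g' a c k
    rw [mem_sdiff, mem_sdiff, h1 g' a c k, he a c k]
  have hX : ∀ c, c ∉ V → Cp.sb U c = X c := by
    intro c hc
    unfold Cp.sb lin
    rw [sum_eq_single c]
    · simp [cz, (hD c hc).1]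
    · intro a _ ha
      have : U c a = 0 := by
        by_contra k
        rcases hU c a (Or.inl k) with k | k
        · exact ha k.symm
        · exact hc k.1
      simp [cz, this]
    · simp
  have hF : ∀ F : MvPolynomial ι ℝ, (∀ c ∈ F.vars, S.G.g c < g) → aeval (Cp.sb U) F = F := by
    intro F hF
    conv_rhs => rw [← aeval_X_left_apply F]
    exact Chart.aeval_congr_vars fun c hc => hX c fun k => (hF c hc).ne (hVg c k)
  let S' : St ι := ⟨co S.G U U', fun a => aeval (Cp.sb U) (S.p a), aeval (Cp.sb U) S.pi⟩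
  have hch : ∀ a, S'.ch a = aeval (Cp.sb U) (S.ch a) := by
    intro a
    unfold St.ch
    rw [map_add, ← Ca.th (M' := U') h]
  have hwt : ∀ z, S'.wt z = S.wt (U.mulVec z) := by
    intro z
    simp only [St.wt, St.sq, hch, Ca.ev]
  have hms : S'.ms = S.ms := by
    unfold St.ms
    rw [← (eqv h).tsum_eq S.wt]
    exact tsum_congr hwt
  have hhit : S'.hit A = S.hit A := by
    unfold St.hit
    rw [← (eqv h).tsum_eq fun z => S.wt z * S.ind A z]
    refine tsum_congr fun z => ?_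
    have : S'.ind A z = S.ind A (U.mulVec z) := by
      unfold St.ind
      rw [← Ca.ev]
    rw [hwt, this]
    rfl
  refine ⟨S', ⟨⟨Ca.ok hO.ok hC, hO.lv, fun a => ?_, fun a ha c hc => ⟨?_, ?_⟩, ?_, ?_⟩,
    fun g' => ?_, fun g' => ?_, ?_, ?_, ?_⟩, ⟨rfl, rfl, rfl⟩, rfl, rfl, fun a ha => ?_,
    fun a ha => ?_⟩
  · exact Ca.sb_dl (fun a c k => hw a c (Or.inl k)) (hO.pd a)
  · by_contra k
    obtain ⟨d, k1, k2⟩ := Ca.mul_ne k
    exact k1 (hO.tri a ha d fun k3 => hc ((he d c (Or.inl (Ca.map_ne k2))).1 k3)).1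
  · by_contra k
    obtain ⟨d, k1, k2⟩ := Ca.mul_ne k
    exact k2 (hO.tri d ((he a d (Or.inr (Ca.map_ne k1))).1 ha) c hc).2
  · exact L1.IsInt.aeval hO.pz fun x => Pl.lin_isZ (U x)
  · exact Ca.sb_dl (fun a c k => hw a c (Or.inl k)) hO.p1
  · have := hI.ph g'
    rw [← tk_eq S.G h _ _ (lat_iff h (h1 g')), ← dv_eq S.G h (h1 g')] at this
    exact this
  · have := hI.pn g'
    rw [← tk_eq S.G h _ _ (lat_iff h (h2 g')), ← dv_eq S.G h (h2 g')] at this
    exact this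
  · have := hI.ma
    rw [← hms, ← dv_eq S.G h (W := univ) (by simp)] at this
    exact this
  · have := hI.kr
    rw [← tk_eq S.G h S.ker S'.ker, ← dv_eq S.G h (h1 0)] at this
    · exact this
    · intro z
      have e0 : eval 0 S'.pi = eval 0 S.pi := by
        have k := Ca.ev U S.pi 0
        have c0 : cz (0 : ι → ℤ) = 0 := by funext a; simp [cz]
        rw [Matrix.mulVec_zero, c0] at k
        exact k
      show (z ∈ Lat (gp S.G 0) ∧ eval (cz z) (aeval (Cp.sb U) S.pi) = eval 0 S'.pi) ↔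
        (U.mulVec z ∈ Lat (gp S.G 0) ∧ eval (cz (U.mulVec z)) S.pi = eval 0 S.pi)
      rw [Ca.ev, e0, lat_iff h (h1 0)]
  · rw [hms, hhit]
    exact hI.de
  · show ∑ c, C (U' a c : ℝ) * aeval (Cp.sb U) (S.G.q c) = _
    refine sum_congr rfl fun c _ => ?_
    by_cases k : U' a c = 0
    · simp [k]
    · rw [hF _ fun d hd => ?_]
      have := hO.ok.ql c d hd
      rwa [← hg a c (Or.inr k), ha] at this
  · show (co S.G U U').th a = _
    rw [Ca.th h, hF _ fun d hd => lt_of_le_of_lt (th_vars hO.ok a d hd) ha]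

end Vale.Agent.P057T.Rg
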