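import Vale.Agent.P057T.Rg.Defs
import Vale.Agent.P057T.Chart

/-! Row `REL`: a failure of `Big` gives a pivot with a relation. -/

open MvPolynomial Finset
open scoped Real

namespace Vale.Agent.P057T.Rg

open Vale.Agent.P057T.Eq Vale.Agent.P057L Vale.Agent.P057T.L1

namespace RelH41

variable {ι : Type} [Fintype ι] [DecidableEq ι]

theorem coeff_lin (x : ι → ℝ) (m : ι →₀ ℕ) :
    coeff m (lin x) = ∑ a, if Finsupp.single a 1 = m then x a else 0 := by
  rw [lin, coeff_sum]
  refine sum_congr rfl fun a _ => ?_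
  rw [coeff_C_mul, coeff_X]
  split_ifs <;> simp

theorem coeff_lin_single (x : ι → ℝ) (c : ι) : coeff (Finsupp.single c 1) (lin x) = x c := by
  rw [coeff_lin, sum_eq_single c]
  · simp
  · intro a _ h
    rw [if_neg fun e => h (Finsupp.single_left_injective one_ne_zero e)]
  · simp

theorem aeval_linB {G : GT ι} {s : ℕ} (hG : G.Ok s) (k : ι → ℝ) :
    aeval G.th (lin fun c => ∑ a, k a * G.B a c) = lin k - ∑ a, C (k a) * G.q a := by
  have hBA : G.B * G.A = 1 := mul_eq_one_comm.1 hG.AB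
  have h1 : ∀ a, ∑ c, C (G.B a c) * G.th c = X a - G.q a := fun a => by
    simp only [GT.th, mul_sum, ← mul_assoc, ← map_mul]
    rw [sum_comm]
    simp only [← sum_mul, ← map_sum]
    rw [sum_eq_single a]
    · rw [← Matrix.mul_apply, hBA, Matrix.one_apply_eq, map_one, one_mul]
    · intro b _ hb
      rw [← Matrix.mul_apply, hBA, Matrix.one_apply_ne hb.symm, map_zero, zero_mul]
    · simp
  rw [lin, lin, map_sum, ← sum_sub_distrib]
  simp only [map_mul, aeval_C, aeval_X, algebraMap_eq, map_sum, sum_mul]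
  rw [sum_comm]
  refine sum_congr rfl fun a _ => ?_
  rw [← mul_sub, ← h1, mul_sum]
  exact sum_congr rfl fun c _ => mul_assoc _ _ _

theorem split {G : GT ι} {g : ℕ} {f : MvPolynomial ι ℝ} (hf : G.Lo g f) (x : ι → ℝ)
    (hx : ∀ c, x c ≠ 0 → G.g c = g) :
    nrm f ≤ nrm (f + lin x) ∧ ∑ c ∈ gp G g, |x c| ≤ nrm (f + lin x) := by
  have h0 : ∀ c, G.g c = g → coeff (Finsupp.single c 1) f = 0 := fun c hc => by
    by_contra h
    have := hf c ((mem_vars_iff_mem_support c).2 ⟨_, mem_support_iff.2 h, by simp⟩)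
    omega
  constructor
  · refine nrm_le_of_coeff fun m => ?_
    by_cases h : coeff m f = 0
    · rw [h, abs_zero]; exact abs_nonneg _
    · have : coeff m (lin x) = 0 := by
        rw [coeff_lin]
        refine sum_eq_zero fun a _ => ?_
        split_ifs with e
        · by_contra hxa
          exact h (e ▸ h0 a (hx a hxa))
        · rfl
      rw [coeff_add, this, add_zero]
  · set Sg := (gp G g).image fun c => Finsupp.single c 1
    rw [nrm_eq_sum (s := (f + lin x).support ∪ Sg) subset_union_left]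
    refine le_trans (le_of_eq ?_) (sum_le_sum_of_subset_of_nonneg subset_union_right
      fun _ _ _ => abs_nonneg _)
    rw [sum_image fun a _ b _ e => Finsupp.single_left_injective one_ne_zero e]
    refine sum_congr rfl fun c hc => ?_
    rw [coeff_add, h0 c (mem_filter.1 hc).2, zero_add, coeff_lin_single]

end RelH41

open RelH41

theorem rel (hBD : BD) (hU : UNI) (hR : RECO) (hO : ROTO) (hP : PHI) : REL := by
  intro s N A ι _ _ S θ θn γ ρ b H g hS hB
  have hG := hS.ok.ok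
  unfold GT.Big at hB
  push Not at hB
  obtain ⟨e, k, I, hk, hIZ, hIL, hIH, ⟨b0, hb0, hl⟩, a0, ha0, hex⟩ := hB
  obtain ⟨-, bH, -, bL⟩ := hBD s ι S.G hG
  set x : ι → ℝ := fun c => ∑ a, cz k a * S.G.B a c with hx
  set f := b0 - lin x with hf
  have hJ : aeval S.G.th f = I + ∑ a, C (cz k a) * S.G.q a := by
    rw [hf, map_sub, hb0, hx, aeval_linB hG]; ring
  have hfL : S.G.Lo g f := by
    rw [bL, hJ]
    refine Chart.vars_add' (P := fun b => S.G.g b < g) hIL (Chart.vars_sum' fun a _ => ?_)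
    by_cases h : k a = 0
    · simp [cz, h]
    · exact Chart.vars_mul' (Chart.vars_C' _) ((hk a h).1 ▸ hG.ql a)
  have hfH : S.G.Hm e f := by
    rw [bH, hJ]
    refine IsWeightedHomogeneous.add hIH (IsWeightedHomogeneous.sum _ _ _ fun a _ => ?_)
    by_cases h : k a = 0
    · simp only [cz, h, Int.cast_zero, map_zero, zero_mul]
      exact isWeightedHomogeneous_zero _ _ _
    · have h1 := (isWeightedHomogeneous_C S.G.w (cz k a)).mul (hG.qh a)
      rwa [zero_add, (hk a h).2] at h1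
  have hxg : ∀ c, x c ≠ 0 → S.G.g c = g := fun c hc => by
    obtain ⟨a, -, ha⟩ := exists_ne_zero_of_sum_ne_zero hc
    have h1 : k a ≠ 0 := fun h => ha (by simp [cz, h])
    rw [← (hG.blk a c (Or.inr (right_ne_zero_of_mul ha))).1, (hk a h1).1]
  obtain ⟨n1, n2⟩ := split hfL x hxg
  have hb : f + lin x = b0 := by rw [hf, sub_add_cancel]
  rw [hb] at n1 n2
  set V := gp S.G g \ S.G.ex with hV
  set k' : ι → ℤ := fun a => if a ∈ S.G.ex then 0 else k a with hk'
  have hk0 : k' ≠ 0 := fun h => ha0 (by simpa [hk', hex] using congrFun h a0)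
  have hkL : k' ∈ Lat V := fun a ha => by
    by_cases h1 : a ∈ S.G.ex
    · exact if_pos h1
    · simp only [hk', if_neg h1]
      by_contra h2
      exact ha (mem_sdiff.2 ⟨mem_filter.2 ⟨mem_univ _, (hk a h2).1⟩, h1⟩)
  obtain ⟨n, j, U, U', hn, hj, hUU, hU1, hU2, hkn⟩ := hU ι V k' hk0 hkL
  obtain ⟨S1, i1, ⟨g1, w1, e1⟩, -, B1, q1, t1⟩ :=
    hR s N A ι S θ θn γ ρ b g V U U' hS (Or.inr rfl) hUU hU1 hU2
  have hV1 : V = gp S1.G g \ S1.G.ex := by rw [hV, gp, gp, g1, e1]
  obtain ⟨S2, i2, ⟨g2, w2, e2⟩, q2, pv, t2⟩ := hO s N A ι S1 θ θn γ ρ b g V j i1 (Or.inr hV1) hj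
  have hjg : S.G.g j = g := (mem_filter.1 (mem_sdiff.1 hj).1).2
  have hBj : ∀ a ∈ V, (n : ℝ) * S1.G.B j a = x a := fun a ha => by
    rw [B1, Matrix.mul_apply, mul_sum, hx]
    refine sum_congr rfl fun c _ => ?_
    have h1 : ((k' c : ℤ) : ℝ) = n * (U' j c : ℝ) := by rw [hkn c]; push_cast; rfl
    rw [Matrix.map_apply, ← mul_assoc, ← h1]
    by_cases h2 : c ∈ S.G.ex
    · rw [(hS.ok.tri c h2 a (mem_sdiff.1 ha).2).2, mul_zero, mul_zero]
    · simp only [hk', if_neg h2, cz]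
  refine ⟨S2, j, _, n, f, i2, ⟨g2.trans g1, w2.trans w1, e2.trans e1⟩, hjg, pv, hn, ?_, ?_,
    ⟨?_, ?_, ?_⟩, n1.trans hl⟩
  · have h1 : √(∑ a ∈ V, S1.G.B j a ^ 2) ≤ ∑ a ∈ V, |S1.G.B j a| := by
      refine Real.sqrt_le_iff.2 ⟨sum_nonneg fun _ _ => abs_nonneg _, ?_⟩
      simp only [← sq_abs (S1.G.B j _)]
      exact sum_sq_le_sq_sum_of_nonneg fun _ _ => abs_nonneg _
    refine (mul_le_mul_of_nonneg_left h1 (Nat.cast_nonneg n)).trans ?_
    rw [mul_sum]
    refine le_trans (le_of_eq (sum_congr rfl fun a ha => ?_)) ((sum_le_sum_of_subset_of_nonneg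
      (f := fun c => |x c|) sdiff_subset fun _ _ _ => abs_nonneg _).trans (n2.trans hl))
    rw [← hBj a ha, abs_mul, Nat.abs_cast]
  · obtain ⟨a, ha, h1⟩ := hP s ι S1.G V (θn g) (Pi.single j 1) i1.ok.ok (fun a c ha hc => by
      rw [hV1] at ha hc
      by_contra h
      by_cases h2 : a ∈ S1.G.ex
      · exact h (i1.ok.tri a h2 c (mem_sdiff.1 hc).2).1
      · exact ha (mem_sdiff.2 ⟨mem_filter.2 ⟨mem_univ _, (i1.ok.ok.blk a c (Or.inl h)).1.trans
          (mem_filter.1 (mem_sdiff.1 hc).1).2⟩, h2⟩)) (hV1 ▸ i1.pn g)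
      (fun h => by simpa using congrFun h j)
      (fun a ha => Pi.single_eq_of_ne (fun e : a = j => ha (e ▸ hj)) _)
    refine h1.trans ?_
    rw [sum_eq_single j (fun c _ hc => by simp [Pi.single_eq_of_ne hc]) (by simp)]
    simp only [Pi.single_eq_same, Int.cast_one, one_mul]
    exact Real.abs_le_sqrt (single_le_sum (f := fun a => S1.G.B j a ^ 2)
      (fun _ _ => sq_nonneg _) ha)
  · intro c hc
    rw [g2, g1, hjg]; exact hfL c hc
  · have h1 := hS.ok.lv j
    have h2 := hS.ok.lv a0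
    rw [(hk a0 ha0).1, (hk a0 ha0).2] at h2
    unfold GT.Hm
    rw [w2, w1, ← h1, hjg, h2]; exact hfH
  · have h1 : aeval S2.G.th f = aeval S.G.th f := Chart.aeval_congr_vars fun c hc => by
      have h2 := hfL c hc
      rw [t2 c (by rw [g1]; omega), t1 c h2]
    have h2 : C (n : ℝ) * S2.G.q j = ∑ a, C (cz k a) * S.G.q a := by
      rw [q2, q1 j hjg, mul_sum]
      refine sum_congr rfl fun c _ => ?_
      have h3 : ((k' c : ℤ) : ℝ) = n * (U' j c : ℝ) := by rw [hkn c]; push_cast; rfl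
      rw [← mul_assoc, ← map_mul, ← h3]
      by_cases h4 : c ∈ S.G.ex
      · rw [hG.qe c h4, mul_zero, mul_zero]
      · simp only [hk', if_neg h4, cz]
    rw [h1, h2, hJ, sub_add_cancel_right]
    exact IsInt.neg hIZ

end Vale.Agent.P057T.Rg
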