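import Vale.Agent.P057T.Rg.Defs

/-! Rotation of the rows of a block. -/

open MvPolynomial Finset Matrix
open scoped Real

namespace Vale.Agent.P057T.Rg

open Vale.Agent.P057T.Eq Vale.Agent.P057L

set_option linter.all false

noncomputable section

namespace RotoP

variable {ι : Type} [Fintype ι] [DecidableEq ι]

/-- the rotated tower -/
def rot (S : St ι) (O : Matrix ι ι ℝ) : St ι :=
  ⟨⟨S.G.g, S.G.w, O * S.G.A, S.G.B * Oᵀ, S.G.q, S.G.ex⟩, fun a => ∑ c, C (O a c) * S.p c, S.pi⟩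

theorem sq_rot {O : Matrix ι ι ℝ} (hO : O * Oᵀ = 1) (x : ι → ℝ) :
    ∑ a, (O *ᵥ x) a ^ 2 = ∑ a, x a ^ 2 := by
  have h : (O *ᵥ x) ⬝ᵥ (O *ᵥ x) = x ⬝ᵥ x := by
    rw [dotProduct_mulVec, ← mulVec_transpose, mulVec_mulVec, mul_eq_one_comm.1 hO, one_mulVec]
  simpa only [dotProduct, sq] using h

theorem th_rot (S : St ι) (O : Matrix ι ι ℝ) (a : ι) :
    (rot S O).G.th a = ∑ c, C (O a c) * S.G.th c := by
  simp only [rot, GT.th, mul_apply, map_sum, Finset.sum_mul, Finset.mul_sum, map_mul, mul_assoc]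
  exact Finset.sum_comm

theorem ch_rot (S : St ι) (O : Matrix ι ι ℝ) (a : ι) :
    (rot S O).ch a = ∑ c, C (O a c) * S.ch c := by
  rw [St.ch, th_rot]
  simp only [rot, St.ch, mul_add, Finset.sum_add_distrib]

theorem wt_rot (S : St ι) {O : Matrix ι ι ℝ} (hO : O * Oᵀ = 1) : (rot S O).wt = S.wt := by
  funext z
  have h := sq_rot hO fun c => eval (cz z) (S.ch c)
  simp only [St.wt, St.sq, ch_rot, map_sum, map_mul, eval_C]
  rw [← h]
  rfl

theorem tk_rot (S : St ι) {O : Matrix ι ι ℝ} (hO : O * Oᵀ = 1) (Q : Set (ι → ℤ)) :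
    tk (rot S O).G Q = tk S.G Q := by
  have h : ∀ x, Poi.gq (O * S.G.A) x = Poi.gq S.G.A x := fun x => by
    have h1 := sq_rot hO (S.G.A *ᵥ x)
    rw [mulVec_mulVec] at h1
    unfold Poi.gq P267.H775.qf
    rw [h1]
  simp only [tk, rot, h]

theorem dv_rot (S : St ι) {O : Matrix ι ι ℝ} (hO : O * Oᵀ = 1) (W : Finset ι)
    (hW : ∀ a c, O a c ≠ 0 → (a ∈ W ↔ c ∈ W)) : (rot S O).G.dv W = S.G.dv W := by
  have sub : ∀ (M : Matrix ι ι ℝ), (M * Oᵀ).submatrix (Subtype.val : W → ι) (Subtype.val : W → ι) =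
      M.submatrix (Subtype.val : W → ι) (Subtype.val : W → ι) *
        (O.submatrix (Subtype.val : W → ι) (Subtype.val : W → ι))ᵀ := fun M => by
    ext a b
    simp only [mul_apply, submatrix_apply, transpose_apply]
    rw [Finset.sum_coe_sort W fun c => M a c * O b c]
    refine (Finset.sum_subset (subset_univ W) fun c _ hc => ?_).symm
    have : O b c = 0 := by
      by_contra h
      exact hc ((hW b c h).1 b.2)
    rw [this, mul_zero]
  have h1 := sub O
  rw [hO, submatrix_one _ Subtype.val_injective] at h1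
  have h2 := congrArg det h1
  rw [det_one, det_mul, det_transpose] at h2
  have h3 : |(O.submatrix (Subtype.val : W → ι) (Subtype.val : W → ι)).det| = 1 := by
    have := congrArg abs h2
    rw [abs_one, abs_mul] at this
    nlinarith [abs_nonneg (O.submatrix (Subtype.val : W → ι) (Subtype.val : W → ι)).det]
  simp only [GT.dv, rot]
  rw [sub, det_mul, det_transpose, abs_mul, h3, mul_one]

theorem inv_rot {s N : ℕ} {A : Finset ℤ} {S : St ι} {θ θn : ℕ → ℝ} {γ ρ b : ℝ}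
    (h : S.Inv s N A θ θn γ ρ b) {O : Matrix ι ι ℝ} (hO : O * Oᵀ = 1)
    (hc : ∀ a c, O a c ≠ 0 → S.G.g a = S.G.g c ∧ (a ∈ S.G.ex ↔ c ∈ S.G.ex)) :
    (rot S O).Inv s N A θ θn γ ρ b := by
  have k := h.ok
  have hw : ∀ a c, S.G.g a = S.G.g c → S.G.w a = S.G.w c := fun a c e => by
    rw [← k.lv, ← k.lv, e]
  have d1 : ∀ g, (rot S O).G.dv (gp S.G g) = S.G.dv (gp S.G g) := fun g =>
    dv_rot S hO _ fun a c e => by simp only [gp, mem_filter, mem_univ, true_and, (hc a c e).1]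
  have d2 : ∀ g, (rot S O).G.dv (gp S.G g \ S.G.ex) = S.G.dv (gp S.G g \ S.G.ex) := fun g =>
    dv_rot S hO _ fun a c e => by
      simp only [gp, mem_sdiff, mem_filter, mem_univ, true_and, (hc a c e).1, (hc a c e).2]
  have d3 : (rot S O).G.dv univ = S.G.dv univ := dv_rot S hO _ fun a c _ => by simp
  have m1 : (rot S O).ms = S.ms := by rw [St.ms, wt_rot S hO, St.ms]
  have m2 : (rot S O).hit A = S.hit A := by rw [St.hit, wt_rot S hO]; rfl
  refine ⟨⟨⟨k.ok.w1, k.ok.ws, k.ok.gs, ?_, fun a b hab => ?_, k.ok.qh, k.ok.ql, k.ok.qe⟩, k.lv,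
    fun a => ?_, fun a ha b hb => ⟨?_, ?_⟩, k.pz, k.p1⟩, fun g => ?_, fun g => ?_, ?_, ?_, ?_⟩
  · show O * S.G.A * (S.G.B * Oᵀ) = 1
    rw [Matrix.mul_assoc, ← Matrix.mul_assoc S.G.A, k.ok.AB, Matrix.one_mul, hO]
  · have e : S.G.g a = S.G.g b := by
      rcases hab with hab | hab
      · obtain ⟨c, -, h1⟩ := Finset.exists_ne_zero_of_sum_ne_zero hab
        exact (hc a c (left_ne_zero_of_mul h1)).1.trans
          (k.ok.blk c b (Or.inl (right_ne_zero_of_mul h1))).1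
      · obtain ⟨c, -, h1⟩ := Finset.exists_ne_zero_of_sum_ne_zero hab
        exact (k.ok.blk a c (Or.inr (left_ne_zero_of_mul h1))).1.trans
          (hc b c (right_ne_zero_of_mul h1)).1.symm
    exact ⟨e, hw a b e⟩
  · intro m hm
    have h0 : coeff m (∑ c, C (O a c) * S.p c) ≠ 0 := mem_support_iff.1 hm
    rw [coeff_sum] at h0
    obtain ⟨c, -, h1⟩ := Finset.exists_ne_zero_of_sum_ne_zero h0
    rw [coeff_C_mul] at h1
    have h2 := k.pd c m (mem_support_iff.2 (right_ne_zero_of_mul h1))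
    rw [← hw a c (hc a c (left_ne_zero_of_mul h1)).1] at h2
    exact h2
  · refine Finset.sum_eq_zero fun c _ => ?_
    show O a c * S.G.A c b = 0
    by_cases e : O a c = 0
    · rw [e, zero_mul]
    · rw [(k.tri c ((hc a c e).2.1 ha) b hb).1, mul_zero]
  · refine Finset.sum_eq_zero fun c _ => ?_
    show S.G.B a c * O b c = 0
    by_cases e : O b c = 0
    · rw [e, mul_zero]
    · rw [(k.tri a ha c fun hh => hb ((hc b c e).2.2 hh)).2, zero_mul]
  · exact (tk_rot S hO _).le.trans ((h.ph g).trans (congrArg (_ * ·) (d1 g)).ge)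
  · exact (tk_rot S hO _).le.trans ((h.pn g).trans (congrArg (_ * ·) (d2 g)).ge)
  · rw [d3, m1]; exact h.ma
  · exact (congrArg (_ * ·) (tk_rot S hO _)).le.trans (h.kr.trans (congrArg (_ * ·) (d1 0)).ge)
  · rw [m1, m2]; exact h.de

/-- a reflection with prescribed row -/
theorem house (V : Finset ι) (j : ι) (hj : j ∈ V) (u : ι → ℝ) (hu : ∀ a, a ∉ V → u a = 0)
    (h1 : ∑ a, u a ^ 2 = 1) : ∃ O : Matrix ι ι ℝ, O * Oᵀ = 1 ∧ (∀ a, O j a = u a) ∧
      ∀ a c, (a ∉ V ∨ c ∉ V) → O a c = (1 : Matrix ι ι ℝ) a c := by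
  obtain ⟨v, hv⟩ : ∃ v : ι → ℝ, ∀ a, v a = u a - (1 : Matrix ι ι ℝ) j a := ⟨_, fun _ => rfl⟩
  have v0 : ∀ a, a ∉ V → v a = 0 := fun a ha => by
    rw [hv, hu a ha, one_apply_ne fun (e : j = a) => ha (e ▸ hj), sub_zero]
  have n2 : v ⬝ᵥ v = -2 * v j := by
    have e : ∀ a, v a * v a = u a ^ 2 + (if j = a then 1 - 2 * u a else 0) := fun a => by
      rw [hv, one_apply]
      split_ifs <;> ring
    simp only [dotProduct, e, Finset.sum_add_distrib, h1, Finset.sum_ite_eq, mem_univ, if_true]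
    rw [hv, one_apply_eq]
    ring
  obtain ⟨c, c1, c2⟩ : ∃ c : ℝ, c * c * (v ⬝ᵥ v) = 2 * c ∧ ∀ a, c * (v j * v a) = - v a := by
    by_cases h0 : v ⬝ᵥ v = 0
    · refine ⟨0, by simp, fun a => ?_⟩
      rw [dotProduct_self_eq_zero.1 h0]
      simp
    · refine ⟨2 / (v ⬝ᵥ v), by field_simp, fun a => ?_⟩
      rw [div_mul_eq_mul_div, div_eq_iff h0, n2]
      ring
  refine ⟨1 - c • vecMulVec v v, ?_, fun a => ?_, fun a b hab => ?_⟩
  · rw [transpose_sub, transpose_one, transpose_smul, transpose_vecMulVec, Matrix.sub_mul,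
      Matrix.mul_sub, Matrix.mul_sub, Matrix.one_mul, Matrix.one_mul, Matrix.mul_one,
      Matrix.smul_mul, Matrix.mul_smul, vecMulVec_mul_vecMulVec]
    ext a b
    simp only [Matrix.sub_apply, Matrix.smul_apply, vecMulVec_apply, Pi.smul_apply, smul_eq_mul]
    linear_combination (v a * v b) * c1
  · rw [Matrix.sub_apply, Matrix.smul_apply, vecMulVec_apply, smul_eq_mul, c2, hv]
    ring
  · rw [Matrix.sub_apply, Matrix.smul_apply, vecMulVec_apply]
    rcases hab with hab | hab <;> simp [v0 _ hab]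

end RotoP

theorem roto : ROTO := by
  intro s N A ι _ _ S θ θn γ ρ b g V j h hV hj
  have k := h.ok
  have hVg : ∀ a ∈ V, S.G.g a = g := fun a ha => by
    rcases hV with rfl | rfl
    · exact (mem_filter.1 (mem_inter.1 ha).1).2
    · exact (mem_filter.1 (mem_sdiff.1 ha).1).2
  have hVe : ∀ a ∈ V, ∀ c ∈ V, (a ∈ S.G.ex ↔ c ∈ S.G.ex) := fun a ha c hc => by
    rcases hV with rfl | rfl
    · exact iff_of_true (mem_inter.1 ha).2 (mem_inter.1 hc).2
    · exact iff_of_false (mem_sdiff.1 ha).2 (mem_sdiff.1 hc).2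
  have hBA : ∀ c ∈ V, ∑ a ∈ V, S.G.B j a * S.G.A a c = (1 : Matrix ι ι ℝ) j c := fun c hc => by
    rw [← mul_eq_one_comm.1 k.ok.AB, mul_apply]
    refine Finset.sum_subset (subset_univ V) fun a _ ha => ?_
    by_cases e : S.G.B j a = 0
    · rw [e, zero_mul]
    have hg : a ∈ gp S.G g :=
      mem_filter.2 ⟨mem_univ _, (k.ok.blk j a (Or.inr e)).1.symm.trans (hVg j hj)⟩
    rcases hV with rfl | rfl
    · exact absurd (k.tri j (mem_inter.1 hj).2 a fun hh => ha (mem_inter.2 ⟨hg, hh⟩)).2 e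
    · have : a ∈ S.G.ex := by
        by_contra hh
        exact ha (mem_sdiff.2 ⟨hg, hh⟩)
      rw [(k.tri a this c (mem_sdiff.1 hc).2).1, mul_zero]
  have hpos : 0 < ∑ a ∈ V, S.G.B j a ^ 2 := by
    have h1 := hBA j hj
    rw [one_apply_eq] at h1
    obtain ⟨a, ha, h2⟩ := Finset.exists_ne_zero_of_sum_ne_zero (h1.trans_ne one_ne_zero)
    exact Finset.sum_pos' (fun _ _ => sq_nonneg _)
      ⟨a, ha, sq_pos_of_ne_zero (left_ne_zero_of_mul h2)⟩
  obtain ⟨δ, hδ⟩ : ∃ δ, δ = √(∑ a ∈ V, S.G.B j a ^ 2) := ⟨_, rfl⟩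
  have δ0 : 0 < δ := hδ ▸ Real.sqrt_pos.2 hpos
  have δ2 : δ ^ 2 = ∑ a ∈ V, S.G.B j a ^ 2 := hδ ▸ Real.sq_sqrt hpos.le
  obtain ⟨O, hO, hr, ho⟩ := RotoP.house V j hj (fun a => if a ∈ V then S.G.B j a / δ else 0)
    (fun a ha => if_neg ha) (by
      simp only [ite_pow, ne_eq, OfNat.ofNat_ne_zero, not_false_eq_true, zero_pow,
        Finset.sum_ite_mem, univ_inter, div_pow]
      rw [← Finset.sum_div, ← δ2, div_self (pow_ne_zero 2 δ0.ne')])
  have hrow : ∀ c ∈ V, (O * S.G.A) j c = (1 : Matrix ι ι ℝ) j c / δ := fun c hc => by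
    rw [← hBA c hc, mul_apply, Finset.sum_div]
    simp only [hr, ite_mul, zero_mul, Finset.sum_ite_mem, univ_inter]
    exact Finset.sum_congr rfl fun a _ => by ring
  refine ⟨RotoP.rot S O, RotoP.inv_rot h hO fun a c e => ?_, ⟨rfl, rfl, rfl⟩, rfl,
    ⟨hj, hδ ▸ δ0, ?_, fun c hc hcj => ?_⟩, fun a ha => ?_⟩
  · by_cases hac : a ∈ V ∧ c ∈ V
    · exact ⟨(hVg a hac.1).trans (hVg c hac.2).symm, hVe a hac.1 c hac.2⟩
    · rw [ho a c (not_and_or.1 hac)] at e
      have : a = c := by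
        by_contra hh
        exact e (one_apply_ne hh)
      subst this
      exact ⟨rfl, Iff.rfl⟩
  · rw [← hδ]
    exact (hrow j hj).trans (by rw [one_apply_eq, one_div])
  · exact (hrow c hc).trans (by rw [one_apply_ne (Ne.symm hcj), zero_div])
  · have e : ∀ c, O a c = if a = c then 1 else 0 := fun c =>
      (ho a c (Or.inl fun hh => ha (hVg a hh))).trans one_apply
    rw [RotoP.th_rot, Finset.sum_eq_single a (fun c _ hc => by
      rw [e, if_neg (Ne.symm hc), map_zero, zero_mul]) (fun hh => absurd (mem_univ a) hh), e,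
      if_pos rfl, map_one, one_mul]

end

end Vale.Agent.P057T.Rg
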