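import Vale.Agent.P057T.Rg.Defs

/-! Row SHEAR: the integer shear along a pivot. -/

open MvPolynomial Finset
open scoped Real

namespace Vale.Agent.P057T.Rg

open Vale.Agent.P057T.Eq Vale.Agent.P057L

set_option linter.unusedSectionVars false

noncomputable section

namespace ShH46

variable {ι : Type} [Fintype ι] [DecidableEq ι]

theorem hm_mon (w : ι → ℕ) (σ : ι → MvPolynomial ι ℝ)
    (hσ : ∀ b, IsWeightedHomogeneous w (σ b) (w b)) (m : ι →₀ ℕ) (c : ℝ) :
    IsWeightedHomogeneous w (aeval σ (monomial m c)) (Finsupp.weight w m) := by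
  rw [aeval_monomial, Finsupp.weight_apply, Finsupp.sum, Finsupp.prod]
  have h := IsWeightedHomogeneous.prod m.support (fun b => σ b ^ m b) (fun b => m b • w b)
    (w := w) (fun b _ => (hσ b).pow (m b))
  exact h.C_mul c

theorem supp_aeval (w : ι → ℕ) (σ : ι → MvPolynomial ι ℝ)
    (hσ : ∀ b, IsWeightedHomogeneous w (σ b) (w b)) (F : MvPolynomial ι ℝ) (m' : ι →₀ ℕ)
    (h : m' ∈ (aeval σ F).support) :
    ∃ m ∈ F.support, Finsupp.weight w m' = Finsupp.weight w m := by
  rw [F.as_sum, map_sum] at h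
  obtain ⟨m, hm, h2⟩ := Finset.mem_biUnion.1 (support_sum h)
  exact ⟨m, hm, hm_mon w σ hσ m _ (mem_support_iff.1 h2)⟩

theorem aeval_same (σ : ι → MvPolynomial ι ℝ) (F : MvPolynomial ι ℝ)
    (h : ∀ b ∈ F.vars, σ b = X b) : aeval σ F = F := by
  have h1 := hom_congr_vars (f₁ := (aeval σ : MvPolynomial ι ℝ →ₐ[ℝ] MvPolynomial ι ℝ).toRingHom)
    (f₂ := RingHom.id _) (p₁ := F) (p₂ := F) (by ext r : 1; simp)
    (fun i hi _ => by simp [h i hi]) rfl
  simpa using h1

theorem eval_same (x y : ι → ℝ) (F : MvPolynomial ι ℝ)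
    (h : ∀ b ∈ F.vars, x b = y b) : eval x F = eval y F :=
  hom_congr_vars (f₁ := eval x) (f₂ := eval y) (p₁ := F) (p₂ := F) (by ext r : 1; simp)
    (fun i hi _ => by simp [h i hi]) rfl

theorem eval_aev (x : ι → ℝ) (σ : ι → MvPolynomial ι ℝ) (F : MvPolynomial ι ℝ) :
    eval x (aeval σ F) = eval (fun b => eval x (σ b)) F := by
  induction F using MvPolynomial.induction_on with
  | C a => simp
  | add p q hp hq => simp only [map_add, hp, hq]
  | mul_X p i hp => simp only [map_mul, hp, aeval_X, eval_X]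

theorem isz_val (F : MvPolynomial ι ℝ) (hF : IsZ F) (z : ι → ℤ) :
    ∃ n : ℤ, eval (cz z) F = n := by
  choose c hc using hF
  refine ⟨∑ m ∈ F.support, c m * ∏ b ∈ m.support, z b ^ m b, ?_⟩
  rw [eval_eq]
  push_cast
  exact Finset.sum_congr rfl fun m _ => by rw [hc m]; rfl

/-- the shear of the integer points -/
def shE (j : ι) (n : (ι → ℤ) → ℤ) (hn : ∀ z y, n (Function.update z j y) = n z) :
    (ι → ℤ) ≃ (ι → ℤ) where
  toFun z := Function.update z j (z j + n z)
  invFun z := Function.update z j (z j - n z)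
  left_inv z := by
    simp only [hn, Function.update_self, Function.update_idem, add_sub_cancel_right,
      Function.update_eq_self]
  right_inv z := by
    simp only [hn, Function.update_self, Function.update_idem, sub_add_cancel,
      Function.update_eq_self]

theorem tk_mono (G : GT ι) (hAB : G.A * G.B = 1) {Q Q' : Set (ι → ℤ)} (h : Q ⊆ Q') :
    tk G Q ≤ tk G Q' := by
  have hd : G.A.det ≠ 0 := by
    intro h0
    have := congrArg Matrix.det hAB
    rw [Matrix.det_mul, h0, zero_mul, Matrix.det_one] at this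
    exact zero_ne_one this
  have hs : Summable fun z : ι → ℤ => Poi.gq G.A (cz z) := by
    have := Poi.summable_gq hd 0
    simp only [zero_add] at this
    exact this
  unfold tk
  refine Summable.tsum_le_tsum (fun z => ?_) (hs.indicator _) (hs.indicator _)
  exact Set.indicator_le_indicator_of_subset h (fun z => (Poi.gq_pos _ _).le) z

/-- the substitution -/
def sg (S : St ι) (j : ι) : ι → MvPolynomial ι ℝ := Function.update X j (X j + S.G.q j)

/-- the sheared tower -/
def sh (S : St ι) (j : ι) : St ι where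
  G := ⟨S.G.g, S.G.w, S.G.A, S.G.B, fun a => if a = j then 0 else aeval (sg S j) (S.G.q a),
    insert j S.G.ex⟩
  p := fun a => aeval (sg S j) (S.p a)
  pi := S.pi

variable {S : St ι} {s : ℕ} {j : ι}

theorem sg_hm (h : S.Ok s) (j b : ι) : IsWeightedHomogeneous S.G.w (sg S j b) (S.G.w b) := by
  by_cases hb : b = j
  · subst hb
    simp only [sg, Function.update_self]
    exact (isWeightedHomogeneous_X ℝ S.G.w b).add (h.ok.qh b)
  · simp only [sg, Function.update_of_ne hb]
    exact isWeightedHomogeneous_X ℝ S.G.w b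

theorem sg_vars (h : S.Ok s) (j b c : ι) (hc : c ∈ (sg S j b).vars) : S.G.g c ≤ S.G.g b := by
  by_cases hb : b = j
  · subst hb
    simp only [sg, Function.update_self] at hc
    rcases Finset.mem_union.1 (vars_add_subset _ _ hc) with h1 | h1
    · rw [vars_X, Finset.mem_singleton] at h1
      rw [h1]
    · exact (h.ok.ql b c h1).le
  · simp only [sg, Function.update_of_ne hb] at hc
    rw [vars_X, Finset.mem_singleton] at hc
    rw [hc]

theorem j_not (h : S.Ok s) (j : ι) : j ∉ (S.G.q j).vars := fun hj => lt_irrefl _ (h.ok.ql j j hj)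

theorem sg_qj (h : S.Ok s) (j : ι) : aeval (sg S j) (S.G.q j) = S.G.q j := by
  refine aeval_same _ _ fun b hb => ?_
  have : b ≠ j := fun e => j_not h j (e ▸ hb)
  simp only [sg, Function.update_of_ne this]

theorem sh_th (h : S.Ok s) (j a : ι) : (sh S j).G.th a = aeval (sg S j) (S.G.th a) := by
  unfold GT.th
  rw [map_sum]
  refine Finset.sum_congr rfl fun b _ => ?_
  rw [map_mul, map_sub, aeval_C, aeval_X, algebraMap_eq]
  by_cases hb : b = j
  · subst hb
    rw [sg_qj h b]
    simp [sh, sg]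
  · simp [sh, sg, hb]

theorem sh_ch (h : S.Ok s) (j a : ι) : (sh S j).ch a = aeval (sg S j) (S.ch a) := by
  unfold St.ch
  rw [sh_th h, map_add]
  rfl

theorem sg_pi (h : S.Ok s) (j : ι) : aeval (sg S j) S.pi = S.pi := by
  refine aeval_same _ _ fun b hb => ?_
  by_cases hj : b = j
  · subst hj
    obtain ⟨m, hm, hbm⟩ := (mem_vars_iff_mem_support b).1 hb
    have h2 := h.p1 m hm
    have h3 : S.G.w b ≤ Finsupp.weight S.G.w m :=
      Finsupp.le_weight_of_ne_zero' _ (Finsupp.mem_support_iff.1 hbm)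
    have h4 := h.lv b
    have h5 : S.G.g b = 0 := by omega
    have h6 : S.G.q b = 0 := by
      by_contra h0
      obtain ⟨d, hd⟩ := exists_coeff_ne_zero h0
      have h7 : Finsupp.weight S.G.w d = S.G.w b := h.ok.qh b hd
      have h8 : d = 0 := by
        by_contra h9
        obtain ⟨i, hi⟩ := Finsupp.support_nonempty_iff.2 h9
        have := h.ok.ql b i ((mem_vars_iff_mem_support i).2 ⟨d, mem_support_iff.2 hd, hi⟩)
        omega
      rw [h8, map_zero] at h7
      omega
    simp [sg, h6]
  · simp only [sg, Function.update_of_ne hj]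

theorem Arow (h : S.Ok s) {δ : ℝ} (hp : S.Pv (gp S.G (S.G.g j) \ S.G.ex) j δ) (b : ι)
    (hb : b ∉ S.G.ex) (hbj : b ≠ j) : S.G.A j b = 0 := by
  by_contra h0
  have h1 := (h.ok.blk j b (Or.inl h0)).1
  exact h0 (hp.2.2.2 b (by simp [gp, hb, h1]) hbj)

theorem Brow (h : S.Ok s) {δ : ℝ} (hp : S.Pv (gp S.G (S.G.g j) \ S.G.ex) j δ) (b : ι)
    (hb : b ∉ S.G.ex) : δ⁻¹ * S.G.B j b = if j = b then 1 else 0 := by
  have h1 := congrFun (congrFun h.ok.AB j) b
  rw [Matrix.mul_apply, Matrix.one_apply, Finset.sum_eq_single j, hp.2.2.1] at h1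
  · exact h1
  · intro c _ hc
    by_cases he : c ∈ S.G.ex
    · rw [(h.tri c he b hb).2, mul_zero]
    · rw [Arow h hp c he hc, zero_mul]
  · intro h0
    exact absurd (Finset.mem_univ j) h0

theorem Bz (h : S.Ok s) {δ : ℝ} (hp : S.Pv (gp S.G (S.G.g j) \ S.G.ex) j δ) (b : ι)
    (hb : b ∉ S.G.ex) (hbj : b ≠ j) : S.G.B j b = 0 := by
  have h1 := Brow h hp b hb
  rw [if_neg (Ne.symm hbj)] at h1
  exact (mul_eq_zero.1 h1).resolve_left (inv_ne_zero hp.2.1.ne')

theorem Bjj (h : S.Ok s) {δ : ℝ} (hp : S.Pv (gp S.G (S.G.g j) \ S.G.ex) j δ) :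
    S.G.B j j = δ := by
  have h1 := Brow h hp j (Finset.mem_sdiff.1 hp.1).2
  rw [if_pos rfl] at h1
  have h2 := hp.2.1.ne'
  field_simp at h1
  exact h1

theorem sh_ok (h : S.Ok s) {δ : ℝ} (hp : S.Pv (gp S.G (S.G.g j) \ S.G.ex) j δ) :
    (sh S j).Ok s where
  ok :=
    { w1 := h.ok.w1
      ws := h.ok.ws
      gs := h.ok.gs
      AB := h.ok.AB
      blk := h.ok.blk
      qh := fun a => by
        change IsWeightedHomogeneous S.G.w
          (if a = j then 0 else aeval (sg S j) (S.G.q a)) (S.G.w a)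
        split_ifs with ha
        · exact isWeightedHomogeneous_zero ℝ _ _
        · intro d hd
          obtain ⟨m, hm, e⟩ := supp_aeval S.G.w _ (sg_hm h j) _ d (mem_support_iff.2 hd)
          rw [e]
          exact h.ok.qh a (mem_support_iff.1 hm)
      ql := fun a => by
        intro b hb
        change b ∈ (if a = j then 0 else aeval (sg S j) (S.G.q a)).vars at hb
        change S.G.g b < S.G.g a
        split_ifs at hb with ha
        · simp at hb
        · rw [aeval_eq_bind₁] at hb
          obtain ⟨i, hi, hbi⟩ := mem_vars_bind₁ _ _ hb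
          exact (sg_vars h j i b hbi).trans_lt (h.ok.ql a i hi)
      qe := fun a ha => by
        change (if a = j then 0 else aeval (sg S j) (S.G.q a)) = 0
        split_ifs with haj
        · rfl
        · have : a ∈ S.G.ex := (Finset.mem_insert.1 ha).resolve_left haj
          rw [h.ok.qe a this, map_zero] }
  lv := h.lv
  pd := fun a d hd => by
    obtain ⟨m, hm, e⟩ := supp_aeval S.G.w _ (sg_hm h j) _ d hd
    change Finsupp.weight S.G.w d < S.G.w a
    rw [e]
    exact h.pd a m hm
  tri := fun a ha b hb => by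
    have hb1 : b ≠ j := fun e => hb (e ▸ Finset.mem_insert_self _ _)
    have hb2 : b ∉ S.G.ex := fun e => hb (Finset.mem_insert_of_mem e)
    rcases Finset.mem_insert.1 ha with e | e
    · rw [e]
      exact ⟨Arow h hp b hb2 hb1, Bz h hp b hb2 hb1⟩
    · exact h.tri a e b hb2
  pz := h.pz
  p1 := h.p1

theorem ex_equiv (h : S.Ok s) (j : ι) (hz : IsZ (S.G.q j)) :
    ∃ T : (ι → ℤ) ≃ (ι → ℤ), ∀ (z : ι → ℤ) (F : MvPolynomial ι ℝ),
      eval (cz z) (aeval (sg S j) F) = eval (cz (T z)) F := by
  choose n hn using isz_val _ hz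
  have h1 : ∀ z y, n (Function.update z j y) = n z := by
    intro z y
    have h2 : ((n (Function.update z j y) : ℤ) : ℝ) = n z := by
      rw [← hn, ← hn]
      refine eval_same _ _ _ fun b hb => ?_
      have : b ≠ j := fun e => j_not h j (e ▸ hb)
      simp only [cz, Function.update_of_ne this]
    exact_mod_cast h2
  refine ⟨shE j n h1, fun z F => ?_⟩
  rw [eval_aev]
  congr 2
  funext b
  change eval (cz z) (sg S j b) = ((Function.update z j (z j + n z) b : ℤ) : ℝ)
  by_cases hb : b = j
  · subst hb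
    simp only [sg, Function.update_self, map_add, eval_X, hn]
    push_cast
    rfl
  · simp only [sg, Function.update_of_ne hb, eval_X]
    rfl

end ShH46

open ShH46 in
theorem shear (hD : DVP) : SHEAR := by
  intro s N A ι _ _ S θ θn γ ρ b δ h j hI hp hδ hz
  have hO := hI.ok
  have hj : j ∉ S.G.ex := (Finset.mem_sdiff.1 hp.1).2
  obtain ⟨T, hT⟩ := ex_equiv hO j hz
  have hw : ∀ z, (sh S j).wt z = S.wt (T z) := by
    intro z
    unfold St.wt St.sq
    simp only [sh_ch hO, hT]
  have hi : ∀ z, (sh S j).ind A z = S.ind A (T z) := by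
    intro z
    unfold St.ind
    have : eval (cz z) (sh S j).pi = eval (cz (T z)) S.pi := by
      rw [← hT, sg_pi hO]
      rfl
    rw [this]
  have hms : (sh S j).ms = S.ms := by
    unfold St.ms
    simp only [hw]
    exact T.tsum_eq S.wt
  have hhit : (sh S j).hit A = S.hit A := by
    unfold St.hit
    simp only [hw, hi]
    exact T.tsum_eq fun z => S.wt z * S.ind A z
  refine ⟨sh S j, ⟨sh_ok hO hp, hI.ph, fun g => ?_, ?_, hI.kr, ?_⟩, ?_⟩
  · change tk S.G (Lat (gp S.G g \ insert j S.G.ex)) ≤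
      Real.exp (at1 θn (S.G.g j) h g) * S.G.dv (gp S.G g \ insert j S.G.ex)
    by_cases hg : g = S.G.g j
    · subst hg
      have e1 : gp S.G (S.G.g j) \ insert j S.G.ex = (gp S.G (S.G.g j) \ S.G.ex).erase j := by
        ext c
        simp only [Finset.mem_sdiff, Finset.mem_insert, Finset.mem_erase]
        tauto
      have e2 := hD ι S.G _ j hp.1
        (Or.inl fun c hc hcj => Bz hO hp c (Finset.mem_sdiff.1 hc).2 hcj)
      rw [Bjj hO hp, abs_of_pos hp.2.1] at e2
      have e3 : tk S.G (Lat ((gp S.G (S.G.g j) \ S.G.ex).erase j)) ≤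
          tk S.G (Lat (gp S.G (S.G.g j) \ S.G.ex)) := by
        refine tk_mono S.G hO.ok.AB fun z hz' => ?_
        intro a ha
        exact hz' a fun h0 => ha (Finset.mem_of_mem_erase h0)
      rw [e1]
      refine e3.trans ((hI.pn _).trans ?_)
      rw [e2, ← mul_assoc]
      refine mul_le_mul_of_nonneg_right ?_ (dv_nonneg _ _)
      simp only [at1, if_true, Real.exp_add]
      exact mul_le_mul_of_nonneg_left hδ (Real.exp_pos _).le
    · have e1 : gp S.G g \ insert j S.G.ex = gp S.G g \ S.G.ex := by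
        ext c
        simp only [Finset.mem_sdiff, Finset.mem_insert, gp, Finset.mem_filter, Finset.mem_univ,
          true_and]
        constructor
        · rintro ⟨h1, h2⟩
          exact ⟨h1, fun h3 => h2 (Or.inr h3)⟩
        · rintro ⟨h1, h2⟩
          refine ⟨h1, fun h3 => h3.elim (fun h4 => hg ?_) h2⟩
          rw [← h1, h4]
      rw [e1]
      simp only [at1, if_neg hg, add_zero]
      exact hI.pn g
  · rw [hms]
    exact hI.ma
  · rw [hms, hhit]
    exact hI.de
  · change 2 * ∑ a, S.G.w a + ((insert j S.G.ex)ᶜ).card < 2 * ∑ a, S.G.w a + (S.G.exᶜ).card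
    refine Nat.add_lt_add_left (Finset.card_lt_card ?_) _
    rw [Finset.compl_insert]
    exact Finset.erase_ssubset (Finset.mem_compl.2 hj)

end

end Vale.Agent.P057T.Rg
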