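import Vale.Agent.P057T.Rg.Defs
import Vale.Agent.P057T.Cfg.Dil

/-! Dilation of the lower groups. -/

set_option linter.all false

open MvPolynomial Finset
open scoped Real

namespace Vale.Agent.P057T.Rg

open Vale.Agent.P057T.Eq Vale.Agent.P057T.Eq.Derok Vale.Agent.P057T.Cfg.DilA

noncomputable section

/-- dilate the groups `< g` by `n` (with `0 ≤ x`) -/
def DIL1 : Prop := ∀ (s N : ℕ) (A : Finset ℤ) (ι : Type) [Fintype ι] [DecidableEq ι] (S : St ι)
  (θ θn : ℕ → ℝ) (γ ρ b η x l : ℝ) (g n : ℕ), S.Inv s N A θ θn γ ρ b → 1 ≤ n →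
    (n : ℝ) ≤ Real.exp l → 0 < η → 0 ≤ x → Real.exp (-x) ≤ η * b →
    ∃ S' : St ι, S'.Inv s N A (lo θ g (Fintype.card ι * l)) (lo θn g (Fintype.card ι * l)) (γ + x)
        (ρ + Fintype.card ι * l) ((1 - 2 * η) * b) ∧ S.Sa S' ∧
      (∀ a c, S'.G.A a c = (if S.G.g a < g then (n : ℝ) else 1) * S.G.A a c) ∧
      (∀ a c, S'.G.B a c = (if S.G.g a < g then (n : ℝ)⁻¹ else 1) * S.G.B a c) ∧
      ∀ j, S.G.g j = g → IsZ (C (n : ℝ) * S.G.q j) → IsZ (S'.G.q j)

namespace DlA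

variable {ι : Type} [Fintype ι] [DecidableEq ι] {s : ℕ}

def D (m : ι → ℕ) : MvPolynomial ι ℝ →ₐ[ℝ] MvPolynomial ι ℝ := aeval fun b => C (m b : ℝ) * X b

def Sh (m : ι → ℕ) (r : ι → ℤ) : MvPolynomial ι ℝ →ₐ[ℝ] MvPolynomial ι ℝ :=
  aeval fun b => C (r b : ℝ) + C (m b : ℝ) * X b

def pz (m : ι → ℕ) (r z : ι → ℤ) : ι → ℤ := fun a => r a + m a * z a

def dG (G : GT ι) (m : ι → ℕ) : GT ι where
  g := G.g
  w := G.w
  A := Matrix.of fun a c => (m a : ℝ) * G.A a c
  B := Matrix.of fun a c => (m a : ℝ)⁻¹ * G.B a c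
  q := fun a => C (m a : ℝ)⁻¹ * D m (G.q a)
  ex := G.ex

def dS (S : St ι) (m : ι → ℕ) (r : ι → ℤ) : St ι where
  G := dG S.G m
  p := fun a => Sh m r (S.ch a) - (dG S.G m).th a
  pi := Sh m r S.pi

lemma eval_Sh (m : ι → ℕ) (r z : ι → ℤ) (F : MvPolynomial ι ℝ) :
    eval (cz z) (Sh m r F) = eval (cz (pz m r z)) F := by
  induction F using MvPolynomial.induction_on with
  | C a => simp [Sh]
  | add p q hp hq => rw [map_add, map_add, map_add, hp, hq]
  | mul_X p b hp =>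
    rw [map_mul, map_mul, map_mul, hp]
    simp [cz, Sh, pz]

lemma D_eq (m : ι → ℕ) : D m = Sh m 0 := by
  unfold D Sh
  congr 1
  funext b
  simp

lemma D_hom {w : ι → ℕ} {F : MvPolynomial ι ℝ} {e : ℕ} (m : ι → ℕ) (h : IsWeightedHomogeneous w F e) :
    IsWeightedHomogeneous w (D m F) e :=
  Chart.hom_aeval h fun i => hom_Cmul _ (isWeightedHomogeneous_X ℝ w i)

lemma D_vars {P : ι → Prop} (m : ι → ℕ) {F : MvPolynomial ι ℝ} (h : ∀ j ∈ F.vars, P j) :
    ∀ j ∈ (D m F).vars, P j :=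
  Chart.vars_aeval fun i hi => Chart.vars_mul' (Chart.vars_C' _) (Chart.vars_X' (h i hi))

lemma dz2 {w : ι → ℕ} (hw : ∀ a, 1 ≤ w a) (m : ι → ℕ) (r : ι → ℤ) {k : ℤ} {F : MvPolynomial ι ℝ}
    (hF : DZ w k F) : DZ w k (Sh m r F) ∧ DZ w (k - 1) (Sh m r F - D m F) :=
  two' (fun b => ((dz_C _).mono (by omega)).add ((dz_X b).cmul _)) (fun b => (dz_X b).cmul _)
    (fun b => by
      rw [add_sub_cancel_right]
      exact (dz_C _).mono (by have := hw b; omega)) hF

lemma ev_const {w : ι → ℕ} (hw : ∀ a, 1 ≤ w a) {F : MvPolynomial ι ℝ} (hF : DZ w 0 F) (x y : ι → ℝ) :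
    eval x F = eval y F := by
  refine hom_congr_vars (by ext r; simp) (fun i hi _ => ?_) rfl
  exfalso
  obtain ⟨μ, hμ, hi'⟩ := (mem_vars_iff_mem_support i).1 hi
  have h1 := Finsupp.le_weight_of_ne_zero' w (Finsupp.mem_support_iff.1 hi')
  have h2 := hF μ hμ
  have h3 := hw i
  omega

lemma int_sc1 {n : ℕ} {F : MvPolynomial ι ℝ} (hI : L1.IsInt (C (n : ℝ) * F)) (h0 : coeff 0 F = 0) :
    L1.IsInt (sc (n : ℝ) F) := by
  rw [F.as_sum, map_sum]
  refine L1.isInt_sum fun μ hμ => ?_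
  obtain ⟨a, ha⟩ := hI μ
  rw [coeff_C_mul] at ha
  have h1 : (μ.sum fun _ e => e) ≠ 0 := by
    intro h
    have : μ = 0 := by
      ext i
      by_contra hi
      exact hi (Finset.sum_eq_zero_iff.1 h i (Finsupp.mem_support_iff.2 hi))
    exact mem_support_iff.1 hμ (by rw [this, h0])
  obtain ⟨k, hk⟩ := Nat.exists_eq_succ_of_ne_zero h1
  rw [sc_monomial]
  refine L1.isInt_iff.2 ⟨monomial μ (a * (n : ℤ) ^ k), ?_⟩
  rw [map_monomial]
  congr 1
  rw [hk, pow_succ]
  simp only [eq_intCast, Int.cast_mul, Int.cast_pow, Int.cast_natCast]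
  rw [← ha]
  ring

section

variable {G : GT ι} {m : ι → ℕ} (h1 : ∀ a, 1 ≤ m a) (h2 : ∀ a c, G.g a = G.g c → m a = m c)
include h1

lemma m_ne (a : ι) : (m a : ℝ) ≠ 0 := by
  have := h1 a
  positivity

lemma dv_dG (V : Finset ι) : G.dv V = (∏ a ∈ V, (m a : ℝ)) * (dG G m).dv V := by
  unfold GT.dv
  have e : (dG G m).B.submatrix (Subtype.val : V → ι) (Subtype.val : V → ι) =
      Matrix.of fun i j : V => (m i : ℝ)⁻¹ *
        G.B.submatrix (Subtype.val : V → ι) (Subtype.val : V → ι) i j := rfl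
  have e1 : 0 ≤ ∏ i : V, (m i : ℝ)⁻¹ := Finset.prod_nonneg fun _ _ => by positivity
  rw [e, Matrix.det_mul_column, abs_mul, abs_of_nonneg e1,
    ← mul_assoc, ← Finset.prod_coe_sort V, ← Finset.prod_mul_distrib,
    Finset.prod_eq_one fun i _ => mul_inv_cancel₀ (m_ne h1 _), one_mul]

/-- classes -/
def cls : ((a : ι) → Fin (m a)) × (ι → ℤ) ≃ (ι → ℤ) where
  toFun p := pz m (fun a => (p.1 a : ℕ)) p.2
  invFun x := (fun a => ⟨(x a % m a).toNat, by
    have h0 : (0 : ℤ) < m a := by exact_mod_cast h1 a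
    have := Int.emod_lt_of_pos (x a) h0
    have := Int.emod_nonneg (x a) h0.ne'
    omega⟩, fun a => x a / m a)
  left_inv p := by
    have h0 : ∀ a, (0 : ℤ) < m a := fun a => by exact_mod_cast h1 a
    have h3 : ∀ a, (((p.1 a : ℕ) : ℤ)) < m a := fun a => by exact_mod_cast (p.1 a).2
    refine Prod.ext (funext fun a => Fin.ext ?_) (funext fun a => ?_)
    · show ((((p.1 a : ℕ) : ℤ) + m a * p.2 a) % m a).toNat = _
      rw [Int.add_mul_emod_self_left, Int.emod_eq_of_lt (Int.natCast_nonneg _) (h3 a), Int.toNat_natCast]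
    · show (((p.1 a : ℕ) : ℤ) + m a * p.2 a) / m a = _
      rw [Int.add_mul_ediv_left _ _ (h0 a).ne', Int.ediv_eq_zero_of_lt (Int.natCast_nonneg _) (h3 a),
        zero_add]
  right_inv x := by
    funext a
    have h0 : (0 : ℤ) < m a := by exact_mod_cast h1 a
    show (((x a % m a).toNat : ℕ) : ℤ) + m a * (x a / m a) = x a
    rw [Int.toNat_of_nonneg (Int.emod_nonneg _ h0.ne'), Int.emod_add_mul_ediv]

lemma tsum_cls {f : (ι → ℤ) → ℝ} (hf : Summable f) :
    ∑' z, f z = ∑ r : (a : ι) → Fin (m a), ∑' z, f (pz m (fun a => (r a : ℕ)) z) := by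
  have h := ((cls h1).summable_iff.2 hf).tsum_prod
  exact ((cls h1).tsum_eq f).symm.trans (h.trans (tsum_fintype _))

lemma pz_inj (r : ι → ℤ) : Function.Injective (pz m r) := by
  intro z z' h
  funext a
  have h0 : (m a : ℤ) ≠ 0 := by have := h1 a; omega
  exact mul_left_cancel₀ h0 (add_left_cancel (congrFun h a))

include h2

lemma th_dG (hG : G.Ok s) (a : ι) : (dG G m).th a = D m (G.th a) := by
  unfold GT.th
  rw [map_sum]
  refine Finset.sum_congr rfl fun b _ => ?_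
  show C ((m a : ℝ) * G.A a b) * (X b - C (m b : ℝ)⁻¹ * D m (G.q b)) = _
  by_cases hb : G.A a b = 0
  · simp [hb]
  have e : (C (m b : ℝ) : MvPolynomial ι ℝ) * C (m b : ℝ)⁻¹ = 1 := by
    rw [← C_mul, mul_inv_cancel₀ (m_ne h1 b), C_1]
  have e1 : D m (X b) = C (m b : ℝ) * X b := aeval_X _ _
  have e2 : D m (C (G.A a b)) = C (G.A a b) := algHom_C _ _
  rw [h2 a b (hG.blk a b (Or.inl hb)).1, map_mul (D m), map_sub, e1, e2, C_mul]
  linear_combination (-(C (G.A a b) * D m (G.q b))) * e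

lemma ok_dG (hG : G.Ok s) : (dG G m).Ok s where
  w1 := hG.w1
  ws := hG.ws
  gs := hG.gs
  AB := by
    rw [← hG.AB]
    ext a d
    rw [Matrix.mul_apply, Matrix.mul_apply]
    refine Finset.sum_congr rfl fun c _ => ?_
    show (m a : ℝ) * G.A a c * ((m c : ℝ)⁻¹ * G.B c d) = _
    by_cases hc : G.A a c = 0
    · simp [hc]
    have := m_ne h1 c
    rw [h2 a c (hG.blk a c (Or.inl hc)).1]
    field_simp
  blk := fun a b h => hG.blk a b (h.imp right_ne_zero_of_mul right_ne_zero_of_mul)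
  qh := fun a => hom_Cmul _ (D_hom m (hG.qh a))
  ql := fun a => Chart.vars_mul' (Chart.vars_C' _) (D_vars m (hG.ql a))
  qe := fun a ha => by
    show C (m a : ℝ)⁻¹ * D m (G.q a) = 0
    rw [hG.qe a ha, map_zero, mul_zero]

lemma tk_dG (hG : G.Ok s) {Q Q' : Set (ι → ℤ)} (h : ∀ z ∈ Q', pz m 0 z ∈ Q) :
    tk (dG G m) Q' ≤ tk G Q := by
  have hdet : G.A.det ≠ 0 := by
    have := congrArg Matrix.det hG.AB
    rw [Matrix.det_mul, Matrix.det_one] at this
    exact left_ne_zero_of_mul_eq_one this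
  have hs : Summable fun z : ι → ℤ => Poi.gq G.A (cz z) :=
    (Poi.summable_gq hdet 0).congr fun z => by rw [zero_add]; rfl
  have hs1 : Summable fun z => Q.indicator (fun z => Poi.gq G.A (cz z)) z := hs.indicator Q
  have hnn : ∀ z, 0 ≤ Q.indicator (fun z => Poi.gq G.A (cz z)) z :=
    Set.indicator_nonneg fun z _ => (Poi.gq_pos _ _).le
  have e : ∀ z, Poi.gq (dG G m).A (cz z) = Poi.gq G.A (cz (pz m 0 z)) := by
    intro z
    have : (dG G m).A.mulVec (cz z) = G.A.mulVec (cz (pz m 0 z)) := by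
      funext a
      refine Finset.sum_congr rfl fun c _ => ?_
      show (m a : ℝ) * G.A a c * (z c : ℝ) = G.A a c * (((0 : ℤ) + (m c : ℤ) * z c : ℤ) : ℝ)
      by_cases hc : G.A a c = 0
      · simp [hc]
      rw [h2 a c (hG.blk a c (Or.inl hc)).1]
      push_cast
      ring
    unfold Poi.gq P267.H775.qf
    rw [this]
  have hle : ∀ z, Q'.indicator (fun z => Poi.gq (dG G m).A (cz z)) z ≤
      Q.indicator (fun z => Poi.gq G.A (cz z)) (pz m 0 z) := by
    intro z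
    by_cases hz : z ∈ Q'
    · rw [Set.indicator_of_mem hz, Set.indicator_of_mem (h z hz), e]
    · rw [Set.indicator_of_notMem hz]
      exact hnn _
  have hs2 := hs1.comp_injective (pz_inj h1 0)
  refine le_trans (Summable.tsum_le_tsum hle (Summable.of_nonneg_of_le
    (Set.indicator_nonneg fun z _ => (Poi.gq_pos _ _).le) hle hs2) hs2) ?_
  exact tsum_comp_le_tsum_of_inj hs1 hnn (pz_inj h1 0)

end

lemma pz_lat (m : ι → ℕ) {V : Finset ι} {z : ι → ℤ} (h : z ∈ Lat V) : pz m 0 z ∈ Lat V :=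
  fun a ha => by simp [pz, h a ha]

lemma ch_dS (S : St ι) (m : ι → ℕ) (r : ι → ℤ) (a : ι) : (dS S m r).ch a = Sh m r (S.ch a) :=
  add_sub_cancel _ _

lemma wt_dS (S : St ι) (m : ι → ℕ) (r z : ι → ℤ) : (dS S m r).wt z = S.wt (pz m r z) := by
  unfold St.wt St.sq
  simp only [ch_dS, eval_Sh]

lemma ind_dS (S : St ι) (A : Finset ℤ) (m : ι → ℕ) (r z : ι → ℤ) :
    (dS S m r).ind A z = S.ind A (pz m r z) := by
  unfold St.ind
  have : eval (cz z) (dS S m r).pi = eval (cz (pz m r z)) S.pi := eval_Sh _ _ _ _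
  rw [this]

lemma ind_01 (S : St ι) (A : Finset ℤ) (z : ι → ℤ) : 0 ≤ S.ind A z ∧ S.ind A z ≤ 1 := by
  unfold St.ind
  split_ifs <;> norm_num

lemma ok_dS {S : St ι} {m : ι → ℕ} (h1 : ∀ a, 1 ≤ m a) (h2 : ∀ a c, S.G.g a = S.G.g c → m a = m c)
    (hS : S.Ok s) (r : ι → ℤ) : (dS S m r).Ok s where
  ok := ok_dG h1 h2 hS.ok
  lv := hS.lv
  pd := fun a => by
    refine (dl_iff S.G _ _).2 ?_
    have h4 := (dz2 hS.ok.w1 m r (dz_hom (th_hm hS.ok a))).2
    have h5 := (dz2 hS.ok.w1 m r ((dl_iff S.G _ _).1 (hS.pd a))).1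
    have e : (dS S m r).p a = (Sh m r (S.G.th a) - D m (S.G.th a)) + Sh m r (S.p a) := by
      show Sh m r (S.G.th a + S.p a) - (dG S.G m).th a = _
      rw [th_dG h1 h2 hS.ok, map_add]
      ring
    show DZ S.G.w ((S.G.w a : ℤ) - 1) _
    rw [e]
    exact h4.add h5
  tri := fun a ha b hb => by
    obtain ⟨e1, e2⟩ := hS.tri a ha b hb
    exact ⟨mul_eq_zero_of_right _ e1, mul_eq_zero_of_right _ e2⟩
  pz := L1.IsInt.aeval hS.pz fun b =>
    (L1.isInt_C _).add ((L1.isInt_C (m b : ℤ)).mul (L1.isInt_X b))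
  p1 := (dl_iff S.G _ _).2 (dz2 hS.ok.w1 m r ((dl_iff S.G _ _).1 hS.p1)).1

lemma ker_dS {S : St ι} (hS : S.Ok s) (m : ι → ℕ) (r : ι → ℤ) :
    ∀ z ∈ (dS S m r).ker, pz m 0 z ∈ S.ker := by
  intro z hz
  refine ⟨pz_lat m hz.1, ?_⟩
  have h1 : eval (cz z) (Sh m r S.pi) = eval 0 (Sh m r S.pi) := hz.2
  have h2 := ev_const hS.ok.w1 (dz2 hS.ok.w1 m r ((dl_iff S.G _ _).1 hS.p1)).2 (cz z) 0
  have e0 : (0 : ι → ℝ) = cz (0 : ι → ℤ) := by
    funext a
    simp [cz]
  have e1 : pz m 0 0 = (0 : ι → ℤ) := by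
    funext a
    simp [pz]
  rw [map_sub, map_sub, h1, sub_right_inj, D_eq, eval_Sh, e0, eval_Sh, e1] at h2
  rw [h2, e0]

/-- pigeonhole over finitely many classes -/
lemma pig {α : Type} [Fintype α] [Nonempty α] (F M : α → ℝ) {b η u : ℝ} (h0 : ∀ r, 0 ≤ F r)
    (h1 : ∀ r, F r ≤ M r) (hb : 0 < b) (hη : 0 < η) (hu : u ≤ η * b) (hu1 : u ≤ 1)
    (hM : 0 < ∑ r, M r) (h : b * ∑ r, M r ≤ ∑ r, F r) :
    ∃ r, (1 - 2 * η) * b * M r ≤ F r ∧ u * ∑ r, M r ≤ Fintype.card α * M r := by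
  by_contra hc
  push Not at hc
  have hK : (0 : ℝ) < Fintype.card α := by exact_mod_cast Fintype.card_pos
  rcases le_or_gt η (1 / 2) with h2 | h2
  · have h3 : ∀ r, Fintype.card α * F r ≤
        Fintype.card α * ((1 - 2 * η) * b * M r) + η * b * ∑ r, M r := by
      intro r
      have h4 : 0 ≤ (1 - 2 * η) * b * M r :=
        mul_nonneg (mul_nonneg (by linarith) hb.le) ((h0 r).trans (h1 r))
      have h5 : 0 ≤ η * b * ∑ r, M r := by positivity
      by_cases h6 : (1 - 2 * η) * b * M r ≤ F r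
      · have h7 := hc r h6
        have h8 := mul_le_mul_of_nonneg_left (h1 r) hK.le
        have h9 := mul_le_mul_of_nonneg_right hu hM.le
        have := mul_nonneg hK.le h4
        linarith
      · have := mul_le_mul_of_nonneg_left (not_le.1 h6).le hK.le
        linarith
    have h4 := Finset.sum_le_sum fun r (_ : r ∈ (univ : Finset α)) => h3 r
    rw [Finset.sum_add_distrib, ← Finset.mul_sum, ← Finset.mul_sum, ← Finset.mul_sum, sum_const,
      card_univ, nsmul_eq_mul] at h4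
    have h5 := mul_le_mul_of_nonneg_left h hK.le
    have h6 : 0 < Fintype.card α * (η * b * ∑ r, M r) := by positivity
    nlinarith
  · have h3 : ∀ r, Fintype.card α * M r < ∑ r, M r := by
      intro r
      have h4 : (1 - 2 * η) * b * M r ≤ F r := le_trans
        (mul_nonpos_of_nonpos_of_nonneg (mul_nonpos_of_nonpos_of_nonneg (by linarith) hb.le)
          ((h0 r).trans (h1 r))) (h0 r)
      have := mul_le_mul_of_nonneg_right hu1 hM.le
      linarith [hc r h4]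
    have h4 := Finset.sum_lt_sum_of_nonempty (univ_nonempty (α := α)) fun r _ => h3 r
    rw [← Finset.mul_sum, sum_const, card_univ, nsmul_eq_mul] at h4
    exact lt_irrefl _ h4

end DlA

open DlA in
theorem dil (hB : BR) : DIL1 := by
  intro s N A ι _ _ S θ θn γ ρ b η x l g n hI hn hl hη hx hxb
  obtain ⟨-, hsum, -, -, hdv⟩ := hB s ι S hI.ok
  set m : ι → ℕ := fun a => if S.G.g a < g then n else 1 with hm
  have h1 : ∀ a, 1 ≤ m a := fun a => by
    simp only [hm]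
    split_ifs
    · exact hn
    · exact le_rfl
  have h2 : ∀ a c, S.G.g a = S.G.g c → m a = m c := fun a c h => by simp only [hm, h]
  have hE : 1 ≤ Real.exp l := le_trans (by exact_mod_cast hn) hl
  have hl0 : 0 ≤ l := Real.one_le_exp_iff.1 hE
  have hprod : ∀ V : Finset ι, ∏ a ∈ V, (m a : ℝ) ≤ Real.exp (Fintype.card ι * l) := by
    intro V
    calc ∏ a ∈ V, (m a : ℝ) ≤ ∏ _a ∈ V, Real.exp l :=
          Finset.prod_le_prod (fun _ _ => Nat.cast_nonneg _) fun a _ => by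
            simp only [hm]
            split_ifs
            · exact hl
            · exact_mod_cast hE
      _ = Real.exp l ^ V.card := by rw [prod_const]
      _ ≤ Real.exp l ^ Fintype.card ι := pow_le_pow_right₀ hE (card_le_univ V)
      _ = _ := by rw [← Real.exp_nat_mul]
  have hth : ∀ (ϑ : ℕ → ℝ) (g' : ℕ) (V : Finset ι), V ⊆ gp S.G g' →
      tk S.G (Lat V) ≤ Real.exp (ϑ g') * S.G.dv V →
      tk (dG S.G m) (Lat V) ≤ Real.exp (lo ϑ g (Fintype.card ι * l) g') * (dG S.G m).dv V := by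
    intro ϑ g' V hV h
    refine (tk_dG h1 h2 hI.ok.ok fun z hz => pz_lat m hz).trans (h.trans ?_)
    rw [dv_dG h1 V, ← mul_assoc]
    refine mul_le_mul_of_nonneg_right ?_ (dv_nonneg _ _)
    unfold lo
    rw [Real.exp_add]
    refine mul_le_mul_of_nonneg_left ?_ (Real.exp_pos _).le
    split_ifs with hg
    · exact hprod V
    · rw [Real.exp_zero]
      refine le_of_eq (Finset.prod_eq_one fun a ha => ?_)
      have : S.G.g a = g' := (mem_filter.1 (hV ha)).2
      simp only [hm, this, hg, if_false, Nat.cast_one]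
  have hb : 0 < b := by
    have := lt_of_lt_of_le (Real.exp_pos _) hxb
    exact (mul_pos_iff_of_pos_left hη).1 this
  have hsum2 : Summable fun z => S.wt z * S.ind A z :=
    Summable.of_nonneg_of_le (fun z => mul_nonneg (Real.exp_pos _).le (ind_01 S A z).1)
      (fun z => mul_le_of_le_one_right (Real.exp_pos _).le (ind_01 S A z).2) hsum
  haveI : Nonempty ((a : ι) → Fin (m a)) := ⟨fun a => ⟨0, h1 a⟩⟩
  have e1 : S.ms = ∑ r : (a : ι) → Fin (m a), (dS S m fun a => (r a : ℕ)).ms := by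
    unfold St.ms
    simp only [wt_dS]
    exact tsum_cls h1 hsum
  have e2 : S.hit A = ∑ r : (a : ι) → Fin (m a), (dS S m fun a => (r a : ℕ)).hit A := by
    unfold St.hit
    simp only [wt_dS, ind_dS]
    exact tsum_cls h1 hsum2
  have hpos : 0 < S.ms := lt_of_lt_of_le
    (mul_pos (Real.exp_pos _) (hdv univ fun a _ ha => absurd (mem_univ a) ha)) hI.ma
  obtain ⟨r, hr1, hr2⟩ := pig (fun r : (a : ι) → Fin (m a) => (dS S m fun a => (r a : ℕ)).hit A)
    (fun r => (dS S m fun a => (r a : ℕ)).ms)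
    (fun r => tsum_nonneg fun z => mul_nonneg (Real.exp_pos _).le (ind_01 _ A z).1)
    (fun r => by
      unfold St.hit St.ms
      simp only [wt_dS, ind_dS]
      exact Summable.tsum_le_tsum
        (fun z => mul_le_of_le_one_right (Real.exp_pos _).le (ind_01 S A _).2)
        (hsum2.comp_injective (pz_inj h1 _)) (hsum.comp_injective (pz_inj h1 _)))
    hb hη hxb (Real.exp_le_one_iff.2 (by linarith)) (by rw [← e1]; exact hpos)
    (by rw [← e1, ← e2]; exact hI.de)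
  refine ⟨dS S m fun a => (r a : ℕ), ⟨ok_dS h1 h2 hI.ok _,
    fun g' => hth θ g' _ subset_rfl (hI.ph g'), fun g' => hth θn g' _ sdiff_subset (hI.pn g'), ?_, ?_,
    hr1⟩, ⟨rfl, rfl, rfl⟩, fun a c => ?_, fun a c => ?_, fun j hj hq => ?_⟩
  · rw [← e1, Fintype.card_pi] at hr2
    simp only [Fintype.card_fin] at hr2
    push_cast at hr2
    have hK : 0 < ∏ a, (m a : ℝ) := Finset.prod_pos fun a _ => by have := h1 a; positivity
    have h3 := mul_le_mul_of_nonneg_left hI.ma (Real.exp_pos (-x)).le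
    rw [dv_dG h1 univ] at h3
    refine le_of_mul_le_mul_left ?_ hK
    refine le_trans (le_of_eq ?_) (h3.trans hr2)
    rw [neg_add, Real.exp_add]
    show _ * (_ * (dG S.G m).dv univ) = _
    ring
  · have h3 : tk (dG S.G m) (dS S m fun a => (r a : ℕ)).ker ≤ tk S.G S.ker :=
      tk_dG h1 h2 hI.ok.ok (ker_dS hI.ok m _)
    refine (mul_le_mul_of_nonneg_left h3 (Nat.cast_nonneg N)).trans (hI.kr.trans ?_)
    rw [dv_dG h1 (gp S.G 0), ← mul_assoc, Real.exp_add]
    exact mul_le_mul_of_nonneg_right (mul_le_mul_of_nonneg_left (hprod _) (Real.exp_pos _).le)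
      (dv_nonneg _ _)
  · show (m a : ℝ) * S.G.A a c = _
    simp only [hm]
    split_ifs <;> simp
  · show (m a : ℝ)⁻¹ * S.G.B a c = _
    simp only [hm]
    split_ifs <;> simp
  · show IsZ (C (m j : ℝ)⁻¹ * D m (S.G.q j))
    have e3 : m j = 1 := by simp only [hm, hj, lt_irrefl, if_false]
    have e4 : D m (S.G.q j) = sc (n : ℝ) (S.G.q j) := by
      refine Chart.aeval_congr_vars fun i hi => ?_
      have := hI.ok.ok.ql j i hi
      rw [hj] at this
      simp only [hm, this, if_true]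
    rw [e3, Nat.cast_one, inv_one, C_1, one_mul, e4]
    exact int_sc1 hq (Chart.coeff_zero_of_hom (by have := hI.ok.ok.w1 j; omega) (hI.ok.ok.qh j))

end

end Vale.Agent.P057T.Rg
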