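import Vale.Agent.P057T.Rg.Ra
import Vale.Agent.P057T.Rg.Dil
import Vale.Agent.P057T.Cfg.Cp

/-! Shrinking the lower groups. -/

set_option linter.all false

open MvPolynomial Finset
open scoped Real

namespace Vale.Agent.P057T.Rg

open Vale.Agent.P057T.Eq Vale.Agent.P057L

noncomputable section

/-- shrink the groups `< g` by `exp (-l)` (with `0 < x`) -/
def SHR2 : Prop := ∀ (s N : ℕ) (A : Finset ℤ) (ι : Type) [Fintype ι] [DecidableEq ι] (S : St ι)
  (θ θn : ℕ → ℝ) (γ ρ b η x l : ℝ) (g : ℕ), S.Inv s N A θ θn γ ρ b → 0 < l → 0 < η → 0 < x →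
    Real.exp (-x) ≤ η * b →
    ∃ S' : St ι, S'.Inv s N A (lo θ g (Fintype.card ι * l)) (lo θn g (Fintype.card ι * l)) (γ + x)
        (ρ + Fintype.card ι * l) ((1 - 2 * η) * b) ∧ S.Sa S' ∧ S'.G.q = S.G.q ∧
      (∀ a c, S'.G.A a c = (if S.G.g a < g then Real.exp l else 1) * S.G.A a c) ∧
      ∀ a c, S'.G.B a c = (if S.G.g a < g then Real.exp (-l) else 1) * S.G.B a c

namespace ShA

variable {ι : Type} [Fintype ι] [DecidableEq ι] {s : ℕ}

def uE : Lat (univ : Finset ι) ≃ (ι → ℤ) where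
  toFun z := z.1
  invFun z := ⟨z, fun a ha => absurd (mem_univ a) ha⟩
  left_inv _ := rfl
  right_inv _ := rfl

lemma ex_eq (S : St ι) (h : (ι → ℤ) → ℝ) : Cp.Ex S.G S.AT h = ∑' z, S.wt z * h z := by
  rw [← (uE (ι := ι)).tsum_eq]
  refine tsum_congr fun z => ?_
  show Real.exp (-π * ∑ a, (1 * eval (cz z.1) (S.ch a)) ^ 2) • h z.1 = _
  simp only [one_mul, smul_eq_mul]
  rfl

lemma mn_eq (S : St ι) : Cp.Mn S.G S.AT = S.G.dv univ := by
  show S.G.dv univ * ∏ _a : ι, (1 : ℝ)⁻¹ = _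
  simp

lemma A_nr (G : GT ι) (l : ι → ℝ) (a c : ι) : (Cp.nr G l).A a c = l a * G.A a c :=
  Matrix.diagonal_mul _ _ _ _

lemma B_nr (G : GT ι) (l : ι → ℝ) (a c : ι) : (Cp.nr G l).B a c = G.B a c * (l c)⁻¹ :=
  Matrix.mul_diagonal _ _ _ _

lemma dv_nr (G : GT ι) {l : ι → ℝ} (h1 : ∀ a, 1 ≤ l a) (V : Finset ι) :
    G.dv V = (∏ a ∈ V, l a) * (Cp.nr G l).dv V := by
  have h0 : ∀ a, 0 < l a := fun a => lt_of_lt_of_le one_pos (h1 a)
  unfold GT.dv
  have e : (Cp.nr G l).B.submatrix (Subtype.val : V → ι) (Subtype.val : V → ι) =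
      Matrix.of fun i j : V => (l j)⁻¹ *
        G.B.submatrix (Subtype.val : V → ι) (Subtype.val : V → ι) i j := by
    ext i j
    exact (B_nr G l i j).trans (mul_comm _ _)
  have e1 : 0 ≤ ∏ i : V, (l i)⁻¹ := Finset.prod_nonneg fun i _ => (inv_pos.2 (h0 i)).le
  rw [e, Matrix.det_mul_row, abs_mul, abs_of_nonneg e1,
    ← mul_assoc, ← Finset.prod_coe_sort V, ← Finset.prod_mul_distrib,
    Finset.prod_eq_one fun i _ => mul_inv_cancel₀ (h0 _).ne', one_mul]

lemma tk_nr {G : GT ι} (hG : G.Ok s) {l : ι → ℝ} (h1 : ∀ a, 1 ≤ l a) (Q : Set (ι → ℤ)) :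
    tk (Cp.nr G l) Q ≤ tk G Q := by
  have hdet : G.A.det ≠ 0 := by
    have := congrArg Matrix.det hG.AB
    rw [Matrix.det_mul, Matrix.det_one] at this
    exact left_ne_zero_of_mul_eq_one this
  have hs : Summable fun z : ι → ℤ => Poi.gq G.A (cz z) :=
    (Poi.summable_gq hdet 0).congr fun z => by rw [zero_add]; rfl
  have hs1 : Summable fun z => Q.indicator (fun z => Poi.gq G.A (cz z)) z := hs.indicator Q
  have e : ∀ z, Poi.gq (Cp.nr G l).A (cz z) ≤ Poi.gq G.A (cz z) := by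
    intro z
    unfold Poi.gq P267.H775.qf
    refine Real.exp_le_exp.2 (mul_le_mul_of_nonpos_left (Finset.sum_le_sum fun a _ => ?_)
      (neg_nonpos.2 Real.pi_pos.le))
    have e1 : (Cp.nr G l).A.mulVec (cz z) a = l a * G.A.mulVec (cz z) a := by
      show ∑ c, (Cp.nr G l).A a c * cz z c = l a * ∑ c, G.A a c * cz z c
      rw [Finset.mul_sum]
      exact Finset.sum_congr rfl fun c _ => by rw [A_nr, mul_assoc]
    rw [e1, mul_pow]
    exact le_mul_of_one_le_left (sq_nonneg _) (one_le_pow₀ (h1 a))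
  have hle : ∀ z, Q.indicator (fun z => Poi.gq (Cp.nr G l).A (cz z)) z ≤
      Q.indicator (fun z => Poi.gq G.A (cz z)) z := fun z =>
    Set.indicator_le_indicator (e z)
  exact Summable.tsum_le_tsum hle (Summable.of_nonneg_of_le
    (Set.indicator_nonneg fun z _ => (Poi.gq_pos _ _).le) hle hs1) hs1

/-- the narrowed host -/
def nS (S : St ι) (l c : ι → ℝ) : St ι := ⟨Cp.nr S.G l, (Cp.nrT S.AT l c).p, S.pi⟩

lemma ex_aff {S : St ι} (hs : Summable S.wt) (A : Finset ℤ) (u v : ℝ) :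
    Cp.Ex S.G S.AT (fun z => u * S.ind A z + v) = u * S.hit A + v * S.ms := by
  have hs2 : Summable fun z => S.wt z * S.ind A z :=
    Summable.of_nonneg_of_le (fun z => mul_nonneg (Real.exp_pos _).le (DlA.ind_01 S A z).1)
      (fun z => mul_le_of_le_one_right (Real.exp_pos _).le (DlA.ind_01 S A z).2) hs
  rw [ex_eq]
  unfold St.hit St.ms
  rw [← tsum_mul_left, ← tsum_mul_left, ← (hs2.mul_left u).tsum_add (hs.mul_left v)]
  exact tsum_congr fun z => by ring

lemma hit_le {S : St ι} (hs : Summable S.wt) (A : Finset ℤ) : 0 ≤ S.hit A ∧ S.hit A ≤ S.ms := by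
  have h1 : ∀ z, 0 ≤ S.wt z * S.ind A z :=
    fun z => mul_nonneg (Real.exp_pos _).le (DlA.ind_01 S A z).1
  have h2 : ∀ z, S.wt z * S.ind A z ≤ S.wt z :=
    fun z => mul_le_of_le_one_right (Real.exp_pos _).le (DlA.ind_01 S A z).2
  exact ⟨tsum_nonneg h1, Summable.tsum_le_tsum h2 (Summable.of_nonneg_of_le h1 h2 hs) hs⟩

end ShA

open ShA in
theorem shr2 (hB : BR) (hC : Cp.CELL) (hR : Cp.RCA) : SHR2 := by
  intro s N A ι _ _ S θ θn γ ρ b η x l g hI hl hη hx hxb
  obtain ⟨hA, hsum, -, -, hdv⟩ := hB s ι S hI.ok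
  set lam : ι → ℝ := fun a => if S.G.g a < g then Real.exp l else 1 with hlam
  have hE : 1 ≤ Real.exp l := Real.one_le_exp hl.le
  have h1 : ∀ a, 1 ≤ lam a := fun a => by
    simp only [hlam]
    split_ifs
    · exact hE
    · exact le_rfl
  have h2 : ∀ a, lam a ≤ Real.exp l := fun a => by
    simp only [hlam]
    split_ifs
    · exact le_rfl
    · exact hE
  have h0 : ∀ a, 0 < lam a := fun a => lt_of_lt_of_le one_pos (h1 a)
  have hb : 0 < b := (mul_pos_iff_of_pos_left hη).1 (lt_of_lt_of_le (Real.exp_pos _) hxb)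
  have hd : 0 < S.G.dv univ := hdv univ fun a _ ha => absurd (mem_univ a) ha
  have hok : (Cp.nr S.G lam).Ok s := by
    refine (hR s ι S.G _ _ (Real.exp l) hI.ok.ok ⟨?_, fun a c h => ?_, fun a => ?_⟩).1
    · rw [Matrix.diagonal_mul_diagonal, ← Matrix.diagonal_one]
      congr 1
      funext a
      exact mul_inv_cancel₀ (h0 a).ne'
    · by_cases e : a = c
      · rw [e]
        exact ⟨rfl, rfl⟩
      · rw [Matrix.diagonal_apply_ne _ e, Matrix.diagonal_apply_ne _ e] at h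
        exact absurd rfl (h.elim id id)
    · rw [Finset.sum_eq_single a, Matrix.diagonal_apply_eq, abs_of_pos (h0 a)]
      · exact h2 a
      · intro c _ hc
        rw [Matrix.diagonal_apply_ne _ hc.symm, abs_zero]
      · simp
  have hOk : ∀ c, (Cp.nr S.G lam).AOk (Cp.nrT S.AT lam c) 1 → (nS S lam c).Ok s := fun c h =>
    ⟨hok, hI.ok.lv, fun a => h.pd a (mem_univ a), fun a ha d hd => by
      obtain ⟨e1, e2⟩ := hI.ok.tri a ha d hd
      exact ⟨(A_nr S.G lam a d).trans (mul_eq_zero_of_right _ e1),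
        (B_nr S.G lam a d).trans (mul_eq_zero_of_left e2 _)⟩, hI.ok.pz, hI.ok.p1⟩
  have key : ∃ c, (nS S lam c).Ok s ∧
      Real.exp (-(γ + x)) * (nS S lam c).G.dv univ ≤ (nS S lam c).ms ∧
      (1 - 2 * η) * b * (nS S lam c).ms ≤ (nS S lam c).hit A := by
    have hma := hI.ma
    have hde := hI.de
    have hpos : 0 < Real.exp (-γ) * S.G.dv univ := mul_pos (Real.exp_pos _) hd
    have ex : Real.exp (-(γ + x)) = Real.exp (-x) * Real.exp (-γ) := by
      rw [← Real.exp_add]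
      congr 1
      ring
    rcases le_or_gt η (1 / 2) with h3 | h3
    · obtain ⟨c, -, h4, h5⟩ := hC s ι S.G S.AT 1 lam (fun z => 1 * S.ind A z + -((1 - 2 * η) * b))
        (1 + |-((1 - 2 * η) * b)|) (η * b * Real.exp (-γ)) hI.ok.ok one_pos (hA 1 le_rfl) h1
        (fun z => (abs_add_le _ _).trans (add_le_add_left (by
          rw [one_mul, abs_of_nonneg (DlA.ind_01 S A z).1]
          exact (DlA.ind_01 S A z).2) _))
        (by
          rw [ex_aff hsum, mn_eq]
          have h6 : 0 < η * b := mul_pos hη hb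
          have h7 := mul_le_mul_of_nonneg_left hma h6.le
          have h8 := mul_pos h6 hpos
          nlinarith)
      have h6 := hOk c h4
      have hs' := (hB s ι _ h6).2.1
      have h7 : η * b * Real.exp (-γ) * Cp.Mn (nS S lam c).G (nS S lam c).AT <
          Cp.Ex (nS S lam c).G (nS S lam c).AT
            (fun z => 1 * (nS S lam c).ind A z + -((1 - 2 * η) * b)) := h5
      rw [ex_aff hs', mn_eq] at h7
      obtain ⟨h8, h9⟩ := hit_le hs' A
      have h10 : 0 ≤ Real.exp (-γ) * (nS S lam c).G.dv univ :=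
        mul_nonneg (Real.exp_pos _).le (dv_nonneg _ _)
      have h11 := mul_le_mul_of_nonneg_right hxb h10
      have h12 : 0 ≤ (1 - 2 * η) * b * (nS S lam c).ms :=
        mul_nonneg (mul_nonneg (by linarith) hb.le) (ms_nonneg _)
      have h13 := mul_nonneg (mul_pos hη hb).le h10
      refine ⟨c, h6, ?_, ?_⟩
      · rw [ex]
        nlinarith
      · nlinarith
    · obtain ⟨c, -, h4, h5⟩ := hC s ι S.G S.AT 1 lam (fun z => 0 * S.ind A z + 1)
        1 (Real.exp (-(γ + x))) hI.ok.ok one_pos (hA 1 le_rfl) h1 (fun z => by simp)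
        (by
          rw [ex_aff hsum, mn_eq]
          have h6 : Real.exp (-(γ + x)) < Real.exp (-γ) := Real.exp_lt_exp.2 (by linarith)
          have h7 := mul_lt_mul_of_pos_right h6 hd
          linarith)
      have h6 := hOk c h4
      have hs' := (hB s ι _ h6).2.1
      have h7 : Real.exp (-(γ + x)) * Cp.Mn (nS S lam c).G (nS S lam c).AT <
          Cp.Ex (nS S lam c).G (nS S lam c).AT (fun z => 0 * (nS S lam c).ind A z + 1) := h5
      rw [ex_aff hs', mn_eq] at h7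
      refine ⟨c, h6, by linarith, le_trans ?_ (hit_le hs' A).1⟩
      exact mul_nonpos_of_nonpos_of_nonneg (mul_nonpos_of_nonpos_of_nonneg (by linarith) hb.le)
        (ms_nonneg _)
  obtain ⟨c, hc1, hc2, hc3⟩ := key
  have hprod : ∀ V : Finset ι, ∏ a ∈ V, lam a ≤ Real.exp (Fintype.card ι * l) := by
    intro V
    calc ∏ a ∈ V, lam a ≤ ∏ _a ∈ V, Real.exp l :=
          Finset.prod_le_prod (fun a _ => (h0 a).le) fun a _ => h2 a
      _ = Real.exp l ^ V.card := by rw [prod_const]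
      _ ≤ Real.exp l ^ Fintype.card ι := pow_le_pow_right₀ hE (card_le_univ V)
      _ = _ := by rw [← Real.exp_nat_mul]
  have hth : ∀ (ϑ : ℕ → ℝ) (g' : ℕ) (V : Finset ι), V ⊆ gp S.G g' →
      tk S.G (Lat V) ≤ Real.exp (ϑ g') * S.G.dv V →
      tk (Cp.nr S.G lam) (Lat V) ≤
        Real.exp (lo ϑ g (Fintype.card ι * l) g') * (Cp.nr S.G lam).dv V := by
    intro ϑ g' V hV h
    refine (tk_nr hI.ok.ok h1 _).trans (h.trans ?_)
    rw [dv_nr S.G h1 V, ← mul_assoc]
    refine mul_le_mul_of_nonneg_right ?_ (dv_nonneg _ _)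
    unfold lo
    rw [Real.exp_add]
    refine mul_le_mul_of_nonneg_left ?_ (Real.exp_pos _).le
    split_ifs with hg
    · exact hprod V
    · rw [Real.exp_zero]
      refine le_of_eq (Finset.prod_eq_one fun a ha => ?_)
      have : S.G.g a = g' := (mem_filter.1 (hV ha)).2
      simp only [hlam, this, hg, if_false]
  refine ⟨nS S lam c, ⟨hc1, fun g' => hth θ g' _ subset_rfl (hI.ph g'),
    fun g' => hth θn g' _ sdiff_subset (hI.pn g'), hc2, ?_, hc3⟩, ⟨rfl, rfl, rfl⟩, rfl,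
    fun a d => A_nr S.G lam a d, fun a d => (B_nr S.G lam a d).trans ?_⟩
  · have h3 : tk (Cp.nr S.G lam) S.ker ≤ tk S.G S.ker := tk_nr hI.ok.ok h1 _
    refine (mul_le_mul_of_nonneg_left h3 (Nat.cast_nonneg N)).trans (hI.kr.trans ?_)
    rw [dv_nr S.G h1 (gp S.G 0), ← mul_assoc, Real.exp_add]
    exact mul_le_mul_of_nonneg_right (mul_le_mul_of_nonneg_left (hprod _) (Real.exp_pos _).le)
      (dv_nonneg _ _)
  · by_cases e : S.G.B a d = 0
    · rw [e, zero_mul, mul_zero]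
    · have := (hI.ok.ok.blk a d (Or.inr e)).1
      simp only [hlam, ← this]
      split_ifs
      · rw [Real.exp_neg, mul_comm]
      · rw [inv_one, mul_comm]

open Vale.Agent.P057T.L1 in
theorem ra2 (hR : REL) (hS : SHR2) (hP : PERT) (hD : DIL1) (hH : SHEAR) : RA := by
  intro s
  obtain ⟨c, hP⟩ := hP s
  obtain ⟨c2, hnum⟩ := ra_num c
  refine ⟨c2, ?_⟩
  intro N A ι _ _ S θ θn γ ρ b η P Λ x h g hI hz hΛ hθ hγ hx0 hx hh0 hh hn0 hn hη hη2 hxb hB
  have P2 := hz.P2
  have hD' := hz.cd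
  have hD0 : (0 : ℝ) ≤ Fintype.card ι := Nat.cast_nonneg _
  have η0 : 0 < η := (Real.exp_pos _).trans_le hη
  have b0 : 0 < b := by
    have := (Real.exp_pos _).trans_le hxb
    exact (pos_iff_pos_of_mul_pos this).1 η0
  obtain ⟨S1, j, δ, n, f, I1, sa1, hj, pv1, n1, nδ, δl, rl, lf⟩ :=
    hR s N A ι S θ θn γ ρ b (Real.exp h) g hI hB
  obtain ⟨l, Ω, l0, hlb, Ω8, lΩ, hsm0, hL⟩ := hnum P Λ h (θn g) _ η P2 hΛ hh0 hh hn0 hn hD0 hD' hη
  obtain ⟨η1, η2, η3⟩ := ra_eta η0 hη2 b0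
  have e3 := e3le
  have hx3 : Real.exp (-(x + 3)) ≤ η * b / 10 := by
    rw [neg_add, Real.exp_add]
    have := mul_le_mul hxb e3 (Real.exp_pos _).le (by positivity)
    linarith
  have ηb : 0 < η * b := by positivity
  obtain ⟨S2, I2, sa2, q2, A2, B2⟩ := hS s N A ι S1 θ θn γ ρ b (η / 5) (x + 3) l g I1 l0
    (by positivity) (by linarith) (by linarith)
  have δ0 : 0 < δ := pv1.2.1
  have n1' : (1 : ℝ) ≤ n := by exact_mod_cast n1
  have nδ0 : 0 < n * δ := by positivity
  have g1 : S1.G.g = S.G.g := sa1.1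
  have g2 : S2.G.g = S.G.g := sa2.1.trans g1
  have x2 : S2.G.ex = S.G.ex := sa2.2.2.trans sa1.2.2
  have jV := pv1.1
  have jx : j ∉ S.G.ex := (mem_sdiff.1 jV).2
  set f1 : MvPolynomial ι ℝ :=
    C (n * δ)⁻¹ * aeval (fun a => (C (Real.exp (-l)) * X a : MvPolynomial ι ℝ)) f with hf1
  have th2 : ∀ a, S.G.g a < g → C (Real.exp (-l)) * S2.G.th a = S1.G.th a := by
    intro a ha
    simp only [GT.th, q2, A2, g1, ha, if_true, Finset.mul_sum]
    refine Finset.sum_congr rfl fun d _ => ?_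
    rw [← mul_assoc, ← C_mul, ← mul_assoc, ← Real.exp_add]
    simp
  have lof : ∀ a ∈ f.vars, S.G.g a < g := fun a ha => by
    have := rl.1 a ha
    rwa [g1, hj] at this
  have ev1 : aeval S2.G.th f1 = C (n * δ)⁻¹ * aeval S1.G.th f := by
    rw [hf1, map_mul, aeval_C, algebraMap_eq, ← AlgHom.comp_apply, comp_aeval]
    congr 1
    refine Chart.aeval_congr_vars fun a ha => ?_
    rw [map_mul, aeval_C, algebraMap_eq, aeval_X]
    exact th2 a (lof a ha)
  have w2 : S2.G.w = S1.G.w := sa2.2.1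
  have hσ : Real.exp (-l) ≤ 1 := Real.exp_le_one_iff.2 (by linarith)
  have lf1 : l1 f1 ≤ Real.exp (θn g + P + 4 - l + h) := by
    have e1 : l1 f1 = |(n * δ)⁻¹| * l1 (aeval
        (fun a => (C (Real.exp (-l)) * X a : MvPolynomial ι ℝ)) f) := nrm_C_mul _ _
    have e2 := l1_scale (I1.ok.ok.w1 j) rl.2.1 (Real.exp_pos (-l)).le hσ
    have e4 : (n * δ)⁻¹ ≤ Real.exp (θn g + P + 4) := by
      rw [inv_le_comm₀ nδ0 (Real.exp_pos _), ← Real.exp_neg]
      refine le_trans (Real.exp_le_exp.2 (by linarith)) (δl.trans ?_)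
      exact le_mul_of_one_le_left δ0.le n1'
    rw [e1, abs_of_pos (inv_pos.2 nδ0)]
    refine (mul_le_mul e4 (e2.trans (mul_le_mul_of_nonneg_left lf (Real.exp_pos _).le))
      (nrm_nonneg _) (Real.exp_pos _).le).trans ?_
    rw [← Real.exp_add, ← Real.exp_add]
    exact le_of_eq (by congr 1; ring)
  have EΛ : Λ + 1 ≤ Real.exp Λ := Real.add_one_le_exp Λ
  have hsm : l1 f1 * (P * Ω) ^ c ≤ η / 5 :=
    (mul_le_mul_of_nonneg_right lf1 (pow_nonneg (mul_nonneg (by linarith) (by linarith)) c)).trans hsm0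
  obtain ⟨S3, I3, sa3, A3, B3, q3⟩ := hP N A ι S2 _ _ _ _ _ (η / 5) P Ω j f1 I2 hz (by linarith)
    (fun g' => by
      have := hθ g'
      have e : (if g' < g then (Fintype.card ι : ℝ) * l else 0) ≤ Fintype.card ι * l := by
        split_ifs
        · exact le_rfl
        · positivity
      simp only [lo]
      linarith) (by linarith) (by positivity) (by linarith)
    ((Real.exp_le_exp.2 (by linarith : -Ω ≤ -(x + 3))).trans (hx3.trans η1))
    (by rw [x2]; exact jx)
    (by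
      rw [g2, hj]
      intro a ha
      rw [g2]
      refine Chart.vars_mul' (P := fun a => S.G.g a < g) (Chart.vars_C' _)
        (Chart.vars_aeval fun i hi => Chart.vars_mul' (Chart.vars_C' _)
          (Chart.vars_X' (lof i hi))) a ha)
    (by
      show f1.IsWeightedHomogeneous S2.G.w (S2.G.w j)
      rw [w2, ← zero_add (S1.G.w j)]
      refine (isWeightedHomogeneous_C _ _).mul (Chart.hom_aeval rl.2.1 fun i => ?_)
      rw [← zero_add (S1.G.w i)]
      exact (isWeightedHomogeneous_C _ _).mul (isWeightedHomogeneous_X ℝ _ i))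
    hsm
  have Bjj : S1.G.B j j = δ := by
    have e := congrFun (congrFun I1.ok.ok.AB j) j
    rw [Matrix.mul_apply, Matrix.one_apply_eq, Finset.sum_eq_single j, pv1.2.2.1] at e
    · field_simp at e; exact e
    · intro d _ hd
      by_cases h1 : d ∈ S.G.ex
      · rw [(I1.ok.tri d (sa1.2.2 ▸ h1) j (sa1.2.2 ▸ jx)).2, mul_zero]
      · by_cases h2 : S.G.g d = g
        · rw [pv1.2.2.2 d (by simp [gp, h1, h2]) hd, zero_mul]
        · have : S1.G.A j d = 0 := by
            by_contra h3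
            have := (I1.ok.ok.blk j d (Or.inl h3)).1
            rw [g1, hj] at this
            exact h2 this.symm
          rw [this, zero_mul]
    · simp
  have jl : ¬ S.G.g j < g := by omega
  have z3 : IsZ (C (n : ℝ) * S3.G.q j) := by
    have e : C (n : ℝ) * S3.G.q j = C (n : ℝ) * S1.G.q j - aeval S1.G.th f := by
      rw [q3, ev1, B2, g1, if_neg jl, one_mul, Bjj, q2, mul_sub, ← mul_assoc, ← mul_assoc,
        ← C_mul, ← C_mul, mul_inv_cancel₀ nδ0.ne', C_1, one_mul]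
    rw [e]
    exact rl.2.2
  have g3 : S3.G.g = S.G.g := sa3.1.trans g2
  have nl : (n : ℝ) ≤ Real.exp l := by
    have e1 : Real.exp (-(θn g + P + 4)) ≤ δ := le_trans (Real.exp_le_exp.2 (by linarith)) δl
    have e2 : n * Real.exp (-(θn g + P + 4)) ≤ Real.exp h :=
      (mul_le_mul_of_nonneg_left e1 (by linarith)).trans nδ
    rw [Real.exp_neg, ← div_eq_mul_inv, div_le_iff₀ (Real.exp_pos _), ← Real.exp_add] at e2
    exact e2.trans (Real.exp_le_exp.2 hlb)
  obtain ⟨S4, I4, sa4, A4, B4, q4⟩ := hD s N A ι S3 _ _ _ _ _ (η / 5) (x + 3) l g n I3 n1 nl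
    (by positivity) (by linarith) (hx3.trans η2)
  have g4 : S4.G.g = S.G.g := sa4.1.trans g3
  have x4 : S4.G.ex = S.G.ex := sa4.2.2.trans (sa3.2.2.trans x2)
  have w4 : S4.G.w = S.G.w := sa4.2.1.trans (sa3.2.1.trans (w2.trans sa1.2.1))
  have row : ∀ d, S4.G.A j d = S1.G.A j d := fun d => by
    rw [A4, g3, if_neg jl, one_mul, A3, A2, g1, if_neg jl, one_mul]
  have j4 : S4.G.g j = g := by rw [g4, hj]
  obtain ⟨S5, I5, p5⟩ := hH s N A ι S4 _ _ _ _ _ δ h j I4 (by
      have e : gp S4.G (S4.G.g j) \ S4.G.ex = gp S.G g \ S.G.ex := by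
        rw [j4, x4, gp, gp, g4]
      rw [e]
      exact ⟨jV, δ0, (row j).trans pv1.2.2.1, fun d hd hne => (row d).trans (pv1.2.2.2 d hd hne)⟩)
    ((le_mul_of_one_le_left δ0.le n1').trans nδ) (q4 j (by rw [g3, hj]) z3)
  refine ⟨S5, I5.mono ?_ ?_ (by linarith) (by linarith) ?_, ?_⟩
  · intro g'
    simp only [lo]
    split_ifs <;> linarith
  · intro g'
    simp only [lo, at1, j4]
    split_ifs <;> linarith
  · exact η3
  · have : S4.pot = S.pot := by rw [St.pot, St.pot, w4, x4]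
    exact this ▸ p5

end

end Vale.Agent.P057T.Rg
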