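import Mathlib

/-! One dimensional theta bound and a weighted pigeonhole principle. -/

set_option linter.all false

open Finset
open scoped Real

namespace Vale.Agent.P057T.Rg.SlA

lemma th1 {β : ℝ} (hβ : 0 < β) (t : ℝ) (s : Finset ℤ) :
    ∑ y ∈ s, Real.exp (-π * (β⁻¹ * y + t) ^ 2) ≤ 1 + β := by
  classical
  set c : ℝ := π / β ^ 2 with hc
  have hc0 : 0 < c := by positivity
  set f : ℝ → ℝ := fun u => Real.exp (-c * u ^ 2) with hf
  have e : ∀ y : ℤ, Real.exp (-π * (β⁻¹ * y + t) ^ 2) = f (β * t + y) := by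
    intro y
    simp only [hf, hc]
    congr 1
    field_simp
    ring
  have hi : MeasureTheory.Integrable f := integrable_exp_neg_mul_sq hc0
  have hs := hi.hasSum_intervalIntegral (β * t)
  have hI : ∫ u, f u = β := by
    simp only [hf]
    rw [integral_gaussian, hc, div_div_eq_mul_div, mul_div_cancel_left₀ _ Real.pi_ne_zero,
      Real.sqrt_sq hβ.le]
  rw [hI] at hs
  set a := β * t
  set y0 : ℤ := round (-a) with hy0
  have hr := abs_le.1 (abs_sub_round (-a))
  rw [← hy0] at hr
  set k : ℤ → ℤ := fun y => if y0 < y then y - 1 else y with hk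
  have hcont : Continuous f := by fun_prop
  have h1 : ∀ y : ℤ, y ≠ y0 → f (a + y) ≤ ∫ u in a + (k y : ℝ)..a + (k y : ℝ) + 1, f u := by
    intro y hy
    have h2 := intervalIntegral.integral_mono_on (μ := MeasureTheory.volume)
      (f := fun _ => f (a + y)) (g := f) (a := a + (k y : ℝ)) (b := a + (k y : ℝ) + 1) (by linarith)
      (continuous_const.intervalIntegrable _ _) (hcont.intervalIntegrable _ _) (fun u hu => by
        refine Real.exp_le_exp.2 (mul_le_mul_of_nonpos_left (sq_le_sq.2 ?_) (by linarith))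
        obtain ⟨u1, u2⟩ := hu
        simp only [hk] at u1 u2
        split_ifs at u1 u2 with h
        · have : (y0 : ℝ) + 1 ≤ y := by exact_mod_cast h
          push_cast at u1 u2
          exact abs_le_abs (by linarith) (by linarith)
        · have : y + 1 ≤ y0 := by omega
          have : (y : ℝ) + 1 ≤ y0 := by exact_mod_cast this
          rw [← abs_neg (a + y)]
          exact abs_le_abs (by linarith) (by linarith))
    simpa using h2
  have h2 : ∀ y ∈ s.erase y0, ∀ y' ∈ s.erase y0, k y = k y' → y = y' := by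
    intro y hy y' hy' h
    have := ne_of_mem_erase hy
    have := ne_of_mem_erase hy'
    simp only [hk] at h
    split_ifs at h <;> omega
  have h3 : ∑ y ∈ s.erase y0, f (a + y) ≤ β := by
    refine (sum_le_sum fun y hy => h1 y (ne_of_mem_erase hy)).trans ?_
    rw [← sum_image (f := fun n : ℤ => ∫ u in a + (n : ℝ)..a + (n : ℝ) + 1, f u) h2]
    exact sum_le_hasSum _ (fun n _ => intervalIntegral.integral_nonneg (by linarith)
      fun u _ => (Real.exp_pos _).le) hs
  have h4 : f (a + y0) ≤ 1 := Real.exp_le_one_iff.2 (by nlinarith [sq_nonneg (a + y0)])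
  simp only [e]
  calc ∑ y ∈ s, f (a + y) ≤ ∑ y ∈ insert y0 (s.erase y0), f (a + y) :=
        sum_le_sum_of_subset_of_nonneg (subset_insert_iff.2 subset_rfl)
          fun _ _ _ => (Real.exp_pos _).le
    _ = f (a + y0) + ∑ y ∈ s.erase y0, f (a + y) := sum_insert (notMem_erase _ _)
    _ ≤ _ := add_le_add h4 h3

/-- weighted pigeonhole -/
lemma pig {α : Type} [Nonempty α] (p F M : α → ℝ) {b η u K m h : ℝ} (hp : ∀ r, 0 < p r)
    (hK : ∀ s : Finset α, ∑ r ∈ s, p r ≤ K) (h0 : ∀ r, 0 ≤ F r) (h1 : ∀ r, F r ≤ M r) (hb : 0 < b)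
    (hη : 0 < η) (hu : u ≤ η * b) (hu1 : u ≤ 1) (hm : 0 < m) (hM : HasSum (fun r => p r * M r) m)
    (hF : HasSum (fun r => p r * F r) h) (hh : b * m ≤ h) :
    ∃ r, (1 - 2 * η) * b * M r ≤ F r ∧ u * m ≤ K * M r := by
  by_contra hc
  push Not at hc
  have hs : Summable p := summable_of_sum_le (fun r => (hp r).le) hK
  have hK' : ∑' r, p r ≤ K := hs.tsum_le_of_sum_le hK
  have hK0 : 0 < K := by
    obtain ⟨r⟩ := ‹Nonempty α›
    have := hK {r}
    rw [sum_singleton] at this
    exact (hp r).trans_le this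
  rcases le_or_gt η (1 / 2) with h2 | h2
  · have h3 : ∀ r, K * (p r * F r) ≤ K * ((1 - 2 * η) * b) * (p r * M r) + η * b * m * p r := by
      intro r
      have h4 : 0 ≤ (1 - 2 * η) * b * M r :=
        mul_nonneg (mul_nonneg (by linarith) hb.le) ((h0 r).trans (h1 r))
      have h5 : 0 ≤ η * b * m := by positivity
      have : K * F r ≤ K * ((1 - 2 * η) * b * M r) + η * b * m := by
        by_cases h6 : (1 - 2 * η) * b * M r ≤ F r
        · have h7 := hc r h6
          have h8 := mul_le_mul_of_nonneg_left (h1 r) hK0.le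
          have h9 := mul_le_mul_of_nonneg_right hu hm.le
          have := mul_nonneg hK0.le h4
          linarith
        · have := mul_le_mul_of_nonneg_left (not_le.1 h6).le hK0.le
          linarith
      have := mul_le_mul_of_nonneg_left this (hp r).le
      linarith
    have h4 := hasSum_le h3 (hF.mul_left K)
      ((hM.mul_left (K * ((1 - 2 * η) * b))).add (hs.hasSum.mul_left (η * b * m)))
    have h5 := mul_le_mul_of_nonneg_left hh hK0.le
    have h6 : 0 < η * b * m := by positivity
    have h7 := mul_le_mul_of_nonneg_left hK' h6.le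
    have h8 := mul_pos h6 hK0
    linarith
  · have h3 : ∀ r, K * (p r * M r) < m * p r := by
      intro r
      have h4 : (1 - 2 * η) * b * M r ≤ F r := le_trans
        (mul_nonpos_of_nonpos_of_nonneg (mul_nonpos_of_nonpos_of_nonneg (by linarith) hb.le)
          ((h0 r).trans (h1 r))) (h0 r)
      have := mul_le_mul_of_nonneg_right hu1 hm.le
      have h5 : K * M r < m := by linarith [hc r h4]
      have := mul_lt_mul_of_pos_left h5 (hp r)
      linarith
    obtain ⟨r⟩ := ‹Nonempty α›
    have h4 := hasSum_lt (fun r => (h3 r).le) (h3 r) (hM.mul_left K) (hs.hasSum.mul_left m)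
    have := mul_le_mul_of_nonneg_left hK' hm.le
    linarith

end Vale.Agent.P057T.Rg.SlA
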