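import Vale.Agent.P057T.Rg.Fix
import Vale.Agent.P057T.Rg.Dil
import Vale.Agent.P057T.Rg.Sli0

/-! Slicing along an exact pivot of weight one. -/

set_option linter.all false

open MvPolynomial Finset
open scoped Real

namespace Vale.Agent.P057T.Rg

open Vale.Agent.P057T.Eq Vale.Agent.P057T.Eq.Derok

noncomputable section

namespace SlA

open DlA

variable {ι : Type} [Fintype ι] [DecidableEq ι] {s : ℕ} (j : ι)

def Kl : MvPolynomial ι ℝ →ₐ[ℝ] MvPolynomial {a // a ≠ j} ℝ :=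
  aeval fun c => if h : c = j then 0 else X ⟨c, h⟩

def ext (z : {a // a ≠ j} → ℤ) : ι → ℤ := fun c => if h : c = j then 0 else z ⟨c, h⟩

def sh (y : ℤ) : MvPolynomial ι ℝ →ₐ[ℝ] MvPolynomial ι ℝ := Sh (fun _ => 1) (Pi.single j y)

def ex (y : ℤ) (z : {a // a ≠ j} → ℤ) : ι → ℤ := pz (fun _ => 1) (Pi.single j y) (ext j z)

def sG (G : GT ι) : GT {a // a ≠ j} where
  g a := G.g a
  w a := G.w a
  A := G.A.submatrix Subtype.val Subtype.val
  B := G.B.submatrix Subtype.val Subtype.val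
  q a := Kl j (G.q a)
  ex := univ.filter fun a => a.1 ∈ G.ex

def sS (S : St ι) (y : ℤ) : St {a // a ≠ j} where
  G := sG j S.G
  p a := Kl j (sh j y (S.ch a)) - (sG j S.G).th a
  pi := Kl j (sh j y S.pi)

lemma Kl_j : Kl j (X j) = 0 := by simp [Kl]

lemma Kl_X (a : {a // a ≠ j}) : Kl j (X a.1) = X a := by simp [Kl, a.2]

lemma ext_j (z : {a // a ≠ j} → ℤ) : ext j z j = 0 := by simp [ext]

lemma ext_v (z : {a // a ≠ j} → ℤ) (a : {a // a ≠ j}) : ext j z a.1 = z a := by simp [ext, a.2]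

lemma ex_j (y : ℤ) (z : {a // a ≠ j} → ℤ) : ex j y z j = y := by simp [ex, pz, ext]

lemma ex_v (y : ℤ) (z : {a // a ≠ j} → ℤ) (a : {a // a ≠ j}) : ex j y z a.1 = z a := by
  simp [ex, pz, ext, a.2]

lemma eval_Kl (z : {a // a ≠ j} → ℤ) (F : MvPolynomial ι ℝ) :
    eval (cz z) (Kl j F) = eval (cz (ext j z)) F := by
  induction F using MvPolynomial.induction_on with
  | C a => simp [Kl]
  | add p q hp hq => rw [map_add, map_add, map_add, hp, hq]
  | mul_X p b hp =>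
    rw [map_mul, map_mul, map_mul, hp]
    congr 1
    by_cases h : b = j
    · simp [cz, Kl, ext, h]
    · simp [cz, Kl, ext, h]

lemma eval_sl (y : ℤ) (z : {a // a ≠ j} → ℤ) (F : MvPolynomial ι ℝ) :
    eval (cz z) (Kl j (sh j y F)) = eval (cz (ex j y z)) F := by
  rw [eval_Kl]
  exact eval_Sh _ _ _ _

lemma Kl_hom {w : ι → ℕ} {F : MvPolynomial ι ℝ} {e : ℕ} (h : IsWeightedHomogeneous w F e) :
    IsWeightedHomogeneous (fun a : {a // a ≠ j} => w a) (Kl j F) e :=
  Chart.hom_aeval h fun i => by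
    split_ifs with hi
    · exact isWeightedHomogeneous_zero _ _ _
    · exact isWeightedHomogeneous_X ℝ (fun a : {a // a ≠ j} => w a) ⟨i, hi⟩

lemma Kl_dz {w : ι → ℕ} {F : MvPolynomial ι ℝ} {k : ℤ} (h : DZ w k F) :
    DZ (fun a : {a // a ≠ j} => w a) k (Kl j F) := by
  rw [F.as_sum, map_sum]
  exact dz_sum _ _ fun m hm =>
    (dz_hom (Kl_hom j (isWeightedHomogeneous_monomial w m _ rfl))).mono (h m hm)

lemma D_one (F : MvPolynomial ι ℝ) : D (fun _ => 1) F = F := by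
  have : D (fun _ : ι => 1) = AlgHom.id ℝ _ := by
    ext a
    simp [D]
  rw [this]
  rfl

lemma dz3 {w : ι → ℕ} (hw : ∀ a, 1 ≤ w a) (y : ℤ) {k : ℤ} {F : MvPolynomial ι ℝ} (hF : DZ w k F) :
    DZ w k (sh j y F) ∧ DZ w (k - 1) (sh j y F - F) := by
  have := dz2 hw (fun _ => 1) (Pi.single j y) hF
  rwa [D_one] at this

def eqv : ℤ × ({a // a ≠ j} → ℤ) ≃ (ι → ℤ) where
  toFun p := ex j p.1 p.2
  invFun x := (x j, fun a => x a)
  left_inv p := Prod.ext (ex_j j _ _) (funext fun a => ex_v j _ _ a)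
  right_inv x := by
    funext a
    by_cases h : a = j
    · subst h
      exact ex_j _ _ _
    · exact ex_v j _ _ ⟨a, h⟩

lemma hs_ex {f : (ι → ℤ) → ℝ} (hf : Summable f) :
    HasSum (fun y : ℤ => ∑' z, f (ex j y z)) (∑' z, f z) := by
  have h := (eqv j).summable_iff.2 hf
  have h1 := h.prod.hasSum
  rw [← h.tsum_prod] at h1
  exact ((eqv j).tsum_eq f) ▸ h1

lemma ext_inj : Function.Injective (ext j) := fun z z' h => funext fun a => by
  rw [← ext_v j z a, h, ext_v]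

lemma dv_sub (G : GT ι) (V : Finset ι) (V' : Finset {a // a ≠ j}) (h : ∀ a, a ∈ V' ↔ a.1 ∈ V)
    (hj : j ∉ V) : (sG j G).dv V' = G.dv V := by
  let e : V' ≃ V :=
    { toFun := fun a => ⟨a.1.1, (h _).1 a.2⟩
      invFun := fun a => ⟨⟨a.1, fun k => hj (k ▸ a.2)⟩, (h _).2 a.2⟩
      left_inv := fun _ => rfl
      right_inv := fun _ => rfl }
  unfold GT.dv
  rw [← Matrix.det_submatrix_equiv_self e]
  rfl

lemma ext_lat {V : Finset ι} {V' : Finset {a // a ≠ j}} (h : ∀ a ∈ V', a.1 ∈ V)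
    {z : {a // a ≠ j} → ℤ} (hz : z ∈ Lat V') : ext j z ∈ Lat V := by
  intro a ha
  by_cases k : a = j
  · subst k
    exact ext_j _ _
  · exact (ext_v j z ⟨a, k⟩).trans (hz _ fun c => ha (h _ c))

section

variable {j} {G : GT ι} (hG : G.Ok s) (hA : ∀ c, c ≠ j → G.A j c = 0)
  (hB : ∀ c, c ≠ j → G.B j c = 0) (hq : G.q j = 0)

include hq in
lemma th_sG (a : {a // a ≠ j}) : (sG j G).th a = Kl j (G.th a) := by
  unfold GT.th
  rw [map_sum, Fintype.sum_eq_add_sum_subtype_ne _ j, hq, sub_zero, map_mul, Kl_j, mul_zero,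
    zero_add]
  refine Finset.sum_congr rfl fun b _ => ?_
  rw [map_mul, map_sub, Kl_X, algHom_C]
  rfl

include hG hB in
lemma ok_sG : (sG j G).Ok s where
  w1 a := hG.w1 a
  ws a := hG.ws a
  gs a := hG.gs a
  AB := by
    ext a d
    have := congrFun (congrFun hG.AB a.1) d.1
    rw [Matrix.mul_apply, Fintype.sum_eq_add_sum_subtype_ne _ j, hB _ d.2, mul_zero, zero_add,
      Matrix.one_apply] at this
    rw [Matrix.mul_apply, Matrix.one_apply]
    simp only [Subtype.ext_iff]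
    exact this
  blk a b h := hG.blk a b h
  qh a := Kl_hom j (hG.qh a)
  ql a := Chart.vars_aeval fun i hi => by
    split_ifs with h
    · simp
    · exact Chart.vars_X' (hG.ql a i hi)
  qe a ha := by
    show Kl j (G.q a) = 0
    rw [hG.qe a (mem_filter.1 ha).2, map_zero]

include hG hA in
lemma tk_sG {Q : Set (ι → ℤ)} {Q' : Set ({a // a ≠ j} → ℤ)} (h : ∀ z ∈ Q', ext j z ∈ Q) :
    tk (sG j G) Q' ≤ tk G Q := by
  have hdet : G.A.det ≠ 0 := by
    have := congrArg Matrix.det hG.AB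
    rw [Matrix.det_mul, Matrix.det_one] at this
    exact left_ne_zero_of_mul_eq_one this
  have hs : Summable fun z : ι → ℤ => Poi.gq G.A (cz z) :=
    (Poi.summable_gq hdet 0).congr fun z => by rw [zero_add]; rfl
  have hs1 : Summable fun z => Q.indicator (fun z => Poi.gq G.A (cz z)) z := hs.indicator Q
  have hnn : ∀ z, 0 ≤ Q.indicator (fun z => Poi.gq G.A (cz z)) z :=
    Set.indicator_nonneg fun z _ => (Poi.gq_pos _ _).le
  have e : ∀ z, Poi.gq (sG j G).A (cz z) = Poi.gq G.A (cz (ext j z)) := by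
    intro z
    have e1 : ∀ a, G.A.mulVec (cz (ext j z)) a = ∑ c : {a // a ≠ j}, G.A a c * (z c : ℝ) := by
      intro a
      show ∑ c, G.A a c * (ext j z c : ℝ) = _
      rw [Fintype.sum_eq_add_sum_subtype_ne _ j, ext_j, Int.cast_zero, mul_zero, zero_add]
      simp only [ext_v]
    unfold Poi.gq P267.H775.qf
    rw [Fintype.sum_eq_add_sum_subtype_ne (fun i => G.A.mulVec (cz (ext j z)) i ^ 2) j]
    simp only [e1]
    have e2 : ∑ c : {a // a ≠ j}, G.A j c * (z c : ℝ) = 0 :=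
      Finset.sum_eq_zero fun c _ => by rw [hA _ c.2, zero_mul]
    rw [e2, zero_pow two_ne_zero, zero_add]
    rfl
  have hle : ∀ z, Q'.indicator (fun z => Poi.gq (sG j G).A (cz z)) z ≤
      Q.indicator (fun z => Poi.gq G.A (cz z)) (ext j z) := by
    intro z
    by_cases hz : z ∈ Q'
    · rw [Set.indicator_of_mem hz, Set.indicator_of_mem (h z hz), e]
    · rw [Set.indicator_of_notMem hz]
      exact hnn _
  have hs2 := hs1.comp_injective (ext_inj j)
  refine le_trans (Summable.tsum_le_tsum hle (Summable.of_nonneg_of_le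
    (Set.indicator_nonneg fun z _ => (Poi.gq_pos _ _).le) hle hs2) hs2) ?_
  exact tsum_comp_le_tsum_of_inj hs1 hnn (ext_inj j)

end

lemma ch_sS (S : St ι) (y : ℤ) (a : {a // a ≠ j}) : (sS j S y).ch a = Kl j (sh j y (S.ch a)) :=
  add_sub_cancel _ _

lemma ind_sS (S : St ι) (A : Finset ℤ) (y : ℤ) (z : {a // a ≠ j} → ℤ) :
    (sS j S y).ind A z = S.ind A (ex j y z) := by
  unfold St.ind
  have : eval (cz z) (sS j S y).pi = eval (cz (ex j y z)) S.pi := eval_sl _ _ _ _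
  rw [this]

lemma wt_sS (S : St ι) (y : ℤ) (z : {a // a ≠ j} → ℤ) : S.wt (ex j y z) =
    Real.exp (-π * eval (cz (ex j y z)) (S.ch j) ^ 2) * (sS j S y).wt z := by
  unfold St.wt St.sq
  rw [← Real.exp_add, ← mul_add, Fintype.sum_eq_add_sum_subtype_ne _ j]
  simp only [ch_sS, eval_sl]

variable {j}

lemma ok_sS {S : St ι} (hS : S.Ok s) (hB : ∀ c, c ≠ j → S.G.B j c = 0) (hq : S.G.q j = 0) (y : ℤ) :
    (sS j S y).Ok s where
  ok := ok_sG hS.ok hB
  lv a := hS.lv a
  pd a := by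
    refine (dl_iff _ _ _).2 ?_
    have h4 := (dz3 j hS.ok.w1 y (dz_hom (th_hm hS.ok a))).2
    have h5 := (dz3 j hS.ok.w1 y ((dl_iff S.G _ _).1 (hS.pd a))).1
    have e : (sS j S y).p a = Kl j ((sh j y (S.G.th a) - S.G.th a) + sh j y (S.p a)) := by
      show Kl j (sh j y (S.G.th a + S.p a)) - (sG j S.G).th a = _
      rw [th_sG hq]
      simp only [map_add, map_sub]
      ring
    rw [e]
    exact Kl_dz j (h4.add h5)
  tri a ha b hb := hS.tri a (mem_filter.1 ha).2 b fun c => hb (mem_filter.2 ⟨mem_univ _, c⟩)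
  pz := L1.IsInt.aeval (L1.IsInt.aeval hS.pz fun b =>
    (L1.isInt_C _).add ((L1.isInt_C ((1 : ℕ) : ℤ)).mul (L1.isInt_X b))) fun c => by
      split_ifs
      · exact L1.isInt_zero
      · exact L1.isInt_X _
  p1 := (dl_iff _ _ _).2 (Kl_dz j (dz3 j hS.ok.w1 y ((dl_iff S.G _ _).1 hS.p1)).1)

lemma ker_sS {S : St ι} (hS : S.Ok s) (y : ℤ) : ∀ z ∈ (sS j S y).ker, ext j z ∈ S.ker := by
  intro z hz
  refine ⟨ext_lat j (fun a ha => mem_filter.2 ⟨mem_univ _, (mem_filter.1 ha).2⟩) hz.1, ?_⟩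
  have h1 : eval (cz z) (Kl j (sh j y S.pi)) = eval 0 (Kl j (sh j y S.pi)) := hz.2
  have h2 := ev_const hS.ok.w1 (dz3 j hS.ok.w1 y ((dl_iff S.G _ _).1 hS.p1)).2 (cz (ext j z)) 0
  have e0 : (0 : {a // a ≠ j} → ℝ) = cz (0 : {a // a ≠ j} → ℤ) := by
    funext a
    simp [cz]
  have e1 : cz (ext j 0) = (0 : ι → ℝ) := by
    funext a
    simp [cz, ext]
  rw [e0, eval_Kl, eval_Kl, e1] at h1
  rwa [map_sub, map_sub, h1, sub_right_inj] at h2

lemma pot_sS {S : St ι} (hS : S.Ok s) (y : ℤ) : (sS j S y).pot < S.pot := by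
  unfold St.pot
  have h1 : ((sS j S y).G.exᶜ).card ≤ (S.G.exᶜ).card :=
    card_le_card_of_injOn Subtype.val (fun a ha => by
      have := mem_compl.1 (mem_coe.1 ha)
      exact mem_coe.2 (mem_compl.2 fun c => this (mem_filter.2 ⟨mem_univ _, c⟩)))
      Subtype.val_injective.injOn
  have h2 := Fintype.sum_eq_add_sum_subtype_ne S.G.w j
  have h3 := hS.ok.w1 j
  have h4 : ∑ a, (sS j S y).G.w a = ∑ a : {a // a ≠ j}, S.G.w a := rfl
  omega

end SlA

open SlA DlA in
theorem sli (hB : BR) (hV : DVP) : SLI1 := by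
  intro s N A ι _ _ S θ θn γ ρ b β o l η x j hI hg hp ho hl hη hx hxb
  obtain ⟨-, hsum, -, -, hdv⟩ := hB s ι S hI.ok
  obtain ⟨hj, hβ, hjj, hpv⟩ := hp
  have hje : j ∈ S.G.ex := (mem_inter.1 hj).2
  have hq := hI.ok.ok.qe j hje
  have hA : ∀ c, c ≠ j → S.G.A j c = 0 := by
    intro c hc
    by_cases h1 : c ∈ S.G.ex
    · by_contra h2
      exact h2 (hpv c (mem_inter.2 ⟨mem_filter.2 ⟨mem_univ _,
        (hI.ok.ok.blk j c (Or.inl h2)).1 ▸ hg⟩, h1⟩) hc)
    · exact (hI.ok.tri j hje c h1).1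
  have hrow : ∀ c, β⁻¹ * S.G.B j c = if j = c then 1 else 0 := by
    intro c
    have := congrFun (congrFun hI.ok.ok.AB j) c
    rwa [Matrix.mul_apply, Finset.sum_eq_single j (fun d _ hd => by rw [hA d hd, zero_mul])
      (fun h => absurd (mem_univ _) h), hjj, Matrix.one_apply] at this
  have hB0 : ∀ c, c ≠ j → S.G.B j c = 0 := fun c hc =>
    (mul_eq_zero.1 ((hrow c).trans (if_neg hc.symm))).resolve_left (inv_ne_zero hβ.ne')
  have hBj : |S.G.B j j| = β := by
    have := (hrow j).trans (if_pos rfl)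
    rw [inv_mul_eq_one₀ hβ.ne'] at this
    rw [← this, abs_of_pos hβ]
  have hd : ∀ (V : Finset ι) (V' : Finset {a // a ≠ j}), (∀ a, a ∈ V' ↔ a.1 ∈ V) → j ∈ V →
      S.G.dv V = β * (sG j S.G).dv V' := by
    intro V V' h h'
    rw [hV ι S.G V j h' (Or.inl fun c _ hc => hB0 c hc), hBj,
      dv_sub j S.G (V.erase j) V' (fun a => by rw [h, mem_erase, and_iff_right a.2])
        (notMem_erase _ _)]
  have hgp : ∀ g (a : {a // a ≠ j}), a ∈ gp (sG j S.G) g ↔ a.1 ∈ gp S.G g := fun g a => by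
    simp only [gp, mem_filter, mem_univ, true_and]
    rfl
  have hd0 := hd _ _ (hgp 0) (mem_inter.1 hj).1
  have hch : ∀ y z, eval (cz (ex j y z)) (S.ch j) = β⁻¹ * y + eval 0 (S.p j) := by
    intro y z
    have h1 : DZ S.G.w 0 (S.p j) := by
      have := (dl_iff S.G _ _).1 (hI.ok.pd j)
      rw [← hI.ok.lv j, hg] at this
      exact this
    unfold St.ch GT.th
    rw [map_add, ev_const hI.ok.ok.w1 h1 _ 0, Finset.sum_eq_single j
      (fun d _ hd => by rw [hA d hd, C_0, zero_mul]) (fun h => absurd (mem_univ _) h), hq, hjj,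
      sub_zero, map_mul, eval_C, eval_X]
    show β⁻¹ * (ex j y z j : ℝ) + _ = _
    rw [ex_j]
  have hok := ok_sS hI.ok hB0 hq
  have hb : 0 < b := (mul_pos_iff_of_pos_left hη).1 (lt_of_lt_of_le (Real.exp_pos _) hxb)
  have hi : ∀ (κ : Type) [Fintype κ] [DecidableEq κ] (T : St κ), Summable T.wt →
      Summable fun z => T.wt z * T.ind A z := fun κ _ _ T h =>
    Summable.of_nonneg_of_le (fun z => mul_nonneg (Real.exp_pos _).le (ind_01 T A z).1)
      (fun z => mul_le_of_le_one_right (Real.exp_pos _).le (ind_01 T A z).2) h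
  have hpos : 0 < S.ms := lt_of_lt_of_le
    (mul_pos (Real.exp_pos _) (hdv univ fun a _ ha => absurd (mem_univ a) ha)) hI.ma
  have e1 := hs_ex j hsum
  have e2 := hs_ex j (hi ι S hsum)
  simp only [wt_sS, hch, ← ind_sS, mul_assoc, tsum_mul_left] at e1 e2
  obtain ⟨y, hr1, hr2⟩ := SlA.pig (fun y : ℤ => Real.exp (-π * (β⁻¹ * y + eval 0 (S.p j)) ^ 2))
    (fun y => (sS j S y).hit A) (fun y => (sS j S y).ms) (fun _ => Real.exp_pos _) (th1 hβ _)
    (fun y => tsum_nonneg fun z => mul_nonneg (Real.exp_pos _).le (ind_01 _ A z).1)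
    (fun y => Summable.tsum_le_tsum
      (fun z => mul_le_of_le_one_right (Real.exp_pos _).le (ind_01 _ A _).2)
      (hi _ _ (hB s _ _ (hok y)).2.1) (hB s _ _ (hok y)).2.1)
    hb hη hxb (Real.exp_le_one_iff.2 (by linarith)) hpos e1 e2 hI.de
  refine ⟨sS j S y, ⟨hok y, fun g => ?_, fun g => ?_, ?_, ?_, hr1⟩, pot_sS hI.ok y⟩
  · refine (tk_sG hI.ok.ok hA fun z hz => ext_lat j (fun a => (hgp g a).1) hz).trans
      ((hI.ph g).trans ?_)
    unfold at1
    split_ifs with h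
    · subst h
      rw [hd0, Real.exp_add, mul_assoc]
      exact mul_le_mul_of_nonneg_left (mul_le_mul_of_nonneg_right ho (dv_nonneg _ _))
        (Real.exp_pos _).le
    · rw [add_zero, ← dv_sub j S.G _ _ (hgp g) fun c => h ((mem_filter.1 c).2.symm.trans hg)]
      exact le_rfl
  · have h : ∀ a : {a // a ≠ j}, a ∈ gp (sG j S.G) g \ (sG j S.G).ex ↔ a.1 ∈ gp S.G g \ S.G.ex := by
      intro a
      rw [mem_sdiff, mem_sdiff, hgp]
      simp [sG]
    refine (tk_sG hI.ok.ok hA fun z hz => ext_lat j (fun a => (h a).1) hz).trans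
      ((hI.pn g).trans ?_)
    rw [← dv_sub j S.G _ _ h fun c => (mem_sdiff.1 c).2 hje]
    exact le_rfl
  · have h3 := mul_le_mul_of_nonneg_left hI.ma (Real.exp_pos (-x)).le
    rw [hd univ univ (fun a => by simp) (mem_univ _)] at h3
    have h4 : Real.exp (-l) * (1 + β) ≤ β := by
      rw [Real.exp_neg, inv_mul_le_iff₀ (Real.exp_pos l)]
      have := mul_le_mul_of_nonneg_right hl hβ.le
      rwa [add_mul, inv_mul_cancel₀ hβ.ne', one_mul, add_comm] at this
    refine le_of_mul_le_mul_left (le_trans ?_ (h3.trans hr2)) (by linarith : 0 < 1 + β)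
    have h5 := mul_le_mul_of_nonneg_left h4 (mul_nonneg (mul_pos (Real.exp_pos (-x))
      (Real.exp_pos (-γ))).le (dv_nonneg (sG j S.G) univ))
    rw [neg_add, neg_add, Real.exp_add, Real.exp_add]
    show _ * (_ * (sG j S.G).dv univ) ≤ _
    linarith
  · have h3 : tk (sG j S.G) (sS j S y).ker ≤ tk S.G S.ker := tk_sG hI.ok.ok hA (ker_sS hI.ok y)
    refine (mul_le_mul_of_nonneg_left h3 (Nat.cast_nonneg N)).trans (hI.kr.trans ?_)
    rw [hd0, Real.exp_add, mul_assoc]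
    exact mul_le_mul_of_nonneg_left (mul_le_mul_of_nonneg_right ho (dv_nonneg _ _))
      (Real.exp_pos _).le

end

end Vale.Agent.P057T.Rg
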