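import Vale.Agent.P057T.Rg.Defs

/-! Row `DVP`: removing a pivot from a determinant. -/

open MvPolynomial Finset Matrix
open scoped Real

namespace Vale.Agent.P057T.Rg.H29

open Vale.Agent.P057T.Eq

set_option linter.all false

noncomputable section

variable {ι : Type} [Fintype ι] [DecidableEq ι]

def eqE (V : Finset ι) (j : ι) : {i : V // ¬ (i.1 = j)} ≃ (V.erase j) where
  toFun i := ⟨i.1.1, mem_erase.2 ⟨i.2, i.1.2⟩⟩
  invFun i := ⟨⟨i.1, (mem_erase.1 i.2).2⟩, (mem_erase.1 i.2).1⟩
  left_inv _ := rfl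
  right_inv _ := rfl

theorem det_piv (M : Matrix ι ι ℝ) (V : Finset ι) (j : ι) (hj : j ∈ V)
    (h : ∀ c ∈ V, c ≠ j → M c j = 0) :
    (M.submatrix (Subtype.val : V → ι) (Subtype.val : V → ι)).det =
      M j j * (M.submatrix (Subtype.val : (V.erase j) → ι) (Subtype.val : (V.erase j) → ι)).det := by
  have h1 := Matrix.twoBlockTriangular_det (M.submatrix (Subtype.val : V → ι) (Subtype.val : V → ι))
    (fun i : V => i.1 = j) (fun i hi k hk => by
      show M i.1 k.1 = 0
      rw [hk]; exact h i.1 i.2 hi)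
  rw [h1]
  congr 1
  · haveI : Unique {i : V // i.1 = j} :=
      ⟨⟨⟨⟨j, hj⟩, rfl⟩⟩, fun i => Subtype.ext (Subtype.ext i.2)⟩
    rw [Matrix.det_unique]
    have h2 := (default : {i : V // i.1 = j}).2
    show M _ _ = _
    rw [h2]
  · rw [← Matrix.det_submatrix_equiv_self (eqE V j)]
    rfl

theorem dvp : DVP := by
  intro ι _ _ G V j hj h
  unfold GT.dv
  rw [← abs_mul]
  congr 1
  rcases h with h | h
  · have h1 := det_piv G.Bᵀ V j hj h
    rw [← Matrix.det_transpose, ← Matrix.det_transpose (G.B.submatrix _ (Subtype.val : (V.erase j) → ι))]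
    exact h1
  · exact det_piv G.B V j hj h

end

end Vale.Agent.P057T.Rg.H29
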