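import Vale.Agent.P057T.Rg.Defs

/-! Row UNI: unimodular completion of an integer vector. -/

set_option linter.all false

open Finset Matrix

namespace Vale.Agent.P057T.Rg

open Vale.Agent.P057T.Eq

namespace UniA

variable {ι : Type} [Fintype ι] [DecidableEq ι]

def Pv (V : Finset ι) (M : Matrix ι ι ℤ) : Prop :=
  (∀ a b, M a b ≠ 0 → a = b ∨ (a ∈ V ∧ b ∈ V)) ∧ ∀ a, a ∉ V → M a a = 1

theorem Pv.mul {V : Finset ι} {M N : Matrix ι ι ℤ} (h : Pv V M) (h' : Pv V N) : Pv V (M * N) := by
  refine ⟨fun a b hab => ?_, fun a ha => ?_⟩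
  · rw [Matrix.mul_apply] at hab
    obtain ⟨c, -, hc⟩ := exists_ne_zero_of_sum_ne_zero hab
    rcases h.1 a c (left_ne_zero_of_mul hc) with rfl | h1
    · exact h'.1 _ b (right_ne_zero_of_mul hc)
    · rcases h'.1 c b (right_ne_zero_of_mul hc) with rfl | h2
      · exact Or.inr h1
      · exact Or.inr ⟨h1.1, h2.2⟩
  · rw [Matrix.mul_apply, sum_eq_single a, h.2 a ha, h'.2 a ha, mul_one]
    · intro c _ hc
      by_cases h0 : M a c = 0
      · rw [h0, zero_mul]
      · rcases h.1 a c h0 with rfl | h1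
        · exact absurd rfl hc
        · exact absurd h1.1 ha
    · simp

theorem pv_tr {V : Finset ι} {i j : ι} (hi : i ∈ V) (hj : j ∈ V) (c : ℤ) :
    Pv V (transvection j i c) := by
  refine ⟨fun a b hab => ?_, fun a ha => ?_⟩
  · by_cases h : a = b
    · exact Or.inl h
    · refine Or.inr ?_
      by_contra hn
      apply hab
      have : ¬ (j = a ∧ i = b) := by rintro ⟨rfl, rfl⟩; exact hn ⟨hj, hi⟩
      simp [transvection, Matrix.one_apply_ne h, Matrix.single_apply, this]
  · have : ¬ (j = a ∧ i = a) := by rintro ⟨rfl, -⟩; exact ha hj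
    simp [transvection, Matrix.single_apply, this]

theorem main (V : Finset ι) : ∀ (m : ℕ) (k : ι → ℤ), ∑ c, (k c).natAbs = m → k ≠ 0 → k ∈ Lat V →
    ∃ (n : ℕ) (j : ι) (U U' : Matrix ι ι ℤ), 1 ≤ n ∧ j ∈ V ∧ U * U' = 1 ∧ Pv V U ∧ Pv V U' ∧
      ∀ c, k c = n * U' j c := by
  intro m
  induction m using Nat.strong_induction_on with
  | _ m ih =>
  intro k hm h0 hk
  have hV : ∀ a, k a ≠ 0 → a ∈ V := fun a ha => by
    by_contra hn; exact ha (hk a hn)
  have step : ∀ i j, i ≠ j → k j ≠ 0 → (k j).natAbs ≤ (k i).natAbs →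
      ∃ (n : ℕ) (j : ι) (U U' : Matrix ι ι ℤ), 1 ≤ n ∧ j ∈ V ∧ U * U' = 1 ∧ Pv V U ∧ Pv V U' ∧
        ∀ c, k c = n * U' j c := by
    intro i j hij hj hle
    have hi : k i ≠ 0 := by
      intro h; rw [h] at hle; simp at hle; exact hj hle
    obtain ⟨ε, hε⟩ : ∃ ε : ℤ, (k i - ε * k j).natAbs < (k i).natAbs := by
      by_cases h : (0 < k i ↔ 0 < k j)
      · exact ⟨1, by omega⟩
      · exact ⟨-1, by omega⟩
    have hlt : ∑ c, (Function.update k i (k i - ε * k j) c).natAbs < m := by
      rw [← hm]
      refine sum_lt_sum (fun c _ => ?_) ⟨i, mem_univ _, by simpa using hε⟩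
      by_cases hc : c = i
      · subst hc; simpa using hε.le
      · simp [Function.update_of_ne hc]
    obtain ⟨n, j0, U, U', h1, h2, h3, h4, h5, h6⟩ := ih _ hlt _ rfl
      (fun h => hj (by simpa [Function.update_of_ne hij.symm] using congrFun h j))
      (fun a ha => by
        have : a ≠ i := fun h => ha (h ▸ hV i hi)
        rw [Function.update_of_ne this]; exact hk a ha)
    refine ⟨n, j0, transvection j i (-ε) * U, U' * transvection j i ε, h1, h2, ?_,
      (pv_tr (hV i hi) (hV j hj) _).mul h4, h5.mul (pv_tr (hV i hi) (hV j hj) _), fun c => ?_⟩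
    · rw [Matrix.mul_assoc, ← Matrix.mul_assoc U, h3, Matrix.one_mul,
        transvection_mul_transvection_same _ _ hij.symm, neg_add_cancel, transvection_zero]
    · by_cases hc : c = i
      · subst hc
        rw [mul_transvection_apply_same]
        have a1 := h6 c
        have a2 := h6 j
        rw [Function.update_self] at a1
        rw [Function.update_of_ne hij.symm] at a2
        linear_combination a1 + ε * a2
      · rw [mul_transvection_apply_of_ne _ _ _ _ hc, ← h6, Function.update_of_ne hc]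
  obtain ⟨j, hj⟩ := Function.ne_iff.1 h0
  by_cases hex : ∃ i, i ≠ j ∧ k i ≠ 0
  · obtain ⟨i, hij, hi⟩ := hex
    rcases le_total (k j).natAbs (k i).natAbs with h | h
    · exact step i j hij hj h
    · exact step j i hij.symm hi h
  · push Not at hex
    have hs : (k j).sign * (k j).sign = 1 := by
      rcases lt_or_gt_of_ne (show k j ≠ 0 from hj) with h | h
      · simp [Int.sign_eq_neg_one_of_neg h]
      · simp [Int.sign_eq_one_of_pos h]
    have hP : Pv V (diagonal (Function.update 1 j (k j).sign)) := by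
      refine ⟨fun a b hab => Or.inl ?_, fun a ha => ?_⟩
      · by_contra h; exact hab (diagonal_apply_ne _ h)
      · have : a ≠ j := fun h => ha (h ▸ hV j hj)
        simp [Function.update_of_ne this]
    refine ⟨(k j).natAbs, j, diagonal (Function.update 1 j (k j).sign),
      diagonal (Function.update 1 j (k j).sign), Int.natAbs_pos.2 hj, hV j hj, ?_, hP, hP,
      fun c => ?_⟩
    · rw [diagonal_mul_diagonal, ← diagonal_one]
      congr 1
      funext a
      by_cases ha : a = j
      · subst ha; simpa using hs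
      · simp [Function.update_of_ne ha]
    · by_cases hc : c = j
      · subst hc
        rw [diagonal_apply_eq, Function.update_self, mul_comm, Int.sign_mul_natAbs]
      · rw [hex c hc, diagonal_apply_ne _ (Ne.symm hc), mul_zero]

end UniA

theorem uni : UNI := by
  intro ι _ _ V k h0 hk
  obtain ⟨n, j, U, U', h1, h2, h3, h4, h5, h6⟩ := UniA.main V _ k rfl h0 hk
  exact ⟨n, j, U, U', h1, h2, h3, fun a b h => h.elim (h4.1 a b) (h5.1 a b),
    fun a ha => ⟨h4.2 a ha, h5.2 a ha⟩, h6⟩

end Vale.Agent.P057T.Rg
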