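import Vale.Agent.P057T.Rg.Defs

/-! A round of type B. -/

set_option linter.all false

open MvPolynomial Finset

namespace Vale.Agent.P057T.Rg

open Vale.Agent.P057T.Eq Vale.Agent.P057L

namespace RbAux

variable {ι : Type} [Fintype ι] [DecidableEq ι] {S : St ι} {s : ℕ}

theorem col (hS : S.Ok s) {g : ℕ} {η0 : ℝ} (h0 : 0 < η0) (h : ¬ S.G.Small g η0) :
    ∃ j ∈ S.G.ex, S.G.g j = g ∧ η0 ^ 2 ≤ ∑ a ∈ S.G.ex, S.G.A a j ^ 2 := by
  have hBA : S.G.B * S.G.A = 1 := mul_eq_one_comm.1 hS.ok.AB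
  by_contra hc
  push Not at hc
  apply h
  intro j hj hg
  let u : ι → ℝ := fun a => if a ∈ S.G.ex then S.G.A a j else 0
  refine ⟨S.G.B.mulVec u, fun i hi => ?_, fun i hi => ?_, fun a => ?_⟩
  · have e := congrFun (congrFun hBA i) j
    rw [Matrix.mul_apply, Matrix.one_apply] at e
    rw [← e]
    refine sum_congr rfl fun a _ => ?_
    by_cases ha : a ∈ S.G.ex
    · simp [u, ha]
    · simp [(hS.tri i hi a ha).2]
  · obtain ⟨a, -, ha⟩ := exists_ne_zero_of_sum_ne_zero hi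
    have h1 := hS.ok.blk i a (Or.inr (left_ne_zero_of_mul ha))
    have h2 : S.G.A a j ≠ 0 := by
      intro h2
      apply right_ne_zero_of_mul ha
      simp [u, h2]
    have h3 := hS.ok.blk a j (Or.inl h2)
    exact ⟨h1.1.trans h3.1, h1.2.trans h3.2⟩
  · have e : S.G.A.mulVec (S.G.B.mulVec u) = u := by
      rw [Matrix.mulVec_mulVec, hS.ok.AB, Matrix.one_mulVec]
    have e2 : ∑ b, S.G.A a b * S.G.B.mulVec u b = u a := congrFun e a
    rw [e2]
    by_cases ha : a ∈ S.G.ex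
    · simp only [u, if_pos ha]
      refine abs_le_of_sq_le_sq' ?_ h0.le |> abs_le.2
      exact (single_le_sum (f := fun a => S.G.A a j ^ 2) (fun _ _ => sq_nonneg _) ha).trans
        (hc j hj hg).le
    · simp [u, ha, h0.le]

theorem sum_V (hS : S.Ok s) {j : ι} (hj : j ∈ S.G.ex) :
    ∑ a ∈ gp S.G (S.G.g j) ∩ S.G.ex, S.G.B j a ^ 2 = ∑ a, S.G.B j a ^ 2 := by
  refine sum_subset (subset_univ _) fun a _ ha => ?_
  by_contra hc
  have h1 : S.G.B j a ≠ 0 := fun h => hc (by rw [h]; simp)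
  apply ha
  refine mem_inter.2 ⟨mem_filter.2 ⟨mem_univ _, (hS.ok.blk j a (Or.inr h1)).1.symm⟩, ?_⟩
  by_contra h2
  exact h1 (hS.tri j hj a h2).2

theorem upper (hS : S.Ok s) (hx : S.Hx) {j : ι} (hj : j ∈ S.G.ex) :
    (∑ a, S.G.B j a ^ 2) ^ 2 * ∑ a ∈ S.G.ex, S.G.A a j ^ 2 ≤
      2 ^ (Fintype.card ι ^ 2) * ∑ a, S.G.B j a ^ 2 := by
  let y : ι → ℝ := fun a => S.G.B j a
  let x : ι → ℝ := fun c => if c ∈ S.G.ex then S.G.B.mulVec y c else 0
  have key := hx j hj x (by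
    intro c hc
    by_cases h1 : c ∈ S.G.ex
    · refine ⟨h1, ?_⟩
      simp only [x, if_pos h1] at hc
      obtain ⟨a, -, ha⟩ := exists_ne_zero_of_sum_ne_zero hc
      exact (hS.ok.blk c a (Or.inr (left_ne_zero_of_mul ha))).1.trans
        (hS.ok.blk j a (Or.inr (right_ne_zero_of_mul ha))).1.symm
    · exact absurd (if_neg h1) hc)
  have e1 : x j = ∑ a, S.G.B j a ^ 2 := by
    simp only [x, if_pos hj]
    exact sum_congr rfl fun a _ => (sq _).symm
  have e : S.G.A.mulVec (S.G.B.mulVec y) = y := by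
    rw [Matrix.mulVec_mulVec, hS.ok.AB, Matrix.one_mulVec]
  have e2 : ∀ a ∈ S.G.ex, (∑ c, S.G.A a c * x c) ^ 2 = S.G.B j a ^ 2 := by
    intro a ha
    congr 1
    rw [show S.G.B j a = ∑ c, S.G.A a c * S.G.B.mulVec y c from (congrFun e a).symm]
    refine sum_congr rfl fun c _ => ?_
    by_cases hc : c ∈ S.G.ex
    · simp only [x, if_pos hc]
    · simp [(hS.tri a ha c hc).1]
  rw [e1, sum_congr rfl e2] at key
  refine key.trans (mul_le_mul_of_nonneg_left ?_ (by positivity))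
  exact sum_le_sum_of_subset_of_nonneg (subset_univ _) fun _ _ _ => sq_nonneg _

end RbAux

open RbAux

theorem rb (hP : PHI) (hR : ROTO) (hD : DEM) (hL : SLI) : RB := by
  intro s N A ι _ _ S θ θn γ ρ b η P x o η0 g hI hz hx hθ hx0 ho hη hb hη0 hs
  have h0 : 0 < η0 := (Real.exp_pos _).trans_le hη0
  obtain ⟨j, hj, rfl, hA⟩ := col hI.ok h0 hs
  have hjg : j ∈ gp S.G (S.G.g j) := mem_filter.2 ⟨mem_univ _, rfl⟩
  obtain ⟨S1, hI1, hsa, -, hpv, -⟩ := hR s N A ι S θ θn γ ρ b (S.G.g j) _ j hI (Or.inl rfl)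
    (mem_inter.2 ⟨hjg, hj⟩)
  rw [sum_V hI.ok hj] at hpv
  have hup := upper hI.ok hx hj
  set B2 := ∑ a, S.G.B j a ^ 2 with hB2
  have hβ : 0 < √B2 := hpv.2.1
  have hB : 0 < B2 := Real.sqrt_pos.1 hβ
  have hP2 := hz.P2
  have hD0 : (0 : ℝ) ≤ Fintype.card ι := Nat.cast_nonneg _
  -- upper bound
  have u1 : B2 * η0 ^ 2 ≤ 2 ^ (Fintype.card ι ^ 2) := by
    refine le_of_mul_le_mul_right ?_ hB
    refine le_trans ?_ hup
    calc B2 * η0 ^ 2 * B2 = B2 ^ 2 * η0 ^ 2 := by ring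
      _ ≤ _ := mul_le_mul_of_nonneg_left hA (sq_nonneg _)
  have u2 : (2 : ℝ) ^ (Fintype.card ι ^ 2) ≤ Real.exp (P ^ 2) := by
    have h2 : (2 : ℝ) ≤ Real.exp 1 := by have := Real.add_one_le_exp (1 : ℝ); linarith
    calc (2 : ℝ) ^ (Fintype.card ι ^ 2) ≤ Real.exp 1 ^ (Fintype.card ι ^ 2) := by gcongr
      _ = Real.exp ((Fintype.card ι : ℝ) ^ 2) := by rw [← Real.exp_nat_mul]; simp
      _ ≤ _ := Real.exp_le_exp.2 (pow_le_pow_left₀ hD0 hz.cd 2)
  have u3 : √B2 ≤ Real.exp (o + P ^ 2) := by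
    rw [Real.sqrt_le_left (Real.exp_pos _).le]
    refine le_of_mul_le_mul_right ?_ (pow_pos (Real.exp_pos (-o)) 2)
    calc B2 * Real.exp (-o) ^ 2 ≤ B2 * η0 ^ 2 := by gcongr
      _ ≤ Real.exp (P ^ 2) := u1.trans u2
      _ ≤ Real.exp (P ^ 2 + P ^ 2) := Real.exp_le_exp.2 (by nlinarith)
      _ = _ := by rw [← mul_pow, ← Real.exp_add, sq (Real.exp _), ← Real.exp_add]; congr 1; ring
  -- lower bound
  obtain ⟨a, -, ha⟩ := hP s ι S.G (gp S.G (S.G.g j)) (θ (S.G.g j)) (Pi.single j 1) hI.ok.ok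
    (fun a c ha hc => by
      by_contra h
      exact ha (mem_filter.2 ⟨mem_univ _,
        (hI.ok.ok.blk a c (Or.inl h)).1.trans (mem_filter.1 hc).2⟩))
    (hI.ph _) (fun h => by simpa using congrFun h j)
    (fun c hc => Pi.single_eq_of_ne (fun h : c = j => hc (by rw [h]; exact hjg)) _)
  have e1 : ∑ c, ((Pi.single j 1 : ι → ℤ) c : ℝ) * S.G.B c a = S.G.B j a := by
    rw [sum_eq_single j]
    · simp
    · intro c _ hc; simp [Pi.single_eq_of_ne hc]
    · simp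
  rw [e1] at ha
  have l1 : |S.G.B j a| ≤ √B2 := Real.abs_le_sqrt
    (single_le_sum (f := fun a => S.G.B j a ^ 2) (fun _ _ => sq_nonneg _) (mem_univ a))
  have l2 : (√B2)⁻¹ ≤ Real.exp (θ (S.G.g j) + P + 4) := by
    rw [inv_le_comm₀ hβ (Real.exp_pos _), ← Real.exp_neg]
    exact le_trans (Real.exp_le_exp.2 (by linarith [hz.cd])) (ha.trans l1)
  have l3 : 1 + (√B2)⁻¹ ≤ Real.exp (θ (S.G.g j) + P + 5) := by
    have h2 : (2 : ℝ) ≤ Real.exp 1 := by have := Real.add_one_le_exp (1 : ℝ); linarith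
    have h1 : 1 ≤ Real.exp (θ (S.G.g j) + P + 4) := Real.one_le_exp (by linarith)
    rw [show θ (S.G.g j) + P + 5 = θ (S.G.g j) + P + 4 + 1 by ring, Real.exp_add]
    nlinarith
  have hbp : 0 < b := by
    have := (Real.exp_pos _).trans_le hb
    exact (mul_pos_iff_of_pos_left hη).1 this
  have hpot : S1.pot = S.pot := by unfold St.pot; rw [hsa.2.1, hsa.2.2]
  have hgp : ∀ g, gp S1.G g = gp S.G g := fun g => by unfold gp; rw [hsa.1]
  have hg1 : S1.G.g j = S.G.g j := by rw [hsa.1]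
  rw [← hgp, ← hsa.2.2] at hpv
  have hPP : 0 ≤ P ^ 2 := sq_nonneg _
  generalize S.G.g j = g at *
  rcases g with _ | g
  · obtain ⟨S', hI', hlt⟩ := hL s N A ι S1 θ θn γ ρ b _ (o + P ^ 2) (θ 0 + P + 5) (η / 2) (x + 1) j
      hI1 hg1 hpv u3 l3 (half_pos hη) (by
        have h2 : (2 : ℝ) ≤ Real.exp 1 := by have := Real.add_one_le_exp (1 : ℝ); linarith
        have h3 : Real.exp (-(x + 1)) * Real.exp 1 = Real.exp (-x) := by
          rw [← Real.exp_add]; congr 1; ring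
        have h4 := Real.exp_pos (-(x + 1))
        nlinarith)
    refine ⟨_, inferInstance, inferInstance, S', Fintype.card_subtype_le _,
      hI'.mono (fun g' => ?_) (fun g' => ?_) (by linarith) (by linarith) (le_of_eq (by ring)),
      hpot ▸ hlt⟩
    · simp [at1, lo]
    · simp [lo]
  · obtain ⟨S', hI', hlt⟩ := hD s N A ι S1 θ θn γ ρ b _ (o + P ^ 2) (θ (g + 1) + P + 5) g j
      hI1 hg1 hpv u3 l3
    refine ⟨ι, inferInstance, inferInstance, S', le_rfl,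
      hI'.mono (fun g' => ?_) (fun g' => ?_) (by linarith) (by linarith) (by nlinarith),
      hpot ▸ hlt⟩
    · simp only [at1, lo]
      split_ifs <;> first | linarith | omega
    · simp only [at1, lo]
      split_ifs <;> first | linarith | omega

end Vale.Agent.P057T.Rg
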