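import Vale.Agent.P057T.Rg.Ra
import Vale.Agent.P057T.Rg.Rb
import Vale.Agent.P057T.Rg.Dil

/-! The rounds from the rows with `0 ≤ x`. -/

set_option linter.all false

open MvPolynomial Finset

namespace Vale.Agent.P057T.Rg

open Vale.Agent.P057T.Eq Vale.Agent.P057L

/-- shrink the groups `< g` by `exp (-l)` (with `0 ≤ x`) -/
def SHR1 : Prop := ∀ (s N : ℕ) (A : Finset ℤ) (ι : Type) [Fintype ι] [DecidableEq ι] (S : St ι)
  (θ θn : ℕ → ℝ) (γ ρ b η x l : ℝ) (g : ℕ), S.Inv s N A θ θn γ ρ b → 0 < l → 0 < η → 0 ≤ x →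
    Real.exp (-x) ≤ η * b →
    ∃ S' : St ι, S'.Inv s N A (lo θ g (Fintype.card ι * l)) (lo θn g (Fintype.card ι * l)) (γ + x)
        (ρ + Fintype.card ι * l) ((1 - 2 * η) * b) ∧ S.Sa S' ∧ S'.G.q = S.G.q ∧
      (∀ a c, S'.G.A a c = (if S.G.g a < g then Real.exp l else 1) * S.G.A a c) ∧
      ∀ a c, S'.G.B a c = (if S.G.g a < g then Real.exp (-l) else 1) * S.G.B a c

/-- slice along an exact pivot of weight one (with `0 ≤ x`) -/
def SLI1 : Prop := ∀ (s N : ℕ) (A : Finset ℤ) (ι : Type) [Fintype ι] [DecidableEq ι] (S : St ι)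
  (θ θn : ℕ → ℝ) (γ ρ b β o l η x : ℝ) (j : ι), S.Inv s N A θ θn γ ρ b → S.G.g j = 0 →
    S.Pv (gp S.G 0 ∩ S.G.ex) j β → β ≤ Real.exp o → 1 + β⁻¹ ≤ Real.exp l → 0 < η → 0 ≤ x →
    Real.exp (-x) ≤ η * b →
    ∃ S' : St {a : ι // a ≠ j}, S'.Inv s N A (at1 θ 0 o) θn (γ + x + l) (ρ + o) ((1 - 2 * η) * b) ∧
      S'.pot < S.pot

open RbAux in
theorem rb1 (hP : PHI) (hR : ROTO) (hD : DEM) (hL : SLI1) : RB := by
  intro s N A ι _ _ S θ θn γ ρ b η P x o η0 g hI hz hx hθ hx0 ho hη hb hη0 hs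
  have h0 : 0 < η0 := (Real.exp_pos _).trans_le hη0
  obtain ⟨j, hj, rfl, hA⟩ := col hI.ok h0 hs
  have hjg : j ∈ gp S.G (S.G.g j) := mem_filter.2 ⟨mem_univ _, rfl⟩
  obtain ⟨S1, hI1, hsa, -, hpv, -⟩ := hR s N A ι S θ θn γ ρ b (S.G.g j) _ j hI (Or.inl rfl)
    (mem_inter.2 ⟨hjg, hj⟩)
  rw [sum_V hI.ok hj] at hpv
  have hup := upper hI.ok hx hj
  set B2 := ∑ a, S.G.B j a ^ 2 with hB2
  have hβ : 0 < √B2 := hpv.2.1
  have hB : 0 < B2 := Real.sqrt_pos.1 hβ
  have hP2 := hz.P2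
  have hD0 : (0 : ℝ) ≤ Fintype.card ι := Nat.cast_nonneg _
  -- upper bound
  have u1 : B2 * η0 ^ 2 ≤ 2 ^ (Fintype.card ι ^ 2) := by
    refine le_of_mul_le_mul_right ?_ hB
    refine le_trans ?_ hup
    calc B2 * η0 ^ 2 * B2 = B2 ^ 2 * η0 ^ 2 := by ring
      _ ≤ _ := mul_le_mul_of_nonneg_left hA (sq_nonneg _)
  have u2 : (2 : ℝ) ^ (Fintype.card ι ^ 2) ≤ Real.exp (P ^ 2) := by
    have h2 : (2 : ℝ) ≤ Real.exp 1 := by have := Real.add_one_le_exp (1 : ℝ); linarith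
    calc (2 : ℝ) ^ (Fintype.card ι ^ 2) ≤ Real.exp 1 ^ (Fintype.card ι ^ 2) := by gcongr
      _ = Real.exp ((Fintype.card ι : ℝ) ^ 2) := by rw [← Real.exp_nat_mul]; simp
      _ ≤ _ := Real.exp_le_exp.2 (pow_le_pow_left₀ hD0 hz.cd 2)
  have u3 : √B2 ≤ Real.exp (o + P ^ 2) := by
    rw [Real.sqrt_le_left (Real.exp_pos _).le]
    refine le_of_mul_le_mul_right ?_ (pow_pos (Real.exp_pos (-o)) 2)
    calc B2 * Real.exp (-o) ^ 2 ≤ B2 * η0 ^ 2 := by gcongr
      _ ≤ Real.exp (P ^ 2) := u1.trans u2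
      _ ≤ Real.exp (P ^ 2 + P ^ 2) := Real.exp_le_exp.2 (by nlinarith)
      _ = _ := by rw [← mul_pow, ← Real.exp_add, sq (Real.exp _), ← Real.exp_add]; congr 1; ring
  -- lower bound
  obtain ⟨a, -, ha⟩ := hP s ι S.G (gp S.G (S.G.g j)) (θ (S.G.g j)) (Pi.single j 1) hI.ok.ok
    (fun a c ha hc => by
      by_contra h
      exact ha (mem_filter.2 ⟨mem_univ _,
        (hI.ok.ok.blk a c (Or.inl h)).1.trans (mem_filter.1 hc).2⟩))
    (hI.ph _) (fun h => by simpa using congrFun h j)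
    (fun c hc => Pi.single_eq_of_ne (fun h : c = j => hc (by rw [h]; exact hjg)) _)
  have e1 : ∑ c, ((Pi.single j 1 : ι → ℤ) c : ℝ) * S.G.B c a = S.G.B j a := by
    rw [sum_eq_single j]
    · simp
    · intro c _ hc; simp [Pi.single_eq_of_ne hc]
    · simp
  rw [e1] at ha
  have l1 : |S.G.B j a| ≤ √B2 := Real.abs_le_sqrt
    (single_le_sum (f := fun a => S.G.B j a ^ 2) (fun _ _ => sq_nonneg _) (mem_univ a))
  have l2 : (√B2)⁻¹ ≤ Real.exp (θ (S.G.g j) + P + 4) := by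
    rw [inv_le_comm₀ hβ (Real.exp_pos _), ← Real.exp_neg]
    exact le_trans (Real.exp_le_exp.2 (by linarith [hz.cd])) (ha.trans l1)
  have l3 : 1 + (√B2)⁻¹ ≤ Real.exp (θ (S.G.g j) + P + 5) := by
    have h2 : (2 : ℝ) ≤ Real.exp 1 := by have := Real.add_one_le_exp (1 : ℝ); linarith
    have h1 : 1 ≤ Real.exp (θ (S.G.g j) + P + 4) := Real.one_le_exp (by linarith)
    rw [show θ (S.G.g j) + P + 5 = θ (S.G.g j) + P + 4 + 1 by ring, Real.exp_add]
    nlinarith
  have hbp : 0 < b := by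
    have := (Real.exp_pos _).trans_le hb
    exact (mul_pos_iff_of_pos_left hη).1 this
  have hpot : S1.pot = S.pot := by unfold St.pot; rw [hsa.2.1, hsa.2.2]
  have hgp : ∀ g, gp S1.G g = gp S.G g := fun g => by unfold gp; rw [hsa.1]
  have hg1 : S1.G.g j = S.G.g j := by rw [hsa.1]
  rw [← hgp, ← hsa.2.2] at hpv
  have hPP : 0 ≤ P ^ 2 := sq_nonneg _
  generalize S.G.g j = g at *
  rcases g with _ | g
  · obtain ⟨S', hI', hlt⟩ := hL s N A ι S1 θ θn γ ρ b _ (o + P ^ 2) (θ 0 + P + 5) (η / 2) (x + 1) j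
      hI1 hg1 hpv u3 l3 (half_pos hη) (by linarith) (by
        have h2 : (2 : ℝ) ≤ Real.exp 1 := by have := Real.add_one_le_exp (1 : ℝ); linarith
        have h3 : Real.exp (-(x + 1)) * Real.exp 1 = Real.exp (-x) := by
          rw [← Real.exp_add]; congr 1; ring
        have h4 := Real.exp_pos (-(x + 1))
        nlinarith)
    refine ⟨_, inferInstance, inferInstance, S', Fintype.card_subtype_le _,
      hI'.mono (fun g' => ?_) (fun g' => ?_) (by linarith) (by linarith) (le_of_eq (by ring)),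
      hpot ▸ hlt⟩
    · simp [at1, lo]
    · simp [lo]
  · obtain ⟨S', hI', hlt⟩ := hD s N A ι S1 θ θn γ ρ b _ (o + P ^ 2) (θ (g + 1) + P + 5) g j
      hI1 hg1 hpv u3 l3
    refine ⟨ι, inferInstance, inferInstance, S', le_rfl,
      hI'.mono (fun g' => ?_) (fun g' => ?_) (by linarith) (by linarith) (by nlinarith),
      hpot ▸ hlt⟩
    · simp only [at1, lo]
      split_ifs <;> first | linarith | omega
    · simp only [at1, lo]
      split_ifs <;> first | linarith | omega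

open Vale.Agent.P057T.L1 in
theorem ra1 (hR : REL) (hS : SHR1) (hP : PERT) (hD : DIL1) (hH : SHEAR) : RA := by
  intro s
  obtain ⟨c, hP⟩ := hP s
  obtain ⟨c2, hnum⟩ := ra_num c
  refine ⟨c2, ?_⟩
  intro N A ι _ _ S θ θn γ ρ b η P Λ x h g hI hz hΛ hθ hγ hx0 hx hh0 hh hn0 hn hη hη2 hxb hB
  have P2 := hz.P2
  have hD' := hz.cd
  have hD0 : (0 : ℝ) ≤ Fintype.card ι := Nat.cast_nonneg _
  have η0 : 0 < η := (Real.exp_pos _).trans_le hη
  have b0 : 0 < b := by
    have := (Real.exp_pos _).trans_le hxb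
    exact (pos_iff_pos_of_mul_pos this).1 η0
  obtain ⟨S1, j, δ, n, f, I1, sa1, hj, pv1, n1, nδ, δl, rl, lf⟩ :=
    hR s N A ι S θ θn γ ρ b (Real.exp h) g hI hB
  obtain ⟨l, Ω, l0, hlb, Ω8, lΩ, hsm0, hL⟩ := hnum P Λ h (θn g) _ η P2 hΛ hh0 hh hn0 hn hD0 hD' hη
  obtain ⟨η1, η2, η3⟩ := ra_eta η0 hη2 b0
  have e3 := e3le
  have hx3 : Real.exp (-(x + 3)) ≤ η * b / 10 := by
    rw [neg_add, Real.exp_add]
    have := mul_le_mul hxb e3 (Real.exp_pos _).le (by positivity)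
    linarith
  have ηb : 0 < η * b := by positivity
  obtain ⟨S2, I2, sa2, q2, A2, B2⟩ := hS s N A ι S1 θ θn γ ρ b (η / 5) (x + 3) l g I1 l0
    (by positivity) (by linarith) (by linarith)
  have δ0 : 0 < δ := pv1.2.1
  have n1' : (1 : ℝ) ≤ n := by exact_mod_cast n1
  have nδ0 : 0 < n * δ := by positivity
  have g1 : S1.G.g = S.G.g := sa1.1
  have g2 : S2.G.g = S.G.g := sa2.1.trans g1
  have x2 : S2.G.ex = S.G.ex := sa2.2.2.trans sa1.2.2
  have jV := pv1.1
  have jx : j ∉ S.G.ex := (mem_sdiff.1 jV).2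
  set f1 : MvPolynomial ι ℝ :=
    C (n * δ)⁻¹ * aeval (fun a => (C (Real.exp (-l)) * X a : MvPolynomial ι ℝ)) f with hf1
  have th2 : ∀ a, S.G.g a < g → C (Real.exp (-l)) * S2.G.th a = S1.G.th a := by
    intro a ha
    simp only [GT.th, q2, A2, g1, ha, if_true, Finset.mul_sum]
    refine Finset.sum_congr rfl fun d _ => ?_
    rw [← mul_assoc, ← C_mul, ← mul_assoc, ← Real.exp_add]
    simp
  have lof : ∀ a ∈ f.vars, S.G.g a < g := fun a ha => by
    have := rl.1 a ha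
    rwa [g1, hj] at this
  have ev1 : aeval S2.G.th f1 = C (n * δ)⁻¹ * aeval S1.G.th f := by
    rw [hf1, map_mul, aeval_C, algebraMap_eq, ← AlgHom.comp_apply, comp_aeval]
    congr 1
    refine Chart.aeval_congr_vars fun a ha => ?_
    rw [map_mul, aeval_C, algebraMap_eq, aeval_X]
    exact th2 a (lof a ha)
  have w2 : S2.G.w = S1.G.w := sa2.2.1
  have hσ : Real.exp (-l) ≤ 1 := Real.exp_le_one_iff.2 (by linarith)
  have lf1 : l1 f1 ≤ Real.exp (θn g + P + 4 - l + h) := by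
    have e1 : l1 f1 = |(n * δ)⁻¹| * l1 (aeval
        (fun a => (C (Real.exp (-l)) * X a : MvPolynomial ι ℝ)) f) := nrm_C_mul _ _
    have e2 := l1_scale (I1.ok.ok.w1 j) rl.2.1 (Real.exp_pos (-l)).le hσ
    have e4 : (n * δ)⁻¹ ≤ Real.exp (θn g + P + 4) := by
      rw [inv_le_comm₀ nδ0 (Real.exp_pos _), ← Real.exp_neg]
      refine le_trans (Real.exp_le_exp.2 (by linarith)) (δl.trans ?_)
      exact le_mul_of_one_le_left δ0.le n1'
    rw [e1, abs_of_pos (inv_pos.2 nδ0)]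
    refine (mul_le_mul e4 (e2.trans (mul_le_mul_of_nonneg_left lf (Real.exp_pos _).le))
      (nrm_nonneg _) (Real.exp_pos _).le).trans ?_
    rw [← Real.exp_add, ← Real.exp_add]
    exact le_of_eq (by congr 1; ring)
  have EΛ : Λ + 1 ≤ Real.exp Λ := Real.add_one_le_exp Λ
  have hsm : l1 f1 * (P * Ω) ^ c ≤ η / 5 :=
    (mul_le_mul_of_nonneg_right lf1 (pow_nonneg (mul_nonneg (by linarith) (by linarith)) c)).trans hsm0
  obtain ⟨S3, I3, sa3, A3, B3, q3⟩ := hP N A ι S2 _ _ _ _ _ (η / 5) P Ω j f1 I2 hz (by linarith)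
    (fun g' => by
      have := hθ g'
      have e : (if g' < g then (Fintype.card ι : ℝ) * l else 0) ≤ Fintype.card ι * l := by
        split_ifs
        · exact le_rfl
        · positivity
      simp only [lo]
      linarith) (by linarith) (by positivity) (by linarith)
    ((Real.exp_le_exp.2 (by linarith : -Ω ≤ -(x + 3))).trans (hx3.trans η1))
    (by rw [x2]; exact jx)
    (by
      rw [g2, hj]
      intro a ha
      rw [g2]
      refine Chart.vars_mul' (P := fun a => S.G.g a < g) (Chart.vars_C' _)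
        (Chart.vars_aeval fun i hi => Chart.vars_mul' (Chart.vars_C' _)
          (Chart.vars_X' (lof i hi))) a ha)
    (by
      show f1.IsWeightedHomogeneous S2.G.w (S2.G.w j)
      rw [w2, ← zero_add (S1.G.w j)]
      refine (isWeightedHomogeneous_C _ _).mul (Chart.hom_aeval rl.2.1 fun i => ?_)
      rw [← zero_add (S1.G.w i)]
      exact (isWeightedHomogeneous_C _ _).mul (isWeightedHomogeneous_X ℝ _ i))
    hsm
  have Bjj : S1.G.B j j = δ := by
    have e := congrFun (congrFun I1.ok.ok.AB j) j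
    rw [Matrix.mul_apply, Matrix.one_apply_eq, Finset.sum_eq_single j, pv1.2.2.1] at e
    · field_simp at e; exact e
    · intro d _ hd
      by_cases h1 : d ∈ S.G.ex
      · rw [(I1.ok.tri d (sa1.2.2 ▸ h1) j (sa1.2.2 ▸ jx)).2, mul_zero]
      · by_cases h2 : S.G.g d = g
        · rw [pv1.2.2.2 d (by simp [gp, h1, h2]) hd, zero_mul]
        · have : S1.G.A j d = 0 := by
            by_contra h3
            have := (I1.ok.ok.blk j d (Or.inl h3)).1
            rw [g1, hj] at this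
            exact h2 this.symm
          rw [this, zero_mul]
    · simp
  have jl : ¬ S.G.g j < g := by omega
  have z3 : IsZ (C (n : ℝ) * S3.G.q j) := by
    have e : C (n : ℝ) * S3.G.q j = C (n : ℝ) * S1.G.q j - aeval S1.G.th f := by
      rw [q3, ev1, B2, g1, if_neg jl, one_mul, Bjj, q2, mul_sub, ← mul_assoc, ← mul_assoc,
        ← C_mul, ← C_mul, mul_inv_cancel₀ nδ0.ne', C_1, one_mul]
    rw [e]
    exact rl.2.2
  have g3 : S3.G.g = S.G.g := sa3.1.trans g2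
  have nl : (n : ℝ) ≤ Real.exp l := by
    have e1 : Real.exp (-(θn g + P + 4)) ≤ δ := le_trans (Real.exp_le_exp.2 (by linarith)) δl
    have e2 : n * Real.exp (-(θn g + P + 4)) ≤ Real.exp h :=
      (mul_le_mul_of_nonneg_left e1 (by linarith)).trans nδ
    rw [Real.exp_neg, ← div_eq_mul_inv, div_le_iff₀ (Real.exp_pos _), ← Real.exp_add] at e2
    exact e2.trans (Real.exp_le_exp.2 hlb)
  obtain ⟨S4, I4, sa4, A4, B4, q4⟩ := hD s N A ι S3 _ _ _ _ _ (η / 5) (x + 3) l g n I3 n1 nl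
    (by positivity) (by linarith) (hx3.trans η2)
  have g4 : S4.G.g = S.G.g := sa4.1.trans g3
  have x4 : S4.G.ex = S.G.ex := sa4.2.2.trans (sa3.2.2.trans x2)
  have w4 : S4.G.w = S.G.w := sa4.2.1.trans (sa3.2.1.trans (w2.trans sa1.2.1))
  have row : ∀ d, S4.G.A j d = S1.G.A j d := fun d => by
    rw [A4, g3, if_neg jl, one_mul, A3, A2, g1, if_neg jl, one_mul]
  have j4 : S4.G.g j = g := by rw [g4, hj]
  obtain ⟨S5, I5, p5⟩ := hH s N A ι S4 _ _ _ _ _ δ h j I4 (by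
      have e : gp S4.G (S4.G.g j) \ S4.G.ex = gp S.G g \ S.G.ex := by
        rw [j4, x4, gp, gp, g4]
      rw [e]
      exact ⟨jV, δ0, (row j).trans pv1.2.2.1, fun d hd hne => (row d).trans (pv1.2.2.2 d hd hne)⟩)
    ((le_mul_of_one_le_left δ0.le n1').trans nδ) (q4 j (by rw [g3, hj]) z3)
  refine ⟨S5, I5.mono ?_ ?_ (by linarith) (by linarith) ?_, ?_⟩
  · intro g'
    simp only [lo]
    split_ifs <;> linarith
  · intro g'
    simp only [lo, at1, j4]
    split_ifs <;> linarith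
  · exact η3
  · have : S4.pot = S.pot := by rw [St.pot, St.pot, w4, x4]
    exact this ▸ p5

end Vale.Agent.P057T.Rg
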