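import Vale.Agent.P057T.Rg.Defs
import Vale.Agent.P057T.Eq.Mono

/-!
Row REG: regularisation by induction on the potential.
-/

open MvPolynomial Finset
open scoped Real

namespace Vale.Agent.P057T.Rg.H98

open Vale.Agent.P057T.Eq Vale.Agent.P057L

set_option linter.unusedSectionVars false
set_option linter.unusedVariables false

noncomputable section

/-- the numerical data -/
structure Nm (s : ℕ) (P Y q c c1 R : ℝ) (a : ℕ → ℝ) : Prop where
  P2 : 2 ≤ P
  Y1 : 1 ≤ Y
  q4 : 4 ≤ q
  cq : c ≤ q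
  c0 : 1 ≤ c
  c1q : c1 ≤ q
  c10 : 0 ≤ c1
  p1 : P + 5 ≤ q
  p2 : P ^ 2 ≤ q
  ya : ∀ g, Y ≤ a g
  an : Antitone a
  st : ∀ g < s, q ^ 6 * a (g + 1) = a g
  aR : q ^ 12 * a 0 ≤ R
  RL : R ≤ Real.exp (q ^ 2 * Y)

namespace Nm

variable {s : ℕ} {P Y q c c1 R : ℝ} {a : ℕ → ℝ} (h : Nm s P Y q c c1 R a)
include h

theorem a1 (g : ℕ) : 1 ≤ a g := h.Y1.trans (h.ya g)

theorem q1 : 1 ≤ q := by linarith [h.q4]

theorem pw {i j : ℕ} (hij : i ≤ j) (g : ℕ) : q ^ i * a g ≤ q ^ j * a g :=
  mul_le_mul_of_nonneg_right (pow_le_pow_right₀ h.q1 hij) (by linarith [h.a1 g])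

theorem pw4 (i : ℕ) (g : ℕ) : 4 * (q ^ i * a g) ≤ q ^ (i + 1) * a g := by
  have h1 : 0 ≤ q ^ i * a g := mul_nonneg (pow_nonneg (by linarith [h.q4]) i) (by linarith [h.a1 g])
  calc 4 * (q ^ i * a g) ≤ q * (q ^ i * a g) := mul_le_mul_of_nonneg_right h.q4 h1
    _ = _ := by ring

theorem nn (i g : ℕ) : 0 ≤ q ^ i * a g :=
  mul_nonneg (pow_nonneg (by linarith [h.q4]) i) (by linarith [h.a1 g])

theorem ya' (i g : ℕ) : Y ≤ q ^ i * a g := by
  have := h.pw (Nat.zero_le i) g
  rw [pow_zero, one_mul] at this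
  exact (h.ya g).trans this

theorem qa (i g : ℕ) : q ≤ q ^ (i + 1) * a g := by
  have h1 := h.pw (show 1 ≤ i + 1 by omega) g
  rw [pow_one] at h1
  have h2 := h.a1 g
  have h3 := h.q4
  nlinarith

theorem a0 (i g : ℕ) : q ^ i * a g ≤ q ^ i * a 0 :=
  mul_le_mul_of_nonneg_left (h.an (Nat.zero_le g)) (pow_nonneg (by linarith [h.q4]) i)

theorem lt {g g1 : ℕ} (h1 : g < g1) (h2 : g1 < s) (i : ℕ) : q ^ (i + 6) * a g1 ≤ q ^ i * a g := by
  rw [← h.st g (h1.trans h2), pow_add, mul_assoc]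
  refine mul_le_mul_of_nonneg_left (mul_le_mul_of_nonneg_left (h.an h1) ?_) ?_
  · exact pow_nonneg (by linarith [h.q4]) _
  · exact pow_nonneg (by linarith [h.q4]) _

theorem qY (g : ℕ) : q ^ 2 * Y ≤ q ^ 2 * a g :=
  mul_le_mul_of_nonneg_left (h.ya g) (sq_nonneg q)

theorem tb {t : ℝ} (ht : t ≤ q) (i g : ℕ) : t * (q ^ i * a g) ≤ q ^ (i + 1) * a g := by
  calc t * (q ^ i * a g) ≤ q * (q ^ i * a g) := mul_le_mul_of_nonneg_right ht (h.nn i g)
    _ = _ := by ring

/-- everything is below `R` -/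
theorem toR {t : ℝ} (ht : t ≤ q) {i : ℕ} (hi : i ≤ 10) (g : ℕ) : Y + t * (q ^ i * a g) ≤ R := by
  have h1 := h.tb ht i g
  have h2 := h.pw (show i + 1 ≤ 11 by omega) g
  have h3 := h.a0 11 g
  have h4 := h.ya' 11 0
  have h5 : 4 * (q ^ 11 * a 0) ≤ q ^ 12 * a 0 := h.pw4 11 0
  have h6 := h.nn 11 0
  have h7 := h.aR
  linarith

theorem small {η b : ℝ} (hη : Real.exp (-Y) ≤ η) (hb : Real.exp (-Y) ≤ b) :
    Real.exp (-(q ^ 2 * Y)) ≤ η / q * (b / 2) ∧ Real.exp (-(q ^ 2 * Y)) ≤ η / q := by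
  have h1 := h.q4
  have h2 := h.Y1
  have h3 : 2 * q ≤ Real.exp (2 * q) := by linarith [Real.add_one_le_exp (2 * q)]
  have h4 : Real.exp (-(2 * q)) ≤ (2 * q)⁻¹ := by
    rw [Real.exp_neg]
    exact inv_anti₀ (by linarith) h3
  have h5 : Real.exp (-(q ^ 2 * Y)) ≤ Real.exp (-Y) * Real.exp (-Y) * Real.exp (-(2 * q)) := by
    rw [← Real.exp_add, ← Real.exp_add, Real.exp_le_exp]
    have : 4 * (q * Y) ≤ q * (q * Y) := mul_le_mul_of_nonneg_right h1 (by positivity)
    nlinarith
  have e0 := Real.exp_pos (-Y)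
  have e1 : Real.exp (-Y) ≤ 1 := Real.exp_le_one_iff.2 (by linarith)
  have hq : 0 < (2 * q)⁻¹ := by positivity
  constructor
  · refine h5.trans ?_
    have e : η / q * (b / 2) = η * b * (2 * q)⁻¹ := by
      field_simp
    rw [e]
    exact mul_le_mul (mul_le_mul hη hb e0.le (by linarith)) h4 (Real.exp_pos _).le
      (mul_nonneg (by linarith) (by linarith))
  · refine h5.trans ?_
    have e : η / q = η * 2 * (2 * q)⁻¹ := by
      field_simp
    rw [e]
    exact mul_le_mul (mul_le_mul hη (by linarith) e0.le (by linarith)) h4 (Real.exp_pos _).le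
      (mul_nonneg (by linarith) (by norm_num))

end Nm

theorem pot_sa {ι : Type} [Fintype ι] [DecidableEq ι] {S S' : St ι} (h : S.Sa S') :
    S'.pot = S.pot := by
  unfold St.pot
  rw [h.2.1, h.2.2]

theorem core (hH : HRM) (hB : RB) (hP : PHI) {s c1 N : ℕ} {A : Finset ℤ} {D P Y q c R b η : ℝ}
    {a : ℕ → ℝ} (h : Nm s P Y q c (P ^ c1) R a) (hD : D ≤ P)
    (hA : ∀ (N : ℕ) (A : Finset ℤ) (ι : Type) [Fintype ι] [DecidableEq ι]
      (S : St ι) (θ θn : ℕ → ℝ) (γ ρ b η P Λ x h : ℝ) (g : ℕ), S.Inv s N A θ θn γ ρ b → Sz ι P 1 →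
      1 ≤ Λ → (∀ g', θ g' ≤ Real.exp Λ) → γ ≤ Real.exp Λ → 0 ≤ x → x ≤ Real.exp Λ → 0 ≤ h →
      h ≤ Real.exp Λ → 0 ≤ θn g → θn g ≤ Real.exp Λ → Real.exp (-Λ) ≤ η → η ≤ 1 / 2 →
      Real.exp (-x) ≤ η * b → ¬ S.G.Big g (Real.exp h) →
      ∃ S' : St ι, S'.Inv s N A (lo θ g (P ^ c1 * (h + θn g + Λ)))
        (at1 (lo θn g (P ^ c1 * (h + θn g + Λ))) g h) (γ + 2 * x + 9) (ρ + P ^ c1 * (h + θn g + Λ))
        ((1 - η) * b) ∧ S'.pot < S.pot)
    (hb : Real.exp (-Y) ≤ b) (hη : Real.exp (-Y) ≤ η) (hη2 : η ≤ 1 / 2) (n : ℕ) :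
    ∀ (t : ℝ), 0 ≤ t → t + n ≤ q → ∀ (ι : Type) [Fintype ι] [DecidableEq ι] (S : St ι),
      (Fintype.card ι : ℝ) ≤ D → S.pot < n →
      S.Inv s N A (fun g => Y + t * (q ^ 4 * a g)) (fun g => Y + t * (q ^ 7 * a g))
        (Y + t * (q ^ 10 * a 0)) (Y + t * (q ^ 10 * a 0)) ((1 - t * (η / q)) * b) →
      RHo s N A D R ((1 - η) * b) c Y := by
  induction n with
  | zero => intro t _ _ ι _ _ S _ h0; exact absurd h0 (Nat.not_lt_zero _)
  | succ n ih =>
    intro t ht0 htn ι _ _ S0 hc hp hI0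
    obtain ⟨S, hI, hsa, hx⟩ := hH s N A ι S0 _ _ _ _ _ hI0
    have hp' : S.pot ≤ n := by rw [pot_sa hsa]; omega
    have hn0 : (0 : ℝ) ≤ n := Nat.cast_nonneg n
    push_cast at htn
    have htq : t ≤ q := by linarith
    have hq4 := h.q4
    have hY := h.Y1
    have hP2 := h.P2
    have hη0 : 0 < η := (Real.exp_pos _).trans_le hη
    have hb0 : 0 < b := (Real.exp_pos _).trans_le hb
    have hq0 : 0 < q := by linarith
    have he0 : 0 < η / q := div_pos hη0 hq0
    have het : t * (η / q) ≤ η := by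
      calc t * (η / q) ≤ q * (η / q) := mul_le_mul_of_nonneg_right htq he0.le
        _ = η := by field_simp
    have he2 : η / q ≤ 1 / 2 := (div_le_self hη0.le (by linarith)).trans hη2
    obtain ⟨sm1, sm2⟩ := h.small hη hb
    have sm3 : Real.exp (-(q ^ 2 * Y)) ≤ η / q * ((1 - t * (η / q)) * b) :=
      sm1.trans (mul_le_mul_of_nonneg_left (by nlinarith) he0.le)
    have hSz : Sz ι P 1 := ⟨hc.trans hD, hP2, le_rfl⟩
    have hbn : (1 - (t + 1) * (η / q)) * b ≤ (1 - η / q) * ((1 - t * (η / q)) * b) := by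
      have : 0 ≤ t * (η / q) * (η / q) * b := by positivity
      nlinarith
    have hL0 : 0 ≤ q ^ 2 * Y := by positivity
    have hL1 : 1 ≤ q ^ 2 * Y := by nlinarith
    have hca : ∀ i g, c * (q ^ i * a g) ≤ q ^ (i + 1) * a g := fun i g => h.tb h.cq i g
    have hca0 : ∀ i g, 0 ≤ c * (q ^ i * a g) := fun i g =>
      mul_nonneg (by linarith [h.c0]) (h.nn i g)
    have hcR : ∀ g, c * (q ^ 6 * a g) ≤ Real.exp (q ^ 2 * Y) := fun g => by
      have := h.toR h.cq (show 6 ≤ 10 by norm_num) g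
      linarith [h.RL]
    by_cases hr : S.G.Rg (fun g => q ^ 6 * a g - Y) c Y s
    · have hanti : Antitone fun g => q ^ 6 * a g - Y := fun g g' hg =>
        sub_le_sub_right (mul_le_mul_of_nonneg_left (h.an hg) (by positivity)) Y
      refine ⟨ι, inferInstance, inferInstance, S, fun g => q ^ 6 * a g - Y, hc,
        hI.mono (fun g => h.toR htq (by norm_num) g) (fun g => h.toR htq (by norm_num) g)
          (h.toR htq le_rfl 0) (h.toR htq le_rfl 0) (by nlinarith), ?_, ?_, hr⟩
      · refine Wb.wd_of_wf hI.ok.ok (WW := fun g => q ^ 6 * a g - Y - ((Fintype.card ι : ℝ) ^ 2 + 1))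
          (fun g g' hg => sub_le_sub_right (hanti hg) _) ?_ hanti
          (fun g => sub_nonneg.2 (h.ya' 6 g)) (fun g => le_of_eq (by ring))
        intro g k hk hg
        obtain ⟨x, -, hx⟩ := hP s ι S.G (gp S.G g) _ k hI.ok.ok (fun a b ha hb => by
          by_contra h0
          exact ha (Finset.mem_filter.2 ⟨Finset.mem_univ _,
            ((hI.ok.ok.blk a b (Or.inl h0)).1).trans (Finset.mem_filter.1 hb).2⟩)) (hI.ph g) hk
          (fun a ha => by
            by_contra h0
            exact ha (Finset.mem_filter.2 ⟨Finset.mem_univ _, hg a h0⟩))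
        refine ⟨x, le_trans (Real.exp_le_exp.2 ?_) hx⟩
        have d1 : (Fintype.card ι : ℝ) ≤ P := hc.trans hD
        have d2 : (Fintype.card ι : ℝ) ^ 2 ≤ P ^ 2 := pow_le_pow_left₀ (Nat.cast_nonneg _) d1 2
        have d3 := h.tb htq 4 g
        have d4 := h.pw4 5 g
        have d5 := h.pw4 4 g
        have d6 := h.ya' 4 g
        have d7 := h.qa 3 g
        have d8 := h.p1
        have d9 := h.p2
        have d10 := h.nn 5 g
        norm_num at d3 d4 d5 d7
        show -(q ^ 6 * a g - Y - ((Fintype.card ι : ℝ) ^ 2 + 1)) ≤ _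
        linarith
      · have h1 := h.pw (show 6 ≤ 12 by norm_num) 0
        show q ^ 6 * a 0 - Y ≤ R
        linarith [h.aR]
    · unfold GT.Rg at hr
      rw [not_forall] at hr
      obtain ⟨g, hr⟩ := hr
      rw [Classical.not_imp] at hr
      obtain ⟨hg, hr⟩ := hr
      have e1 : Y + (q ^ 6 * a g - Y) = q ^ 6 * a g := by ring
      have e2 : Y + (q ^ 6 * a (g + 1) - Y) = q ^ 0 * a g := by
        rw [h.st g hg]; ring
      rw [e1, e2, not_and_or] at hr
      have n4 := h.nn 4
      have n7 := h.nn 7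
      have n10 := h.nn 10 0
      have b2 := h.qY g
      rcases hr with hr | hr
      · have t7 : 0 ≤ t * (q ^ 7 * a g) := mul_nonneg ht0 (n7 g)
        obtain ⟨S', hI', hp2⟩ := hA N A ι S _ _ _ _ _ (η / q) P (q ^ 2 * Y) (q ^ 2 * Y)
          (c * (q ^ 6 * a g)) g hI hSz hL1 (fun g' => (h.toR htq (by norm_num) g').trans h.RL)
          ((h.toR htq le_rfl 0).trans h.RL) hL0
          (by linarith [Real.add_one_le_exp (q ^ 2 * Y)]) (hca0 6 g) (hcR g)
          (by show 0 ≤ Y + t * (q ^ 7 * a g); linarith)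
          ((h.toR htq (by norm_num) g).trans h.RL) sm2 he2 sm3 hr
        have hl : P ^ c1 * (c * (q ^ 6 * a g) + (Y + t * (q ^ 7 * a g)) + q ^ 2 * Y) ≤
            q ^ 10 * a g := by
          have d1 := hca 6 g
          have d2 := h.pw (show 7 ≤ 8 by norm_num) g
          have d3 := h.ya' 8 g
          have d4 := h.tb htq 7 g
          have d5 := h.pw (show 2 ≤ 8 by norm_num) g
          have d6 := h.pw4 8 g
          have d7 := hca0 6 g
          norm_num at d1 d4 d6
          have d8 : c * (q ^ 6 * a g) + (Y + t * (q ^ 7 * a g)) + q ^ 2 * Y ≤ q ^ 9 * a g := by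
            linarith
          calc _ ≤ q * (q ^ 9 * a g) := mul_le_mul h.c1q d8 (by linarith) hq0.le
            _ = _ := by ring
        refine ih (t + 1) (by linarith) (by linarith) ι S' hc (by omega) (hI'.mono (fun g' => ?_)
          (fun g' => ?_) ?_ ?_ hbn)
        · simp only [lo]
          split_ifs with h1
          · have := h.lt h1 hg 4
            norm_num at this
            linarith
          · linarith [n4 g']
        · simp only [lo, at1]
          split_ifs with h1 h2 h2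
          · omega
          · have d1 := h.lt h1 hg 4
            have d2 := h.pw (show 4 ≤ 7 by norm_num) g'
            norm_num at d1
            linarith
          · subst h2
            have d1 := hca 6 g'
            norm_num at d1
            linarith
          · linarith [n7 g']
        · have d1 := h.qY 0
          have d2 := h.pw (show 2 ≤ 8 by norm_num) 0
          have d3 := h.pw4 8 0
          have d4 := h.pw4 9 0
          have d5 := h.qa 7 0
          norm_num at d3 d4 d5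
          linarith
        · have := h.a0 10 g
          linarith
      · have t4 : 0 ≤ t * (q ^ 4 * a g) := mul_nonneg ht0 (n4 g)
        have hc6 : 0 < c * (q ^ 6 * a g) :=
          mul_pos (by linarith [h.c0]) (lt_of_lt_of_le (by linarith) (h.ya' 6 g))
        obtain ⟨ι', i1, i2, S', hc', hI', hp2⟩ := hB s N A ι S _ _ _ _ _ (η / q) P (q ^ 2 * Y)
          (c * (q ^ 0 * a g) + q ^ 2 * Y) _ g hI hSz hx
          (by show 0 ≤ Y + t * (q ^ 4 * a g); linarith) hL0 (by linarith [hca0 0 g]) he0 sm3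
          (le_min (Real.exp_le_exp.2 (by linarith)) (by
            refine le_trans (Real.exp_le_exp.2 (show _ ≤ -(q ^ 2 * Y) by linarith [hca0 0 g])) ?_
            rw [Real.exp_neg]
            exact inv_anti₀ hc6 (hcR g))) hr
        have hl1 : Y + t * (q ^ 4 * a g) + P + 5 ≤ q ^ 6 * a g := by
          have d1 := h.tb htq 4 g
          have d2 := h.ya' 5 g
          have d3 := h.qa 4 g
          have d4 := h.pw4 5 g
          have d5 := h.p1
          have d6 := h.nn 5 g
          norm_num at d1 d3 d4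
          linarith
        have hl2 : c * (q ^ 0 * a g) + q ^ 2 * Y + P ^ 2 ≤ q ^ 4 * a g := by
          have d1 := hca 0 g
          have d2 := h.pw (show 0 + 1 ≤ 2 by norm_num) g
          have d3 := h.qa 1 g
          have d4 := h.pw4 2 g
          have d5 := h.p2
          have d6 := h.nn 2 g
          have d7 := h.pw (show 2 + 1 ≤ 4 by norm_num) g
          have d8 : q ^ (1 + 1) * a g = q ^ 2 * a g := rfl
          linarith
        have hc2 : (Fintype.card ι' : ℝ) ≤ D := le_trans (by exact_mod_cast hc') hc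
        have d6 : q ^ 6 * a g ≤ q ^ 8 * a 0 :=
          (h.pw (show 6 ≤ 8 by norm_num) g).trans (h.a0 8 g)
        have d4 : q ^ 4 * a g ≤ q ^ 8 * a 0 :=
          (h.pw (show 4 ≤ 8 by norm_num) g).trans (h.a0 8 g)
        have d2 : q ^ 2 * a g ≤ q ^ 8 * a 0 :=
          (h.pw (show 2 ≤ 8 by norm_num) g).trans (h.a0 8 g)
        have d8 := h.pw4 8 0
        have d9 := h.pw (show 8 + 1 ≤ 10 by norm_num) 0
        have d10 := h.ya' 8 0
        refine ih (t + 1) (by linarith) (by linarith) ι' S' hc2 (by omega) (hI'.mono (fun g' => ?_)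
          (fun g' => ?_) ?_ ?_ hbn)
        · simp only [lo, at1]
          split_ifs with h1 h2 h2
          · omega
          · have f1 := h.lt h1 hg 0
            have f2 := h.pw (show 0 ≤ 4 by norm_num) g'
            have f3 : q ^ (0 + 6) * a g = q ^ 6 * a g := rfl
            linarith
          · subst h2
            linarith
          · linarith [n4 g']
        · simp only [lo]
          split_ifs with h1
          · have f1 := h.lt h1 hg 0
            have f2 := h.pw (show 0 ≤ 7 by norm_num) g'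
            have f3 : q ^ (0 + 6) * a g = q ^ 6 * a g := rfl
            linarith
          · linarith [n7 g']
        · linarith
        · linarith

theorem reg (hH : HRM) (hA : RA) (hB : RB) (hP : PHI) : REG := by
  intro s c
  obtain ⟨c1, hA⟩ := hA s
  refine ⟨(c + c1 + 8 * s + 20) * (6 * s + 12), ?_⟩
  intro N A D P Y b η hD hP2 hY hb hη hη2 hH0
  obtain ⟨ι, i1, i2, S, hc, hI⟩ := hH0
  set q : ℝ := P ^ (c + c1 + 8 * s + 20) with hq
  have hq4 : P ^ 4 ≤ q := pw_le hP2 (by omega)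
  have hP4 : P + 14 ≤ P ^ 4 := by
    have h1 : 4 ≤ P ^ 2 := by nlinarith
    have h2 : 2 * P ≤ P ^ 2 := by nlinarith
    nlinarith
  have hq1 : 1 ≤ q := by linarith
  have hN : Nm s P Y q (P ^ c) (P ^ c1) (q ^ (6 * s + 12) * Y) fun g => q ^ (6 * (s - g)) * Y := {
    P2 := hP2
    Y1 := hY
    q4 := by linarith
    cq := pw_le hP2 (by omega)
    c0 := one_le_pw hP2 c
    c1q := pw_le hP2 (by omega)
    c10 := (pw_pos hP2 c1).le
    p1 := by linarith
    p2 := pw_le hP2 (by omega)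
    ya := fun g => le_mul_of_one_le_left (by linarith) (one_le_pow₀ hq1)
    an := fun g g' hg => mul_le_mul_of_nonneg_right (pow_le_pow_right₀ hq1 (by omega)) (by linarith)
    st := fun g hg => by
      rw [← mul_assoc, ← pow_add, show 6 + 6 * (s - (g + 1)) = 6 * (s - g) by omega]
    aR := le_of_eq (by
      rw [← mul_assoc, ← pow_add, show 12 + 6 * (s - 0) = 6 * s + 12 by omega])
    RL := by
      have h1 : ((6 * s + 13 : ℕ) : ℝ) ≤ q := (nat_le_pw hP2 _).trans (pw_le hP2 (by omega))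
      have h2 : q ≤ Real.exp q := by linarith [Real.add_one_le_exp q]
      have h3 : Y ≤ Real.exp Y := by linarith [Real.add_one_le_exp Y]
      have h4 : q ^ (6 * s + 12) ≤ Real.exp q ^ (6 * s + 12) :=
        pow_le_pow_left₀ (by linarith) h2 _
      refine (mul_le_mul h4 h3 (by linarith) (by positivity)).trans ?_
      rw [← Real.exp_nat_mul, ← Real.exp_add, Real.exp_le_exp]
      push_cast at h1 ⊢
      have h5 : (0 : ℝ) ≤ s := Nat.cast_nonneg s
      have h6 : (6 * (s : ℝ) + 13) * (q * Y) ≤ q * (q * Y) :=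
        mul_le_mul_of_nonneg_right h1 (by positivity)
      have h7 : q ≤ q * Y := le_mul_of_one_le_right (by linarith) hY
      have h8 : Y ≤ q * Y := le_mul_of_one_le_left (by linarith) hq1
      have h9 : (6 * (s : ℝ) + 12) * q ≤ (6 * (s : ℝ) + 12) * (q * Y) :=
        mul_le_mul_of_nonneg_left h7 (by linarith)
      nlinarith }
  have hpot : ((S.pot + 1 : ℕ) : ℝ) ≤ q := by
    have h1 : ∑ a, S.G.w a ≤ Fintype.card ι * s := by
      rw [← Finset.card_univ, ← smul_eq_mul]
      exact Finset.sum_le_card_nsmul _ _ _ fun a _ => hI.ok.ok.ws a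
    have h2 : (S.G.exᶜ).card ≤ Fintype.card ι := Finset.card_le_univ _
    have h3 : S.pot ≤ (2 * s + 1) * Fintype.card ι := by
      unfold St.pot
      nlinarith
    have h4 : (S.pot : ℝ) ≤ (2 * s + 1) * Fintype.card ι := by exact_mod_cast h3
    have h5 : ((2 * s + 2 : ℕ) : ℝ) ≤ P ^ (2 * s + 2) := nat_le_pw hP2 _
    have h6 : P ^ (2 * s + 2 + 1) ≤ q := pw_le hP2 (by omega)
    have h7 : (0 : ℝ) ≤ s := Nat.cast_nonneg s
    have h8 : (2 * (s : ℝ) + 1) * Fintype.card ι ≤ (2 * s + 1) * P :=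
      mul_le_mul_of_nonneg_left (hc.trans hD) (by linarith)
    push_cast at h5 ⊢
    have h9 : (2 * (s : ℝ) + 2) * P ≤ P ^ (2 * s + 2) * P :=
      mul_le_mul_of_nonneg_right h5 (by linarith)
    rw [pow_succ] at h6
    nlinarith
  have := core hH hB hP hN hD hA hb hη hη2 (S.pot + 1) 0 le_rfl (by rw [zero_add]; exact hpot) ι S
    hc (Nat.lt_succ_self _) (hI.mono (fun g => by simp) (fun g => by simp) (by simp) (by simp)
      (by simp))
  rw [pow_mul]
  exact this

end

end Vale.Agent.P057T.Rg.H98
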