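import Vale.Agent.P057T.Rg.Br
import Vale.Agent.P057T.Rg.Dem
import Vale.Agent.P057T.Rg.Dil
import Vale.Agent.P057T.Rg.DvpH29
import Vale.Agent.P057T.Rg.Fix
import Vale.Agent.P057T.Rg.Hrm
import Vale.Agent.P057T.Rg.Pert
import Vale.Agent.P057T.Rg.Reco
import Vale.Agent.P057T.Rg.RegH98
import Vale.Agent.P057T.Rg.Rel
import Vale.Agent.P057T.Rg.Roto
import Vale.Agent.P057T.Rg.Shear
import Vale.Agent.P057T.Rg.Shr
import Vale.Agent.P057T.Rg.Sli
import Vale.Agent.P057T.Rg.Uni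
import Vale.Agent.P057T.Eq.Bdw
import Vale.Agent.P057T.Eq.Det
import Vale.Agent.P057T.Cp.Cell
import Vale.Agent.P057T.Cp.Rca

/-! Regularisation of hosts, closed. -/

namespace Vale.Agent.P057T.Rg.All

open Vale.Agent.P057T.Eq

theorem cellc : Cp.CELL := Cp.cell det0 summ Cp.rca

theorem relc : REL := rel bd0 uni reco roto phi

theorem rac : RA := ra2 relc (shr2 br0 cellc Cp.rca) (pert br0 tailw0 phi) (dil br0) (shear H29.dvp)

theorem rbc : RB := rb1 phi roto (dem H29.dvp) (sli br0 H29.dvp)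

theorem regc : REG := H98.reg (hrm reco) rac rbc phi

end Vale.Agent.P057T.Rg.All
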