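import Vale.Agent.P057T.Rg.Defs2
import Vale.Agent.P057T.Rg.Br
import Vale.Agent.P057T.Rg.Dem
import Vale.Agent.P057T.Rg.Dil
import Vale.Agent.P057T.Rg.Sli0

/-! New coordinates. -/

set_option linter.all false

open MvPolynomial Finset
open scoped Real

namespace Vale.Agent.P057T.Rg

open Vale.Agent.P057T.Eq Vale.Agent.P057T.Eq.Derok

noncomputable section

namespace AdA

lemma hs_mul {α β : Type} {f : α → ℝ} {g : β → ℝ} {a b : ℝ} (f0 : ∀ x, 0 ≤ f x) (g0 : ∀ x, 0 ≤ g x)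
    (hf : HasSum f a) (hg : HasSum g b) : HasSum (fun p : α × β => f p.1 * g p.2) (a * b) :=
  hf.mul hg (Summable.mul_of_nonneg hf.summable hg.summable f0 g0)

lemma hs_fin : ∀ (n : ℕ) (θ : Fin n → ℤ → ℝ), (∀ i j, 0 ≤ θ i j) → (∀ i, Summable (θ i)) →
    HasSum (fun x : Fin n → ℤ => ∏ i, θ i (x i)) (∏ i, ∑' j, θ i j) := by
  intro n
  induction n with
  | zero =>
    intro θ _ _
    simpa using hasSum_unique (fun _ : Fin 0 → ℤ => (1 : ℝ))
  | succ n ih =>
    intro θ h0 hs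
    have h1 := ih (fun i => θ i.succ) (fun i => h0 _) fun i => hs _
    have h2 := hs_mul (h0 0) (fun x => Finset.prod_nonneg fun i _ => h0 _ _) (hs 0).hasSum h1
    rw [Fin.prod_univ_succ, ← (Fin.consEquiv fun _ => ℤ).hasSum_iff]
    convert h2 using 1
    funext p
    simp [Fin.prod_univ_succ, Fin.consEquiv]

lemma hs_pi {κ : Type} [Fintype κ] (θ : κ → ℤ → ℝ) (h0 : ∀ i j, 0 ≤ θ i j)
    (hs : ∀ i, Summable (θ i)) :
    HasSum (fun x : κ → ℤ => ∏ i, θ i (x i)) (∏ i, ∑' j, θ i j) := by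
  let e := (Fintype.equivFin κ).symm
  have h := hs_fin _ (fun i => θ (e i)) (fun i => h0 _) fun i => hs _
  rw [← e.prod_comp, ← (Equiv.arrowCongr e (Equiv.refl ℤ)).hasSum_iff]
  convert h using 1
  funext x
  rw [Function.comp_apply, ← e.prod_comp]
  simp

variable {ι κ : Type} [Fintype ι] [DecidableEq ι] [Fintype κ] [DecidableEq κ] {s : ℕ}

lemma fib (F : (ι → ℤ) → ℝ) (θ : (ι → ℤ) → κ → ℤ → ℝ) (K : κ → ℝ) (F0 : ∀ z, 0 ≤ F z)
    (hF : Summable F) (h0 : ∀ z a y, 0 ≤ θ z a y) (hK : ∀ z a (E : Finset ℤ), ∑ y ∈ E, θ z a y ≤ K a) :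
    HasSum (fun x : ι ⊕ κ → ℤ => F (x ∘ Sum.inl) * ∏ a, θ (x ∘ Sum.inl) a (x (Sum.inr a)))
      (∑' z, F z * ∏ a, ∑' y, θ z a y) ∧
    ∑' z, F z * ∏ a, ∑' y, θ z a y ≤ (∑' z, F z) * ∏ a, K a := by
  have hs : ∀ z a, Summable (θ z a) := fun z a => summable_of_sum_le (h0 z a) (hK z a)
  have h1 : ∀ z, HasSum (fun y : κ → ℤ => F z * ∏ a, θ z a (y a)) (F z * ∏ a, ∑' y, θ z a y) :=
    fun z => (hs_pi _ (h0 z) (hs z)).mul_left _
  have h2 : ∀ z, F z * ∏ a, ∑' y, θ z a y ≤ F z * ∏ a, K a := fun z =>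
    mul_le_mul_of_nonneg_left (Finset.prod_le_prod (fun a _ => tsum_nonneg (h0 z a))
      fun a _ => (hs z a).tsum_le_of_sum_le (hK z a)) (F0 z)
  have h3 : Summable fun z => F z * ∏ a, ∑' y, θ z a y :=
    Summable.of_nonneg_of_le (fun z => mul_nonneg (F0 z)
      (Finset.prod_nonneg fun a _ => tsum_nonneg (h0 z a))) h2 (hF.mul_right _)
  have h4 : Summable fun p : (ι → ℤ) × (κ → ℤ) => F p.1 * ∏ a, θ p.1 a (p.2 a) :=
    (summable_prod_of_nonneg fun p => mul_nonneg (F0 _)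
      (Finset.prod_nonneg fun a _ => h0 _ _ _)).2
      ⟨fun z => (h1 z).summable, h3.congr fun z => (h1 z).tsum_eq.symm⟩
  refine ⟨?_, (h3.tsum_le_tsum h2 (hF.mul_right _)).trans tsum_mul_right.le⟩
  have h5 := h4.hasSum
  rw [h4.tsum_prod, tsum_congr fun z => (h1 z).tsum_eq] at h5
  exact (Equiv.sumArrowEquivProdArrow ι κ ℤ).hasSum_iff.2 h5

def rn (κ : Type) : MvPolynomial ι ℝ →ₐ[ℝ] MvPolynomial (ι ⊕ κ) ℝ := aeval fun a => X (Sum.inl a)

lemma rn_X (a : ι) : rn κ (X a) = X (Sum.inl a) := aeval_X _ _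

lemma rn_C (r : ℝ) : rn κ (C r : MvPolynomial ι ℝ) = C r := algHom_C _ _

lemma eval_rn (x : ι ⊕ κ → ℤ) (F : MvPolynomial ι ℝ) :
    eval (cz x) (rn κ F) = eval (cz (x ∘ Sum.inl)) F := by
  induction F using MvPolynomial.induction_on with
  | C a => simp [rn]
  | add p q hp hq => rw [map_add, map_add, map_add, hp, hq]
  | mul_X p b hp =>
    rw [map_mul, map_mul, map_mul, hp]
    simp [cz, rn]

lemma rn_hom {w : ι → ℕ} (d : κ → ℕ) {F : MvPolynomial ι ℝ} {e : ℕ}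
    (h : IsWeightedHomogeneous w F e) : IsWeightedHomogeneous (Sum.elim w d) (rn κ F) e :=
  Chart.hom_aeval h fun i => isWeightedHomogeneous_X ℝ (Sum.elim w d) (Sum.inl i)

lemma rn_dz {w : ι → ℕ} (d : κ → ℕ) {F : MvPolynomial ι ℝ} {k : ℤ} (h : DZ w k F) :
    DZ (Sum.elim w d) k (rn κ F) := by
  rw [F.as_sum, map_sum]
  exact dz_sum _ _ fun m hm =>
    (dz_hom (rn_hom d (isWeightedHomogeneous_monomial w m _ rfl))).mono (h m hm)

variable (S : St ι) (ρ : ℝ) (d : κ → ℕ) (Q : κ → MvPolynomial ι ℝ)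

def lam : Matrix κ ι ℝ := fun k c => if S.G.w c = d k then coeff (Finsupp.single c 1) (Q k) else 0

def tp (k : κ) : MvPolynomial ι ℝ := weightedHomogeneousComponent S.G.w (d k) (Q k)

def aG : GT (ι ⊕ κ) where
  g := Sum.elim S.G.g fun k => d k - 1
  w := Sum.elim S.G.w d
  A := Matrix.fromBlocks S.G.A 0 (-(ρ⁻¹ • lam S d Q)) (ρ⁻¹ • 1)
  B := Matrix.fromBlocks S.G.B 0 (lam S d Q * S.G.B) (ρ • 1)
  q := Sum.elim (fun a => rn κ (S.G.q a))
    fun k => rn κ (tp S d Q k - ∑ c, C (lam S d Q k c) * (X c - S.G.q c))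
  ex := ∅

def aS : St (ι ⊕ κ) where
  G := aG S ρ d Q
  p := Sum.elim (fun a => rn κ (S.p a)) fun k => C (-ρ⁻¹) * rn κ (Q k - tp S d Q k)
  pi := rn κ S.pi

lemma lam_w {k : κ} {c : ι} (h : lam S d Q k c ≠ 0) : S.G.w c = d k := by
  by_contra k
  exact h (if_neg k)

lemma ch_l (a : ι) : (aS S ρ d Q).ch (.inl a) = rn κ (S.ch a) := by
  unfold St.ch GT.th
  rw [map_add, map_sum, Fintype.sum_sum_type]
  simp [aS, aG, rn_X, rn_C]

lemma ch_r (k : κ) : (aS S ρ d Q).ch (.inr k) = C ρ⁻¹ * (X (.inr k) - rn κ (Q k)) := by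
  unfold St.ch GT.th
  rw [Fintype.sum_sum_type, Finset.sum_eq_single k
    (fun k' _ h => by simp [aS, aG, Matrix.one_apply, h.symm]) fun h => absurd (mem_univ _) h]
  simp only [aS, aG, Sum.elim_inl, Sum.elim_inr, Matrix.fromBlocks_apply₂₁,
    Matrix.fromBlocks_apply₂₂, Matrix.neg_apply, Matrix.smul_apply, Matrix.one_apply_eq,
    smul_eq_mul, mul_one, map_sub, map_sum, map_mul, rn_X, rn_C, map_neg, neg_mul, mul_assoc,
    Finset.sum_neg_distrib, ← Finset.mul_sum]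
  ring

lemma dv_aG (hρ : 0 < ρ) (V' : Finset (ι ⊕ κ)) (V : Finset ι) (W : Finset κ)
    (h1 : ∀ a, .inl a ∈ V' ↔ a ∈ V) (h2 : ∀ k, .inr k ∈ V' ↔ k ∈ W) :
    (aG S ρ d Q).dv V' = S.G.dv V * ρ ^ W.card := by
  let e : V ⊕ W ≃ V' :=
    { toFun := Sum.elim (fun a => ⟨.inl a, (h1 _).2 a.2⟩) fun k => ⟨.inr k, (h2 _).2 k.2⟩
      invFun := fun x => match x with
        | ⟨.inl a, h⟩ => .inl ⟨a, (h1 a).1 h⟩
        | ⟨.inr k, h⟩ => .inr ⟨k, (h2 k).1 h⟩
      left_inv := by rintro (a | a) <;> rfl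
      right_inv := by rintro ⟨a | a, h⟩ <;> rfl }
  have e1 : ((aG S ρ d Q).B.submatrix (Subtype.val : V' → _) (Subtype.val : V' → _)).submatrix e e =
      Matrix.fromBlocks (S.G.B.submatrix (Subtype.val : V → ι) (Subtype.val : V → ι)) 0
        ((lam S d Q * S.G.B).submatrix (Subtype.val : W → κ) (Subtype.val : V → ι)) (ρ • 1) := by
    ext (a | a) (b | b)
    · rfl
    · rfl
    · rfl
    · show ρ * (1 : Matrix κ κ ℝ) a b = ρ * (1 : Matrix W W ℝ) a b
      simp only [Matrix.one_apply, Subtype.ext_iff]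
  unfold GT.dv
  rw [← Matrix.det_submatrix_equiv_self e, e1, Matrix.det_fromBlocks_zero₁₂, Matrix.det_smul,
    Matrix.det_one, mul_one, Fintype.card_coe, abs_mul, abs_of_pos (pow_pos hρ _)]

lemma gq_aG (x : ι ⊕ κ → ℤ) : Poi.gq (aG S ρ d Q).A (cz x) = Poi.gq S.G.A (cz (x ∘ Sum.inl)) *
    ∏ k, Real.exp (-π * (ρ⁻¹ * x (.inr k) +
      (-(ρ⁻¹ • lam S d Q)).mulVec (cz (x ∘ Sum.inl)) k) ^ 2) := by
  unfold Poi.gq P267.H775.qf
  rw [← Real.exp_sum, ← Real.exp_add, ← Finset.mul_sum, ← mul_add, Fintype.sum_sum_type]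
  have e : cz x = Sum.elim (cz (x ∘ Sum.inl)) (cz (x ∘ Sum.inr)) := by
    funext a
    rcases a with a | a <;> rfl
  have e1 : (aG S ρ d Q).A.mulVec (cz x) = Sum.elim (S.G.A.mulVec (cz (x ∘ Sum.inl)))
      fun k => ρ⁻¹ * x (.inr k) + (-(ρ⁻¹ • lam S d Q)).mulVec (cz (x ∘ Sum.inl)) k := by
    rw [e]
    show (Matrix.fromBlocks _ _ _ _).mulVec _ = _
    rw [Matrix.fromBlocks_mulVec, Matrix.zero_mulVec, add_zero, Matrix.smul_mulVec,
      Matrix.one_mulVec]
    congr 1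
    funext k
    exact add_comm _ _
  rw [e1]
  rfl

variable {S ρ d Q}

lemma tk_aG (hG : S.G.Ok s) (hρ : 0 < ρ) {T' : Set (ι ⊕ κ → ℤ)} {T : Set (ι → ℤ)} (W : Finset κ)
    (h : ∀ x ∈ T', x ∘ Sum.inl ∈ T ∧ ∀ k, k ∉ W → x (.inr k) = 0) :
    tk (aG S ρ d Q) T' ≤ tk S.G T * (1 + ρ) ^ W.card := by
  have hdet : S.G.A.det ≠ 0 := by
    have := congrArg Matrix.det hG.AB
    rw [Matrix.det_mul, Matrix.det_one] at this
    exact left_ne_zero_of_mul_eq_one this
  have hs : Summable fun z : ι → ℤ => Poi.gq S.G.A (cz z) :=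
    (Poi.summable_gq hdet 0).congr fun z => by rw [zero_add]; rfl
  have hnn : ∀ z, 0 ≤ T.indicator (fun z => Poi.gq S.G.A (cz z)) z :=
    Set.indicator_nonneg fun z _ => (Poi.gq_pos _ _).le
  let θ : (ι → ℤ) → κ → ℤ → ℝ := fun z k y => if k ∈ W then
    Real.exp (-π * (ρ⁻¹ * y + (-(ρ⁻¹ • lam S d Q)).mulVec (cz z) k) ^ 2) else if y = 0 then 1 else 0
  have h0 : ∀ z k y, 0 ≤ θ z k y := fun z k y => by
    simp only [θ]
    split_ifs
    exacts [(Real.exp_pos _).le, zero_le_one, le_rfl]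
  obtain ⟨h1, h2⟩ := fib _ θ (fun k => if k ∈ W then 1 + ρ else 1) hnn (hs.indicator T) h0
    (fun z k E => by
      by_cases hk : k ∈ W
      · simp only [θ, if_pos hk]
        exact SlA.th1 hρ _ E
      · simp only [θ, if_neg hk, Finset.sum_ite_eq']
        split_ifs
        exacts [le_rfl, zero_le_one])
  rw [Finset.prod_ite_mem, univ_inter, prod_const] at h2
  have hle : ∀ x, T'.indicator (fun z => Poi.gq (aG S ρ d Q).A (cz z)) x ≤
      T.indicator (fun z => Poi.gq S.G.A (cz z)) (x ∘ Sum.inl) *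
        ∏ k, θ (x ∘ Sum.inl) k (x (.inr k)) := by
    intro x
    by_cases hx : x ∈ T'
    · rw [Set.indicator_of_mem hx, Set.indicator_of_mem (h x hx).1, gq_aG]
      refine mul_le_mul_of_nonneg_left (Finset.prod_le_prod (fun _ _ => (Real.exp_pos _).le)
        fun k _ => ?_) (Poi.gq_pos _ _).le
      by_cases hk : k ∈ W
      · simp only [θ, if_pos hk]
        exact le_rfl
      · simp only [θ, if_neg hk, if_pos ((h x hx).2 k hk)]
        exact Real.exp_le_one_iff.2 (mul_nonpos_of_nonpos_of_nonneg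
          (neg_nonpos.2 Real.pi_pos.le) (sq_nonneg _))
    · rw [Set.indicator_of_notMem hx]
      exact mul_nonneg (hnn _) (Finset.prod_nonneg fun k _ => h0 _ _ _)
  refine le_trans (Summable.tsum_le_tsum hle (Summable.of_nonneg_of_le
    (Set.indicator_nonneg fun z _ => (Poi.gq_pos _ _).le) hle h1.summable) h1.summable) ?_
  exact h1.tsum_eq.le.trans h2

lemma ok_aS (hS : S.Ok s) (hρ : 0 < ρ) (hd : ∀ a, 1 ≤ d a ∧ d a ≤ s)
    (hQ : ∀ a, S.G.Dl (d a + 1) (Q a)) : (aS S ρ d Q).Ok s := by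
  have hG := hS.ok
  have lv : ∀ a, (aG S ρ d Q).g a + 1 = (aG S ρ d Q).w a := by
    rintro (a | k)
    · exact hS.lv a
    · exact Nat.sub_add_cancel (hd k).1
  have hw : ∀ a b, ((aG S ρ d Q).A a b ≠ 0 ∨ (aG S ρ d Q).B a b ≠ 0) →
      (aG S ρ d Q).w a = (aG S ρ d Q).w b := by
    rintro (a | k) (b | k') h
    · exact (hG.blk a b h).2
    · exact absurd h (by simp [aG])
    · rcases h with h | h
      · exact (lam_w S d Q (right_ne_zero_of_mul (neg_ne_zero.1 h))).symm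
      · obtain ⟨c, -, hc⟩ := Finset.exists_ne_zero_of_sum_ne_zero h
        exact (lam_w S d Q (left_ne_zero_of_mul hc)).symm.trans
          (hG.blk c b (Or.inr (right_ne_zero_of_mul hc))).2
    · by_cases e : k = k'
      · rw [e]
      · exact absurd h (by simp [aG, Matrix.one_apply, e])
  have hsum : ∀ (k : κ) (f : ι → MvPolynomial ι ℝ), (∀ c, S.G.Hm (S.G.w c) (f c)) →
      S.G.Hm (d k) (∑ c, C (lam S d Q k c) * f c) := fun k f hf =>
    IsWeightedHomogeneous.sum _ _ _ fun c _ => by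
      by_cases hc : lam S d Q k c = 0
      · rw [hc, C_0, zero_mul]
        exact isWeightedHomogeneous_zero _ _ _
      · exact Cfg.DilA.hom_Cmul _ (lam_w S d Q hc ▸ hf c)
  have hsub : ∀ {e : ℕ} {F F' : MvPolynomial ι ℝ}, S.G.Hm e F → S.G.Hm e F' → S.G.Hm e (F - F') :=
    fun h h' => (weightedHomogeneousSubmodule ℝ S.G.w _).sub_mem h h'
  have htp : ∀ k, S.G.Hm (d k) (tp S d Q k) := fun k =>
    weightedHomogeneousComponent_isWeightedHomogeneous _ _
  refine ⟨⟨?_, ?_, ?_, ?_, fun a b h => ⟨?_, hw a b h⟩, ?_, ?_, fun a h => absurd h (notMem_empty _)⟩,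
    lv, ?_, fun a h => absurd h (notMem_empty _),
    L1.IsInt.aeval hS.pz fun a => L1.isInt_X _,
    (dl_iff _ _ _).2 (rn_dz d ((dl_iff S.G _ _).1 hS.p1))⟩
  · rintro (a | k)
    exacts [hG.w1 a, (hd k).1]
  · rintro (a | k)
    exacts [hG.ws a, (hd k).2]
  · rintro (a | k)
    · exact hG.gs a
    · have := hd k
      show d k - 1 < s
      omega
  · show Matrix.fromBlocks _ _ _ _ * Matrix.fromBlocks _ _ _ _ = _
    rw [Matrix.fromBlocks_multiply, ← Matrix.fromBlocks_one]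
    simp [hG.AB, smul_smul, hρ.ne']
  · have h1 := hw a b h
    have h2 := lv a
    have h3 := lv b
    show (aG S ρ d Q).g a = (aG S ρ d Q).g b
    omega
  · rintro (a | k)
    · exact rn_hom d (hG.qh a)
    · exact rn_hom d (hsub (htp k) (hsum k _ fun c =>
        hsub (isWeightedHomogeneous_X ℝ _ c) (hG.qh c)))
  · rintro (a | k)
    · exact Chart.vars_aeval fun i hi => Chart.vars_X' (hG.ql a i hi)
    · refine Chart.vars_aeval fun i hi => Chart.vars_X' ?_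
      show S.G.g i < d k - 1
      have e : tp S d Q k - ∑ c, C (lam S d Q k c) * (X c - S.G.q c) =
          (tp S d Q k - ∑ c, C (lam S d Q k c) * X c) + ∑ c, C (lam S d Q k c) * S.G.q c := by
        simp only [mul_sub, Finset.sum_sub_distrib]
        ring
      rw [e] at hi
      refine Chart.vars_add' (P := fun i => S.G.g i < d k - 1) (fun b hb => ?_)
        (Chart.vars_sum' fun c _ => ?_) i hi
      · by_contra hn
        have h1 := hS.lv b
        obtain ⟨m, hm, hb'⟩ := (mem_vars_iff_mem_support b).1 hb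
        have h2 := hsub (htp k) (hsum k _ fun c => isWeightedHomogeneous_X ℝ _ c)
          (mem_support_iff.1 hm)
        obtain rfl := Dem.single_of hG.w1 (Finsupp.mem_support_iff.1 hb') (by omega)
        have h3 : S.G.w b = d k := by simpa [Finsupp.weight_single] using h2
        refine mem_support_iff.1 hm ?_
        rw [coeff_sub, tp, coeff_weightedHomogeneousComponent, if_pos h2, coeff_sum,
          Finset.sum_eq_single b (fun c _ hc => by
            rw [coeff_C_mul, coeff_X, if_neg fun h => hc (Finsupp.single_left_injective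
              one_ne_zero h), mul_zero]) fun h => absurd (mem_univ _) h,
          coeff_C_mul, coeff_X, if_pos rfl, mul_one, lam, if_pos h3, sub_self]
      · by_cases hc : lam S d Q k c = 0
        · rw [hc, C_0, zero_mul]
          simp
        · refine Chart.vars_mul' (Chart.vars_C' _) fun b hb => ?_
          have h1 := hG.ql c b hb
          have h2 := hS.lv c
          have h3 := lam_w S d Q hc
          omega
  · rintro (a | k)
    · exact (dl_iff _ _ _).2 (rn_dz d ((dl_iff S.G _ _).1 (hS.pd a)))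
    · refine (dl_iff _ _ _).2 ((rn_dz d (dz_sub_whc ?_)).cmul _)
      exact ((dl_iff S.G _ _).1 (hQ k)).mono (k' := (d k : ℤ)) (by push_cast; omega)

lemma wt_aS (x : ι ⊕ κ → ℤ) : (aS S ρ d Q).wt x = S.wt (x ∘ Sum.inl) *
    ∏ k, Real.exp (-π * (((x (.inr k) : ℝ) - eval (cz (x ∘ Sum.inl)) (Q k)) / ρ) ^ 2) := by
  unfold St.wt St.sq
  rw [← Real.exp_sum, ← Real.exp_add, ← Finset.mul_sum, ← mul_add, Fintype.sum_sum_type]
  simp only [ch_l, ch_r, map_mul, map_sub, eval_C, eval_X, eval_rn, div_eq_inv_mul]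
  rfl

lemma ind_aS (A : Finset ℤ) (x : ι ⊕ κ → ℤ) : (aS S ρ d Q).ind A x = S.ind A (x ∘ Sum.inl) := by
  unfold St.ind
  have : eval (cz x) (aS S ρ d Q).pi = eval (cz (x ∘ Sum.inl)) S.pi := eval_rn _ _
  rw [this]

end AdA

open AdA in
theorem add0 : ADD := by
  intro s N A ι κ _ _ _ _ S R γ γ' b b' ρ l d Q hI hd hQ hρ hl hm hb
  have hsum := (br0 s ι S hI.ok).2.1
  have hK : ∀ (z : ι → ℤ) (a : κ) (E : Finset ℤ),
      ∑ y ∈ E, Real.exp (-π * (((y : ℝ) - eval (cz z) (Q a)) / ρ) ^ 2) ≤ 1 + ρ := fun z a E => by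
    refine le_trans (le_of_eq (Finset.sum_congr rfl fun y _ => ?_))
      (SlA.th1 hρ (-(ρ⁻¹ * eval (cz z) (Q a))) E)
    rw [div_eq_inv_mul, mul_sub, sub_eq_add_neg]
  have e1 : (aS S ρ d Q).ms = ∑' z : ι → ℤ, S.wt z * ∏ a, pw ρ (eval (cz z) (Q a)) := by
    unfold St.ms
    simp only [wt_aS]
    exact (fib S.wt _ (fun _ => 1 + ρ) (fun _ => (Real.exp_pos _).le) hsum
      (fun _ _ _ => (Real.exp_pos _).le) hK).1.tsum_eq
  have e2 : (aS S ρ d Q).hit A =
      ∑' z : ι → ℤ, S.wt z * (∏ a, pw ρ (eval (cz z) (Q a))) * S.ind A z := by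
    unfold St.hit
    simp only [wt_aS, ind_aS, mul_right_comm _ _ (S.ind A _)]
    exact (fib (fun z => S.wt z * S.ind A z) _ (fun _ => 1 + ρ)
      (fun z => mul_nonneg (Real.exp_pos _).le (DlA.ind_01 S A z).1)
      (Summable.of_nonneg_of_le (fun z => mul_nonneg (Real.exp_pos _).le (DlA.ind_01 S A z).1)
        (fun z => mul_le_of_le_one_right (Real.exp_pos _).le (DlA.ind_01 S A z).2) hsum)
      (fun _ _ _ => (Real.exp_pos _).le) hK).1.tsum_eq
  have hE : 1 ≤ Real.exp l := le_trans (le_add_of_nonneg_right (inv_pos.2 hρ).le) hl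
  let W : ℕ → Finset κ := fun g => univ.filter fun k => d k - 1 = g
  have g1 : ∀ g a, Sum.inl a ∈ gp (aG S ρ d Q) g ↔ a ∈ gp S.G g := fun g a => by simp [gp, aG]
  have g2 : ∀ g k, Sum.inr k ∈ gp (aG S ρ d Q) g ↔ k ∈ W g := fun g a => by simp [gp, aG, W]
  have lat : ∀ g, ∀ x ∈ Lat (gp (aG S ρ d Q) g),
      x ∘ Sum.inl ∈ Lat (gp S.G g) ∧ ∀ k, k ∉ W g → x (.inr k) = 0 := fun g x hx =>
    ⟨fun a ha => hx _ fun c => ha ((g1 g a).1 c), fun k hk => hx _ fun c => hk ((g2 g k).1 c)⟩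
  have key : ∀ (g : ℕ) (u : ℝ), u ≤ Real.exp R * S.G.dv (gp S.G g) → u * (1 + ρ) ^ (W g).card ≤
      Real.exp (R + Fintype.card κ * l) * (aG S ρ d Q).dv (gp (aG S ρ d Q) g) := by
    intro g u hu
    rw [dv_aG S ρ d Q hρ _ _ _ (g1 g) (g2 g), Real.exp_add, mul_mul_mul_comm]
    refine mul_le_mul hu ?_ (by positivity) (mul_nonneg (Real.exp_pos _).le (dv_nonneg _ _))
    have h1 : 1 + ρ ≤ Real.exp l * ρ := by
      have := mul_le_mul_of_nonneg_right hl hρ.le
      rwa [add_mul, inv_mul_cancel₀ hρ.ne', one_mul, add_comm] at this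
    refine (pow_le_pow_left₀ (by positivity) h1 _).trans ?_
    rw [mul_pow, Real.exp_nat_mul]
    exact mul_le_mul_of_nonneg_right (pow_le_pow_right₀ hE (card_le_univ _)) (by positivity)
  have ph : ∀ g, tk (aG S ρ d Q) (Lat (gp (aG S ρ d Q) g)) ≤
      Real.exp (R + Fintype.card κ * l) * (aG S ρ d Q).dv (gp (aG S ρ d Q) g) := fun g =>
    (tk_aG hI.ok.ok hρ (W g) (lat g)).trans (key g _ (hI.ph g))
  refine ⟨aS S ρ d Q, ok_aS hI.ok hρ hd hQ, ph, fun g => ?_, ?_, ?_, ?_⟩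
  · have e : gp (aS S ρ d Q).G g \ (aS S ρ d Q).G.ex = gp (aG S ρ d Q) g := sdiff_empty
    rw [e]
    exact ph g
  · rw [e1]
    refine le_trans (le_of_eq ?_) hm
    have := dv_aG S ρ d Q hρ univ univ univ (by simp) (by simp)
    rw [card_univ] at this
    show _ * (aG S ρ d Q).dv univ = _
    rw [this]
    ring
  · have h1 : tk (aG S ρ d Q) (aS S ρ d Q).ker ≤ tk S.G S.ker * (1 + ρ) ^ (W 0).card :=
      tk_aG hI.ok.ok hρ (W 0) fun x hx => ⟨⟨(lat 0 x hx.1).1, by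
        have h2 : eval (cz x) (rn κ S.pi) = eval 0 (rn κ S.pi) := hx.2
        have e0 : (0 : ι ⊕ κ → ℝ) = cz (0 : ι ⊕ κ → ℤ) := by
          funext a
          simp [cz]
        have e3 : cz ((0 : ι ⊕ κ → ℤ) ∘ Sum.inl) = (0 : ι → ℝ) := by
          funext a
          simp [cz]
        rwa [e0, eval_rn, eval_rn, e3] at h2⟩, (lat 0 x hx.1).2⟩
    refine (mul_le_mul_of_nonneg_left h1 (Nat.cast_nonneg N)).trans ?_
    rw [← mul_assoc]
    exact key 0 _ hI.kr
  · rw [e1, e2]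
    exact hb

theorem add (_ : DVP) : ADD := add0

end

end Vale.Agent.P057T.Rg
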