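import Vale.Agent.P057T.Rg.Defs2
import Vale.Agent.P057T.Rg.Dem
import Vale.Agent.P057T.Rg.Br
import Vale.Agent.P057T.Chart

/-! New coordinates of a host. -/

set_option linter.all false

open MvPolynomial Finset
open scoped Real

namespace Vale.Agent.P057T.Rg.AddH6

open Vale.Agent.P057T.Eq Vale.Agent.P057L
open Vale.Agent.P267.H775 (toR qf)

noncomputable section

variable {ι κ : Type} [Fintype ι] [DecidableEq ι] [Fintype κ] [DecidableEq κ]

theorem ren {w : ι → ℕ} {w' : ι ⊕ κ → ℕ}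
    (h : ∀ a, w' (Sum.inl a) = w a) {F : MvPolynomial ι ℝ} {m : ι ⊕ κ →₀ ℕ}
    (hm : m ∈ (rename (Sum.inl : ι → ι ⊕ κ) F).support) :
    ∃ m0 ∈ F.support, Finsupp.weight w' m = Finsupp.weight w m0 := by
  rw [support_rename_of_injective Sum.inl_injective] at hm
  obtain ⟨m0, h0, rfl⟩ := mem_image.1 hm
  refine ⟨m0, h0, ?_⟩
  rw [Finsupp.weight_apply, Finsupp.weight_apply,
    Finsupp.sum_mapDomain_index (h := fun i c => c • w' i) (fun _ => zero_smul _ _)
      (fun _ _ _ => add_smul _ _ _)]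
  simp only [h]

theorem ren_h {w : ι → ℕ} {w' : ι ⊕ κ → ℕ}
    (h : ∀ a, w' (Sum.inl a) = w a) {F : MvPolynomial ι ℝ} {e : ℕ}
    (hF : IsWeightedHomogeneous w F e) :
    IsWeightedHomogeneous w' (rename (Sum.inl : ι → ι ⊕ κ) F) e := by
  intro m hm
  obtain ⟨m0, h0, e0⟩ := ren h (mem_support_iff.2 hm)
  rw [e0]
  exact hF (mem_support_iff.1 h0)

theorem ren_v {P : ι ⊕ κ → Prop} {F : MvPolynomial ι ℝ} (h : ∀ b ∈ F.vars, P (Sum.inl b)) :
    ∀ b ∈ (rename (Sum.inl : ι → ι ⊕ κ) F).vars, P b := by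
  intro b hb
  obtain ⟨i, hi, rfl⟩ := mem_vars_rename _ _ hb
  exact h i hi

theorem ren_z {F : MvPolynomial ι ℝ} (h : IsZ F) : IsZ (rename (Sum.inl : ι → ι ⊕ κ) F) := by
  intro m
  by_cases e : coeff m (rename (Sum.inl : ι → ι ⊕ κ) F) = 0
  · exact ⟨0, by rw [e, Int.cast_zero]⟩
  · obtain ⟨u, rfl, -⟩ := coeff_rename_ne_zero _ _ _ e
    rw [coeff_rename_mapDomain _ Sum.inl_injective]
    exact h u

theorem hs_fin {α : Type} (n : ℕ) : ∀ (F : Fin n → α → ℝ), (∀ k a, 0 ≤ F k a) →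
    (∀ k, Summable (F k)) → HasSum (fun x : Fin n → α => ∏ k, F k (x k)) (∏ k, ∑' a, F k a) := by
  induction n with
  | zero =>
    intro F _ _
    simpa using hasSum_fintype (fun x : Fin 0 → α => ∏ k, F k (x k))
  | succ n ih =>
    intro F h0 hF
    have i := ih (fun k => F k.succ) (fun k => h0 _) fun k => hF _
    have h1 : Summable fun p : α × (Fin n → α) => F 0 p.1 * ∏ k : Fin n, F k.succ (p.2 k) :=
      Summable.mul_of_nonneg (f := F 0) (g := fun x : Fin n → α => ∏ k : Fin n, F k.succ (x k))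
        (hF 0) i.summable (fun a => h0 _ a) (fun x => prod_nonneg fun k _ => h0 _ _)
    have h2 := (hF 0).hasSum.mul i h1
    rw [Fin.prod_univ_succ]
    refine ((Fin.consEquiv fun _ : Fin (n + 1) => α).hasSum_iff).1 ?_
    refine h2.congr_fun ?_
    intro p
    simp [Fin.consEquiv, Fin.prod_univ_succ]

theorem hs_pi {α : Type} (F : κ → α → ℝ) (h0 : ∀ k a, 0 ≤ F k a) (hF : ∀ k, Summable (F k)) :
    HasSum (fun x : κ → α => ∏ k, F k (x k)) (∏ k, ∑' a, F k a) := by
  have e := (Fintype.equivFin κ).symm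
  refine ((Equiv.arrowCongr e (Equiv.refl α)).hasSum_iff).1 ?_
  rw [← e.prod_comp fun k => ∑' a, F k a]
  refine (hs_fin _ (fun k => F (e k)) (fun k => h0 _) fun k => hF _).congr_fun ?_
  intro x
  simp only [Function.comp, Equiv.arrowCongr_apply, Equiv.coe_refl, id]
  rw [← e.prod_comp fun k => F k (x (e.symm k))]
  simp only [Equiv.symm_apply_apply]

variable (S : St ι) (d : κ → ℕ) (Q : κ → MvPolynomial ι ℝ) (σ : ℝ)

def tp (k : κ) : MvPolynomial ι ℝ := weightedHomogeneousComponent S.G.w (d k) (Q k)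

def lam : Matrix κ ι ℝ :=
  Matrix.of fun k c => if S.G.w c = d k then coeff (Finsupp.single c 1) (Q k) else 0

def rr (k : κ) : MvPolynomial ι ℝ := tp S d Q k - ∑ c, C (lam S d Q k c) * X c

def NG : GT (ι ⊕ κ) where
  g := Sum.elim S.G.g fun k => d k - 1
  w := Sum.elim S.G.w d
  A := Matrix.fromBlocks S.G.A 0 (-(σ⁻¹ • lam S d Q)) (σ⁻¹ • 1)
  B := Matrix.fromBlocks S.G.B 0 (lam S d Q * S.G.B) (σ • 1)
  q := Sum.elim (fun a => rename Sum.inl (S.G.q a))
    fun k => rename Sum.inl (rr S d Q k + ∑ c, C (lam S d Q k c) * S.G.q c)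
  ex := S.G.ex.map ⟨Sum.inl, Sum.inl_injective⟩

def NS : St (ι ⊕ κ) :=
  ⟨NG S d Q σ, Sum.elim (fun a => rename Sum.inl (S.p a))
    (fun k => rename Sum.inl (C σ⁻¹ * (tp S d Q k - Q k))), rename Sum.inl S.pi⟩

structure Hy (s : ℕ) : Prop where
  ok : S.Ok s
  dd : ∀ k, 1 ≤ d k ∧ d k ≤ s
  dl : ∀ k, S.G.Dl (d k + 1) (Q k)
  s0 : 0 < σ

variable {S d Q σ} {s : ℕ}

theorem lam_ne {k : κ} {c : ι} (h : lam S d Q k c ≠ 0) : S.G.w c = d k := by
  by_contra k
  exact h (if_neg k)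

theorem sum_h (k : κ) (f : ι → MvPolynomial ι ℝ)
    (hf : ∀ c, IsWeightedHomogeneous S.G.w (f c) (S.G.w c)) :
    IsWeightedHomogeneous S.G.w (∑ c, C (lam S d Q k c) * f c) (d k) := by
  refine IsWeightedHomogeneous.sum _ _ _ fun c _ => ?_
  by_cases h : lam S d Q k c = 0
  · rw [h, C_0, zero_mul]
    exact isWeightedHomogeneous_zero _ _ _
  · have h2 := hf c
    rw [lam_ne h] at h2
    exact IsWeightedHomogeneous.C_mul h2 _

theorem rr_h (k : κ) : IsWeightedHomogeneous S.G.w (rr S d Q k) (d k) :=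
  (weightedHomogeneousComponent_isWeightedHomogeneous _ _).sub
    (sum_h k X fun c => isWeightedHomogeneous_X ℝ _ c)

theorem Hy.q_h (H : Hy S d Q σ s) (k : κ) :
    IsWeightedHomogeneous S.G.w (rr S d Q k + ∑ c, C (lam S d Q k c) * S.G.q c) (d k) :=
  IsWeightedHomogeneous.add (rr_h k) (sum_h k _ H.ok.ok.qh)

theorem Hy.rr_lo (H : Hy S d Q σ s) (k : κ) :
    ∀ b ∈ (rr S d Q k).vars, S.G.g b < d k - 1 := by
  intro b hb
  obtain ⟨m, hm, hbm⟩ := (mem_vars_iff_mem_support b).1 hb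
  rw [mem_support_iff] at hm
  rw [Finsupp.mem_support_iff] at hbm
  have h1 := rr_h k hm
  have h0 := H.ok.lv b
  have h2 : S.G.w b ≤ d k := by
    rw [← h1]
    exact Finsupp.le_weight_of_ne_zero' _ hbm
  by_cases h3 : S.G.w b = d k
  · exfalso
    have h4 : m = Finsupp.single b 1 := Dem.single_of H.ok.ok.w1 hbm (by rw [h1, h3])
    apply hm
    rw [rr, tp, coeff_sub, coeff_weightedHomogeneousComponent, if_pos h1, coeff_sum, h4,
      sum_eq_single b (fun c _ hc => by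
        rw [coeff_C_mul, coeff_X', if_neg (fun e => hc (Finsupp.single_left_injective one_ne_zero e)),
          mul_zero]) (fun h => absurd (mem_univ b) h), coeff_C_mul, coeff_X', if_pos rfl, mul_one,
      lam, Matrix.of_apply, if_pos h3, sub_self]
  · omega

theorem Hy.AB (H : Hy S d Q σ s) : (NG S d Q σ).A * (NG S d Q σ).B = 1 := by
  simp only [NG, Matrix.fromBlocks_multiply, H.ok.ok.AB, Matrix.zero_mul, Matrix.mul_zero, add_zero,
    zero_add, Matrix.neg_mul, Matrix.smul_mul, Matrix.one_mul, neg_add_cancel, smul_smul,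
    inv_mul_cancel₀ H.s0.ne', one_smul, neg_zero, smul_zero, Matrix.fromBlocks_one]

theorem Hy.gok (H : Hy S d Q σ s) : (NG S d Q σ).Ok s where
  w1 a := by
    rcases a with a | k
    · exact H.ok.ok.w1 a
    · exact (H.dd k).1
  ws a := by
    rcases a with a | k
    · exact H.ok.ok.ws a
    · exact (H.dd k).2
  gs a := by
    rcases a with a | k
    · exact H.ok.ok.gs a
    · have := H.dd k
      show d k - 1 < s
      omega
  AB := H.AB
  blk a b h := by
    rcases a with a | k <;> rcases b with b | k'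
    · exact H.ok.ok.blk a b h
    · simp [NG] at h
    · have e : S.G.w b = d k := by
        rcases h with h | h
        · refine lam_ne (Q := Q) fun e => h ?_
          simp [NG, e]
        · obtain ⟨c, _, hd⟩ := exists_ne_zero_of_sum_ne_zero
            (show ∑ c, lam S d Q k c * S.G.B c b ≠ 0 from h)
          rw [← lam_ne (left_ne_zero_of_mul hd)]
          exact (H.ok.ok.blk c b (Or.inr (right_ne_zero_of_mul hd))).2.symm
      refine ⟨?_, e.symm⟩
      have := H.ok.lv b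
      show d k - 1 = S.G.g b
      omega
    · by_cases e : k = k'
      · rw [e]; exact ⟨rfl, rfl⟩
      · simp [NG, e] at h
  qh a := by
    rcases a with a | k
    · exact ren_h (fun _ => rfl) (H.ok.ok.qh a)
    · exact ren_h (fun _ => rfl) (H.q_h k)
  ql a := by
    rcases a with a | k
    · exact ren_v (H.ok.ok.ql a)
    · refine ren_v (Chart.vars_add' (H.rr_lo k) (Chart.vars_sum' fun c _ => ?_))
      by_cases e : lam S d Q k c = 0
      · simp [e]
      · refine Chart.vars_mul' (Chart.vars_C' _) fun b hb => ?_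
        have h1 : S.G.g b < S.G.g c := H.ok.ok.ql c b hb
        have h2 := lam_ne e
        have h3 := H.ok.lv c
        show S.G.g b < d k - 1
        omega
  qe a ha := by
    obtain ⟨a, h, rfl⟩ := mem_map.1 ha
    show rename Sum.inl (S.G.q a) = 0
    rw [H.ok.ok.qe a h, map_zero]

theorem th_l (a : ι) : (NG S d Q σ).th (Sum.inl a) = rename Sum.inl (S.G.th a) := by
  simp [GT.th, NG, Fintype.sum_sum_type]

theorem th_r (k : κ) : (NG S d Q σ).th (Sum.inr k) =
    C σ⁻¹ * (X (Sum.inr k) - rename Sum.inl (tp S d Q k)) := by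
  rw [GT.th, Fintype.sum_sum_type, sum_eq_single k (fun c _ hc => by
    simp [NG, Matrix.one_apply_ne hc.symm]) (fun h => absurd (mem_univ k) h)]
  simp only [NG, rr, Matrix.fromBlocks_apply₂₁, Matrix.fromBlocks_apply₂₂, Matrix.neg_apply,
    Matrix.smul_apply, smul_eq_mul, Matrix.one_apply_eq, mul_one, Sum.elim_inl, Sum.elim_inr,
    map_add, map_sub, map_sum, map_mul, map_neg, rename_C, rename_X, mul_sub, mul_add, mul_sum,
    sum_sub_distrib, neg_mul, sum_neg_distrib, mul_assoc]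
  ring

theorem ch_l (a : ι) : (NS S d Q σ).ch (Sum.inl a) = rename Sum.inl (S.ch a) := by
  rw [St.ch, St.ch, map_add]
  exact congrArg (· + _) (th_l a)

theorem ch_r (k : κ) : (NS S d Q σ).ch (Sum.inr k) =
    C σ⁻¹ * (X (Sum.inr k) - rename Sum.inl (Q k)) := by
  show (NG S d Q σ).th (Sum.inr k) + rename Sum.inl (C σ⁻¹ * (tp S d Q k - Q k)) = _
  rw [th_r]
  simp only [map_mul, map_sub, rename_C]
  ring

theorem Hy.low (H : Hy S d Q σ s) (k : κ) :
    ∀ m ∈ (C σ⁻¹ * (tp S d Q k - Q k)).support, Finsupp.weight S.G.w m < d k := by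
  intro m hm
  rw [mem_support_iff, coeff_C_mul, coeff_sub, tp, coeff_weightedHomogeneousComponent] at hm
  split_ifs at hm with h1
  · simp at hm
  · have h2 := H.dl k m (mem_support_iff.2 fun e => hm (by rw [e]; simp))
    omega

theorem Hy.sok (H : Hy S d Q σ s) : (NS S d Q σ).Ok s where
  ok := H.gok
  lv a := by
    rcases a with a | k
    · exact H.ok.lv a
    · have := H.dd k
      show d k - 1 + 1 = d k
      omega
  pd a := by
    rcases a with a | k
    · intro m hm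
      obtain ⟨m0, h0, e⟩ := ren (w := S.G.w) (w' := (NG S d Q σ).w) (fun _ => rfl) hm
      exact e.trans_lt (H.ok.pd a m0 h0)
    · intro m hm
      obtain ⟨m0, h0, e⟩ := ren (w := S.G.w) (w' := (NG S d Q σ).w) (fun _ => rfl) hm
      exact e.trans_lt (H.low k m0 h0)
  tri a ha b hb := by
    obtain ⟨a, h, rfl⟩ := mem_map.1 ha
    rcases b with b | k
    · exact H.ok.tri a h b fun e => hb (mem_map_of_mem _ e)
    · exact ⟨rfl, rfl⟩
  pz := ren_z H.ok.pz
  p1 := by
    intro m hm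
    obtain ⟨m0, h0, e⟩ := ren (w := S.G.w) (w' := (NG S d Q σ).w) (fun _ => rfl) hm
    exact e.trans_lt (H.ok.p1 m0 h0)

theorem dv_eq (h0 : 0 < σ) {V' : Finset (ι ⊕ κ)} {V : Finset ι} {K : Finset κ}
    (hV : ∀ a, Sum.inl a ∈ V' ↔ a ∈ V) (hK : ∀ k, Sum.inr k ∈ V' ↔ k ∈ K) :
    (NG S d Q σ).dv V' = S.G.dv V * σ ^ K.card := by
  let e : V ⊕ K ≃ V' :=
    { toFun := Sum.elim (fun a => ⟨Sum.inl a.1, (hV _).2 a.2⟩) fun k => ⟨Sum.inr k.1, (hK _).2 k.2⟩
      invFun := fun x => match x with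
        | ⟨Sum.inl a, h⟩ => Sum.inl ⟨a, (hV _).1 h⟩
        | ⟨Sum.inr k, h⟩ => Sum.inr ⟨k, (hK _).1 h⟩
      left_inv := fun x => by rcases x with a | k <;> rfl
      right_inv := fun x => by rcases x with ⟨a | k, h⟩ <;> rfl }
  unfold GT.dv
  rw [← Matrix.det_submatrix_equiv_self e]
  have h : ((NG S d Q σ).B.submatrix (Subtype.val : V' → ι ⊕ κ) Subtype.val).submatrix e e =
      Matrix.fromBlocks (S.G.B.submatrix (Subtype.val : V → ι) Subtype.val) 0
        ((lam S d Q * S.G.B).submatrix (Subtype.val : K → κ) (Subtype.val : V → ι))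
        (σ • (1 : Matrix K K ℝ)) := by
    ext x y
    rcases x with a | k <;> rcases y with b | k'
    · rfl
    · rfl
    · rfl
    · show (σ • (1 : Matrix κ κ ℝ)) k.1 k'.1 = (σ • (1 : Matrix K K ℝ)) k k'
      by_cases hk : k = k'
      · rw [hk, Matrix.smul_apply, Matrix.smul_apply, Matrix.one_apply_eq, Matrix.one_apply_eq]
      · rw [Matrix.smul_apply, Matrix.smul_apply, Matrix.one_apply_ne hk,
          Matrix.one_apply_ne fun e => hk (Subtype.ext e)]
  rw [h, Matrix.det_fromBlocks_zero₁₂, Matrix.det_smul, Matrix.det_one, mul_one, abs_mul,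
    Fintype.card_coe, abs_of_pos (pow_pos h0 _)]

theorem gq_eq (z : ι ⊕ κ → ℤ) : Poi.gq (NG S d Q σ).A (cz z) =
    Poi.gq S.G.A (cz fun a => z (Sum.inl a)) * ∏ k, Real.exp (-π * (σ⁻¹ * z (Sum.inr k) +
      -(σ⁻¹ * ∑ c, lam S d Q k c * z (Sum.inl c))) ^ 2) := by
  unfold Poi.gq qf
  rw [← Real.exp_sum, ← Real.exp_add, Fintype.sum_sum_type, mul_add, ← mul_sum]
  congr 3
  · refine sum_congr rfl fun a _ => ?_
    simp [NG, Matrix.mulVec, dotProduct, Fintype.sum_sum_type, cz]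
  · refine sum_congr rfl fun k _ => ?_
    simp [NG, Matrix.mulVec, dotProduct, Fintype.sum_sum_type, cz, Matrix.one_apply, mul_sum,
      mul_assoc, add_comm]

theorem tk_le (hG : S.G.Ok s) (h0 : 0 < σ) {Q' : Set (ι ⊕ κ → ℤ)} {Q0 : Set (ι → ℤ)}
    {K : Finset κ} (hV : ∀ z ∈ Q', (fun a => z (Sum.inl a)) ∈ Q0)
    (hK : ∀ z ∈ Q', ∀ k, k ∉ K → z (Sum.inr k) = 0) :
    tk (NG S d Q σ) Q' ≤ (1 + σ) ^ K.card * tk S.G Q0 := by
  refine tsum_le_of_sum_le' (mul_nonneg (by positivity) (Dem.tk_nonneg _ _)) fun E => ?_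
  let ψ : (ι → ℤ) → κ → ℤ → ℝ := fun u k y =>
    Real.exp (-π * (σ⁻¹ * y + -(σ⁻¹ * ∑ c, lam S d Q k c * u c)) ^ 2)
  let i0 : (ι → ℤ) → ℝ := Q0.indicator fun z => Poi.gq S.G.A (cz z)
  let φ : (ι → ℤ) × (κ → ℤ) → ℝ := fun x => i0 x.1 * ∏ k, ψ x.1 k (x.2 k)
  have p0 : ∀ x, 0 ≤ φ x := fun x =>
    mul_nonneg (Dem.ind_nonneg _ _ _) (prod_nonneg fun _ _ => (Real.exp_pos _).le)
  let e := Equiv.sumArrowEquivProdArrow ι κ ℤ
  let T : κ → Finset ℤ := fun k => if k ∈ K then E.image fun z => z (Sum.inr k) else {0}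
  have hT : ∀ u, ∑ y ∈ Fintype.piFinset T, ∏ k, ψ u k (y k) ≤ (1 + σ) ^ K.card := by
    intro u
    rw [← prod_univ_sum]
    calc _ ≤ ∏ k, (if k ∈ K then (1 + σ : ℝ) else 1) := by
          refine prod_le_prod (fun k _ => sum_nonneg fun _ _ => (Real.exp_pos _).le) fun k _ => ?_
          simp only [T]
          split_ifs
          · exact Dem.th1 h0 _ _
          · rw [sum_singleton]
            exact Real.exp_le_one_iff.2
              (mul_nonpos_of_nonpos_of_nonneg (by linarith [Real.pi_pos]) (sq_nonneg _))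
      _ = _ := by simp
  classical
  calc _ = ∑ z ∈ E.filter (· ∈ Q'), Poi.gq (NG S d Q σ).A (cz z) := by
        rw [sum_filter]
        refine sum_congr rfl fun z _ => ?_
        split_ifs with hz
        · exact Set.indicator_of_mem hz _
        · exact Set.indicator_of_notMem hz _
    _ = ∑ z ∈ E.filter (· ∈ Q'), φ (e z) := by
        refine sum_congr rfl fun z hz => ?_
        have h2 := hV z (mem_filter.1 hz).2
        rw [gq_eq, ← Set.indicator_of_mem h2 fun z => Poi.gq S.G.A (cz z)]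
        rfl
    _ = ∑ x ∈ (E.filter (· ∈ Q')).image e, φ x := (sum_image fun x _ y _ h => e.injective h).symm
    _ ≤ ∑ x ∈ (E.image fun z => (e z).1) ×ˢ Fintype.piFinset T, φ x := by
        refine sum_le_sum_of_subset_of_nonneg (fun x hx => ?_) fun x _ _ => p0 x
        obtain ⟨z, hz, rfl⟩ := mem_image.1 hx
        obtain ⟨z1, z2⟩ := mem_filter.1 hz
        refine mem_product.2 ⟨mem_image_of_mem _ z1, Fintype.mem_piFinset.2 fun k => ?_⟩
        simp only [T]
        split_ifs with hk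
        · exact mem_image_of_mem _ z1
        · exact mem_singleton.2 (hK z z2 k hk)
    _ ≤ ∑ u ∈ (E.image fun z => (e z).1), (1 + σ) ^ K.card * i0 u := by
        rw [sum_product]
        refine sum_le_sum fun u _ => ?_
        simp only [φ]
        rw [← mul_sum, mul_comm]
        exact mul_le_mul_of_nonneg_right (hT u) (Dem.ind_nonneg _ _ _)
    _ ≤ _ := by
        rw [← mul_sum]
        exact mul_le_mul_of_nonneg_left (Dem.sum_le_tk hG _ _) (by positivity)

theorem pot (H : Hy S d Q σ s) {l : ℝ} (hl : 1 + σ⁻¹ ≤ Real.exp l)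
    {V' : Finset (ι ⊕ κ)} {V : Finset ι} {Q' : Set (ι ⊕ κ → ℤ)} {Q0 : Set (ι → ℤ)} {t n : ℝ}
    (n0 : 0 ≤ n) (hV : ∀ a, Sum.inl a ∈ V' ↔ a ∈ V) (h1 : ∀ z ∈ Q', (fun a => z (Sum.inl a)) ∈ Q0)
    (h2 : ∀ z ∈ Q', z ∈ Lat V') (h : n * tk S.G Q0 ≤ Real.exp t * S.G.dv V) :
    n * tk (NG S d Q σ) Q' ≤ Real.exp (t + Fintype.card κ * l) * (NG S d Q σ).dv V' := by
  have h0 := H.s0
  have hK' : ∀ k, Sum.inr k ∈ V' ↔ k ∈ V'.toRight := fun k => mem_toRight.symm
  have l0 : 0 ≤ l := Real.one_le_exp_iff.1 (by have := inv_pos.2 h0; linarith)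
  have hl' : 1 + σ ≤ σ * Real.exp l := by
    have := mul_le_mul_of_nonneg_left hl h0.le
    rw [mul_add, mul_one, mul_inv_cancel₀ h0.ne'] at this
    linarith
  have h3 : (1 + σ : ℝ) ^ V'.toRight.card ≤
      Real.exp (Fintype.card κ * l) * σ ^ V'.toRight.card := by
    calc _ ≤ (σ * Real.exp l) ^ V'.toRight.card := pow_le_pow_left₀ (by positivity) hl' _
      _ = Real.exp (V'.toRight.card * l) * σ ^ V'.toRight.card := by
        rw [mul_pow, Real.exp_nat_mul, mul_comm]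
      _ ≤ _ := by
        have : (V'.toRight.card : ℝ) ≤ Fintype.card κ := by exact_mod_cast card_le_univ _
        gcongr
  rw [dv_eq h0 hV hK', Real.exp_add]
  have h4 := tk_le (d := d) (Q := Q) H.ok.ok h0 (K := V'.toRight) h1
    fun z hz k hk => h2 z hz _ fun e => hk ((hK' k).1 e)
  calc _ ≤ n * ((1 + σ) ^ V'.toRight.card * tk S.G Q0) := mul_le_mul_of_nonneg_left h4 n0
    _ = (1 + σ) ^ V'.toRight.card * (n * tk S.G Q0) := by ring
    _ ≤ (Real.exp (Fintype.card κ * l) * σ ^ V'.toRight.card) * (Real.exp t * S.G.dv V) :=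
      mul_le_mul h3 h (mul_nonneg n0 (Dem.tk_nonneg _ _)) (by positivity)
    _ = _ := by ring

theorem wt_eq (z : ι ⊕ κ → ℤ) :
    (NS S d Q σ).wt z = S.wt (fun a => z (Sum.inl a)) *
      ∏ k, Real.exp (-π * (((z (Sum.inr k) : ℝ) - eval (cz fun a => z (Sum.inl a)) (Q k)) / σ) ^ 2) := by
  unfold St.wt St.sq
  rw [← Real.exp_sum, ← Real.exp_add, Fintype.sum_sum_type, mul_add, ← mul_sum]
  congr 3
  · refine sum_congr rfl fun a _ => ?_
    rw [ch_l, eval_rename]
    rfl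
  · refine sum_congr rfl fun k _ => ?_
    rw [ch_r, map_mul, map_sub, eval_C, eval_X, eval_rename, div_eq_inv_mul]
    rfl

theorem sm1 (h0 : 0 < σ) (x : ℝ) :
    Summable fun y : ℤ => Real.exp (-π * (((y : ℝ) - x) / σ) ^ 2) := by
  refine summable_of_sum_le (c := 1 + σ) (fun _ => (Real.exp_pos _).le) fun E => ?_
  refine le_trans (le_of_eq (sum_congr rfl fun y _ => ?_)) (Dem.th1 h0 (-(σ⁻¹ * x)) E)
  congr 3
  ring

theorem ts_eq (H : Hy S d Q σ s) (F : (ι → ℤ) → ℝ) (hF : ∀ z, 0 ≤ F z ∧ F z ≤ 1) :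
    ∑' z : ι ⊕ κ → ℤ, (NS S d Q σ).wt z * F (fun a => z (Sum.inl a)) =
      ∑' z : ι → ℤ, S.wt z * (∏ k, pw σ (eval (cz z) (Q k))) * F z := by
  have hs : Summable (NS S d Q σ).wt := (br0 s _ _ H.sok).2.1
  have h1 : Summable fun z : ι ⊕ κ → ℤ => (NS S d Q σ).wt z * F (fun a => z (Sum.inl a)) :=
    Summable.of_nonneg_of_le (fun z => mul_nonneg (Real.exp_pos _).le (hF _).1)
      (fun z => mul_le_of_le_one_right (Real.exp_pos _).le (hF _).2) hs
  let e := (Equiv.sumArrowEquivProdArrow ι κ ℤ).symm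
  rw [← e.tsum_eq]
  refine Eq.trans (e.summable_iff.2 h1).tsum_prod (tsum_congr fun z => ?_)
  have h2 := ((hs_pi (fun k (y : ℤ) => Real.exp (-π * (((y : ℝ) - eval (cz z) (Q k)) / σ) ^ 2))
    (fun _ _ => (Real.exp_pos _).le) fun k => sm1 H.s0 _).mul_left (S.wt z)).mul_right (F z)
  refine Eq.trans (tsum_congr fun y => ?_) h2.tsum_eq
  simp only [Function.comp]
  rw [wt_eq]
  rfl

theorem ev_pi (z : ι ⊕ κ → ℤ) :
    eval (cz z) (NS S d Q σ).pi = eval (cz fun a => z (Sum.inl a)) S.pi := by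
  show eval (cz z) (rename Sum.inl S.pi) = _
  rw [eval_rename]
  rfl

theorem add : ADD := by
  intro s N A ι κ _ _ _ _ S R γ γ' b b' ρ l d Q hI hd hQ h0 hl hm hb
  have H : Hy S d Q ρ s := ⟨hI.ok, hd, hQ, h0⟩
  have e1 : (NS S d Q ρ).ms = ∑' z : ι → ℤ, S.wt z * ∏ a, pw ρ (eval (cz z) (Q a)) := by
    have h := ts_eq H (fun _ => 1) fun _ => ⟨zero_le_one, le_rfl⟩
    simp only [mul_one] at h
    exact h
  have e2 : (NS S d Q ρ).hit A =
      ∑' z : ι → ℤ, S.wt z * (∏ a, pw ρ (eval (cz z) (Q a))) * S.ind A z := by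
    rw [← ts_eq H (S.ind A) fun z => by
      unfold St.ind
      split_ifs
      · exact ⟨zero_le_one, le_rfl⟩
      · exact ⟨le_rfl, zero_le_one⟩]
    refine tsum_congr fun z => ?_
    unfold St.ind
    rw [ev_pi]
  refine ⟨NS S d Q ρ, H.sok, fun g => ?_, fun g => ?_, ?_, ?_, ?_⟩
  · have hV : ∀ a, Sum.inl a ∈ gp (NG S d Q ρ) g ↔ a ∈ gp S.G g := fun a => by simp [gp, NG]
    have h := pot H hl (n := 1) (Q' := Lat (gp (NG S d Q ρ) g)) (Q0 := Lat (gp S.G g)) zero_le_one hV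
      (fun z hz a ha => hz _ fun k => ha ((hV a).1 k)) (fun z hz => hz)
      (by rw [one_mul]; exact hI.ph g)
    rw [one_mul] at h
    exact h
  · have hV : ∀ a, Sum.inl a ∈ gp (NG S d Q ρ) g \ (NG S d Q ρ).ex ↔ a ∈ gp S.G g \ S.G.ex :=
      fun a => by simp [gp, NG]
    have h := pot H hl (n := 1) (Q' := Lat (gp (NG S d Q ρ) g \ (NG S d Q ρ).ex))
      (Q0 := Lat (gp S.G g \ S.G.ex)) zero_le_one hV
      (fun z hz a ha => hz _ fun k => ha ((hV a).1 k)) (fun z hz => hz)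
      (by rw [one_mul]; exact hI.pn g)
    rw [one_mul] at h
    exact h
  · have e3 : (NS S d Q ρ).G.dv univ = S.G.dv univ * ρ ^ Fintype.card κ :=
      dv_eq h0 (V := univ) (K := univ) (by simp) (by simp)
    rw [e1, e3]
    exact le_trans (le_of_eq (by ring)) hm
  · have hV : ∀ a, Sum.inl a ∈ gp (NG S d Q ρ) 0 ↔ a ∈ gp S.G 0 := fun a => by simp [gp, NG]
    refine pot H hl (Q' := (NS S d Q ρ).ker) (Q0 := S.ker) (Nat.cast_nonneg N) hV
      (fun z hz => ⟨fun a ha => hz.1 _ fun k => ha ((hV a).1 k), ?_⟩) (fun z hz => hz.1) hI.kr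
    have h := hz.2
    rw [ev_pi] at h
    rw [h]
    show eval 0 (rename Sum.inl S.pi) = _
    rw [eval_rename]
    rfl
  · rw [e1, e2]
    exact hb

end

end Vale.Agent.P057T.Rg.AddH6
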