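import Vale.Agent.P057T.Eq.Wb
import Vale.Agent.P057T.PoiH52
import Vale.Agent.P057L.Num

/-!
Hosts and regularisation (notes 4412, 4430, 4442). Groups are levels (`g + 1 = w`), the matrix is
triangular with respect to the exact variables. All row statements are `Prop`s.
-/

open MvPolynomial Finset
open scoped Real

namespace Vale.Agent.P057T.Rg

open Vale.Agent.P057T.Eq Vale.Agent.P057L

set_option linter.unusedSectionVars false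

noncomputable section

/-- a tower with its lower order terms and the projection to the integers -/
structure St (ι : Type) where
  G : GT ι
  p : ι → MvPolynomial ι ℝ
  pi : MvPolynomial ι ℝ

variable {ι : Type} [Fintype ι] [DecidableEq ι]

/-- variables of group `g` -/
def gp (G : GT ι) (g : ℕ) : Finset ι := univ.filter fun a => G.g a = g

/-- Gaussian sum of the linear chart over a set of integer points -/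
def tk (G : GT ι) (Q : Set (ι → ℤ)) : ℝ :=
  ∑' z : ι → ℤ, Q.indicator (fun z => Poi.gq G.A (cz z)) z

namespace St

variable (S : St ι)

def AT : AT ι := ⟨univ, S.p, fun _ => 1⟩

/-- true chart -/
def ch (a : ι) : MvPolynomial ι ℝ := S.G.th a + S.p a

def sq (z : ι → ℤ) : ℝ := ∑ a, (eval (cz z) (S.ch a)) ^ 2

def wt (z : ι → ℤ) : ℝ := Real.exp (-π * S.sq z)

def ms : ℝ := ∑' z : ι → ℤ, S.wt z

open Classical in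
/-- indicator of the pull back of `A` -/
def ind (A : Finset ℤ) (z : ι → ℤ) : ℝ := if ∃ x ∈ A, eval (cz z) S.pi = (x : ℝ) then 1 else 0

def hit (A : Finset ℤ) : ℝ := ∑' z : ι → ℤ, S.wt z * S.ind A z

def ker : Set (ι → ℤ) := {z | z ∈ Lat (gp S.G 0) ∧ eval (cz z) S.pi = eval 0 S.pi}

def pot : ℕ := 2 * ∑ a, S.G.w a + (S.G.exᶜ).card

structure Ok (s : ℕ) : Prop where
  ok : S.G.Ok s
  lv : ∀ a, S.G.g a + 1 = S.G.w a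
  pd : ∀ a, S.G.Dl (S.G.w a) (S.p a)
  tri : ∀ a ∈ S.G.ex, ∀ b, b ∉ S.G.ex → S.G.A a b = 0 ∧ S.G.B a b = 0
  pz : IsZ S.pi
  p1 : S.G.Dl 2 S.pi

/-- the invariants: theta potentials, mass, kernel, density -/
structure Inv (s N : ℕ) (A : Finset ℤ) (θ θn : ℕ → ℝ) (γ ρ b : ℝ) : Prop where
  ok : S.Ok s
  ph : ∀ g, tk S.G (Lat (gp S.G g)) ≤ Real.exp (θ g) * S.G.dv (gp S.G g)
  pn : ∀ g, tk S.G (Lat (gp S.G g \ S.G.ex)) ≤ Real.exp (θn g) * S.G.dv (gp S.G g \ S.G.ex)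
  ma : Real.exp (-γ) * S.G.dv univ ≤ S.ms
  kr : N * tk S.G S.ker ≤ Real.exp ρ * S.G.dv (gp S.G 0)
  de : b * S.ms ≤ S.hit A

/-- `j` is a pivot of the block `V` -/
def Pv (V : Finset ι) (j : ι) (δ : ℝ) : Prop :=
  j ∈ V ∧ 0 < δ ∧ S.G.A j j = δ⁻¹ ∧ ∀ c ∈ V, c ≠ j → S.G.A j c = 0

/-- relation `n q_j = integer + b(top chart)` -/
def Rl (j : ι) (n : ℕ) (b : MvPolynomial ι ℝ) : Prop :=
  S.G.Lo (S.G.g j) b ∧ S.G.Hm (S.G.w j) b ∧ IsZ (C (n : ℝ) * S.G.q j - aeval S.G.th b)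

/-- same groups, weights and exact variables -/
def Sa (S' : St ι) : Prop := S'.G.g = S.G.g ∧ S'.G.w = S.G.w ∧ S'.G.ex = S.G.ex

/-- the exact variables are a Hermite basis -/
def Hx : Prop := ∀ j ∈ S.G.ex, ∀ x : ι → ℝ, (∀ c, x c ≠ 0 → c ∈ S.G.ex ∧ S.G.g c = S.G.g j) →
  x j ^ 2 * ∑ a ∈ S.G.ex, S.G.A a j ^ 2 ≤
    2 ^ (Fintype.card ι ^ 2) * ∑ a ∈ S.G.ex, (∑ c, S.G.A a c * x c) ^ 2

end St

/-- add `l` below the group `g` -/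
def lo (θ : ℕ → ℝ) (g : ℕ) (l : ℝ) : ℕ → ℝ := fun g' => θ g' + if g' < g then l else 0

/-- add `l` at the group `g` -/
def at1 (θ : ℕ → ℝ) (g : ℕ) (l : ℝ) : ℕ → ℝ := fun g' => θ g' + if g' = g then l else 0

def Ho0 (s N : ℕ) (A : Finset ℤ) (D R b : ℝ) : Prop :=
  ∃ (ι : Type) (_ : Fintype ι) (_ : DecidableEq ι) (S : St ι), (Fintype.card ι : ℝ) ≤ D ∧
    S.Inv s N A (fun _ => R) (fun _ => R) R R b

/-- the host predicate of `H74.Sys` -/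
def Ho (s N : ℕ) (A : Finset ℤ) (D R b : ℝ) : Prop := (1 ≤ N ∧ b * N ≤ A.card) ∨ Ho0 s N A D R b

/-- regular host -/
def RHo (s N : ℕ) (A : Finset ℤ) (D R b c Y : ℝ) : Prop :=
  ∃ (ι : Type) (_ : Fintype ι) (_ : DecidableEq ι) (S : St ι) (WW : ℕ → ℝ),
    (Fintype.card ι : ℝ) ≤ D ∧ S.Inv s N A (fun _ => R) (fun _ => R) R R b ∧ S.G.Wd WW ∧
    WW 0 ≤ R ∧ S.G.Rg WW c Y s

/-! ### Rows -/

/-- bridge to `Eq` -/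
def BR : Prop := ∀ (s : ℕ) (ι : Type) [Fintype ι] [DecidableEq ι] (S : St ι), S.Ok s →
  (∀ P : ℝ, 1 ≤ P → S.G.AOk S.AT P) ∧ Summable S.wt ∧ S.ms = S.G.ms S.AT ∧
  S.G.mn S.AT.sg S.AT.U = S.G.dv univ ∧ ∀ V, (∀ a b, a ∉ V → b ∈ V → S.G.A a b = 0) → 0 < S.G.dv V

def TAILW : Prop := ∀ s : ℕ, ∃ c : ℕ, ∀ (ι : Type) [Fintype ι] [DecidableEq ι] (S : St ι)
  (WW : ℕ → ℝ) (P Z : ℝ), S.Ok s → S.G.Wd WW → Sz ι P 1 →
    ∑' z : ι → ℤ, (if Z ≤ S.sq z then S.wt z else 0) ≤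
      Real.exp (P ^ c * (1 + WW 0) - Z) * S.G.dv univ

/-- a theta bound excludes short dual vectors -/
def PHI : Prop := ∀ (s : ℕ) (ι : Type) [Fintype ι] [DecidableEq ι] (G : GT ι) (V : Finset ι) (θ : ℝ)
  (k : ι → ℤ), G.Ok s → (∀ a b, a ∉ V → b ∈ V → G.A a b = 0) →
    tk G (Lat V) ≤ Real.exp θ * G.dv V → k ≠ 0 → k ∈ Lat V →
    ∃ a ∈ V, Real.exp (-(θ + Fintype.card ι + 4)) ≤ |∑ b, (k b : ℝ) * G.B b a|

/-- removing a pivot from a determinant -/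
def DVP : Prop := ∀ (ι : Type) [Fintype ι] [DecidableEq ι] (G : GT ι) (V : Finset ι) (j : ι),
  j ∈ V → ((∀ c ∈ V, c ≠ j → G.B j c = 0) ∨ ∀ c ∈ V, c ≠ j → G.B c j = 0) →
    G.dv V = |G.B j j| * G.dv (V.erase j)

/-- unimodular completion -/
def UNI : Prop := ∀ (ι : Type) [Fintype ι] [DecidableEq ι] (V : Finset ι) (k : ι → ℤ), k ≠ 0 →
  k ∈ Lat V → ∃ (n : ℕ) (j : ι) (U U' : Matrix ι ι ℤ), 1 ≤ n ∧ j ∈ V ∧ U * U' = 1 ∧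
    (∀ a b, (U a b ≠ 0 ∨ U' a b ≠ 0) → a = b ∨ (a ∈ V ∧ b ∈ V)) ∧
    (∀ a, a ∉ V → U a a = 1 ∧ U' a a = 1) ∧ ∀ c, k c = n * U' j c

/-- change of basis `z = U z'` inside the exact or the non exact part of a group -/
def RECO : Prop := ∀ (s N : ℕ) (A : Finset ℤ) (ι : Type) [Fintype ι] [DecidableEq ι] (S : St ι)
  (θ θn : ℕ → ℝ) (γ ρ b : ℝ) (g : ℕ) (V : Finset ι) (U U' : Matrix ι ι ℤ), S.Inv s N A θ θn γ ρ b →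
    (V = gp S.G g ∩ S.G.ex ∨ V = gp S.G g \ S.G.ex) → U * U' = 1 →
    (∀ a b, (U a b ≠ 0 ∨ U' a b ≠ 0) → a = b ∨ (a ∈ V ∧ b ∈ V)) →
    (∀ a, a ∉ V → U a a = 1 ∧ U' a a = 1) →
    ∃ S' : St ι, S'.Inv s N A θ θn γ ρ b ∧ S.Sa S' ∧
      S'.G.A = S.G.A * U.map (Int.cast : ℤ → ℝ) ∧ S'.G.B = U'.map (Int.cast : ℤ → ℝ) * S.G.B ∧
      (∀ a, S.G.g a = g → S'.G.q a = ∑ c, C (U' a c : ℝ) * S.G.q c) ∧
      ∀ a, S.G.g a < g → S'.G.th a = S.G.th a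

/-- rotation of the rows of a block: `j` becomes a pivot -/
def ROTO : Prop := ∀ (s N : ℕ) (A : Finset ℤ) (ι : Type) [Fintype ι] [DecidableEq ι] (S : St ι)
  (θ θn : ℕ → ℝ) (γ ρ b : ℝ) (g : ℕ) (V : Finset ι) (j : ι), S.Inv s N A θ θn γ ρ b →
    (V = gp S.G g ∩ S.G.ex ∨ V = gp S.G g \ S.G.ex) → j ∈ V →
    ∃ S' : St ι, S'.Inv s N A θ θn γ ρ b ∧ S.Sa S' ∧ S'.G.q = S.G.q ∧
      S'.Pv V j (√(∑ a ∈ V, S.G.B j a ^ 2)) ∧ ∀ a, S.G.g a ≠ g → S'.G.th a = S.G.th a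

def HRM : Prop := ∀ (s N : ℕ) (A : Finset ℤ) (ι : Type) [Fintype ι] [DecidableEq ι] (S : St ι)
  (θ θn : ℕ → ℝ) (γ ρ b : ℝ), S.Inv s N A θ θn γ ρ b →
    ∃ S' : St ι, S'.Inv s N A θ θn γ ρ b ∧ S.Sa S' ∧ S'.Hx

/-- shrink the groups `< g` by `exp (-l)` -/
def SHR : Prop := ∀ (s N : ℕ) (A : Finset ℤ) (ι : Type) [Fintype ι] [DecidableEq ι] (S : St ι)
  (θ θn : ℕ → ℝ) (γ ρ b η x l : ℝ) (g : ℕ), S.Inv s N A θ θn γ ρ b → 0 < l → 0 < η →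
    Real.exp (-x) ≤ η * b →
    ∃ S' : St ι, S'.Inv s N A (lo θ g (Fintype.card ι * l)) (lo θn g (Fintype.card ι * l)) (γ + x)
        (ρ + Fintype.card ι * l) ((1 - 2 * η) * b) ∧ S.Sa S' ∧ S'.G.q = S.G.q ∧
      (∀ a c, S'.G.A a c = (if S.G.g a < g then Real.exp l else 1) * S.G.A a c) ∧
      ∀ a c, S'.G.B a c = (if S.G.g a < g then Real.exp (-l) else 1) * S.G.B a c

/-- dilate the groups `< g` by `n` -/
def DIL : Prop := ∀ (s N : ℕ) (A : Finset ℤ) (ι : Type) [Fintype ι] [DecidableEq ι] (S : St ι)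
  (θ θn : ℕ → ℝ) (γ ρ b η x l : ℝ) (g n : ℕ), S.Inv s N A θ θn γ ρ b → 1 ≤ n →
    (n : ℝ) ≤ Real.exp l → 0 < η → Real.exp (-x) ≤ η * b →
    ∃ S' : St ι, S'.Inv s N A (lo θ g (Fintype.card ι * l)) (lo θn g (Fintype.card ι * l)) (γ + x)
        (ρ + Fintype.card ι * l) ((1 - 2 * η) * b) ∧ S.Sa S' ∧
      (∀ a c, S'.G.A a c = (if S.G.g a < g then (n : ℝ) else 1) * S.G.A a c) ∧
      (∀ a c, S'.G.B a c = (if S.G.g a < g then (n : ℝ)⁻¹ else 1) * S.G.B a c) ∧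
      ∀ j, S.G.g j = g → IsZ (C (n : ℝ) * S.G.q j) → IsZ (S'.G.q j)

/-- add the small form `b (chart)` to the chart of `j` -/
def PERT : Prop := ∀ s : ℕ, ∃ c : ℕ, ∀ (N : ℕ) (A : Finset ℤ) (ι : Type) [Fintype ι] [DecidableEq ι]
  (S : St ι) (θ θn : ℕ → ℝ) (γ ρ b η P Ω : ℝ) (j : ι) (f : MvPolynomial ι ℝ),
    S.Inv s N A θ θn γ ρ b → Sz ι P 1 → 1 ≤ Ω → (∀ g, θ g ≤ Ω) → γ ≤ Ω → 0 < η → η ≤ 1 / 2 →
    Real.exp (-Ω) ≤ η * b → j ∉ S.G.ex → S.G.Lo (S.G.g j) f → S.G.Hm (S.G.w j) f →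
    l1 f * (P * Ω) ^ c ≤ η →
    ∃ S' : St ι, S'.Inv s N A θ θn (γ + 1) ρ ((1 - η) * b) ∧ S.Sa S' ∧ S'.G.A = S.G.A ∧
      S'.G.B = S.G.B ∧ ∀ a, S'.G.q a = S.G.q a - C (S.G.B a j) * aeval S.G.th f

/-- integer shear; the pivot `j` becomes exact -/
def SHEAR : Prop := ∀ (s N : ℕ) (A : Finset ℤ) (ι : Type) [Fintype ι] [DecidableEq ι] (S : St ι)
  (θ θn : ℕ → ℝ) (γ ρ b δ h : ℝ) (j : ι), S.Inv s N A θ θn γ ρ b →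
    S.Pv (gp S.G (S.G.g j) \ S.G.ex) j δ → δ ≤ Real.exp h → IsZ (S.G.q j) →
    ∃ S' : St ι, S'.Inv s N A θ (at1 θn (S.G.g j) h) γ ρ b ∧ S'.pot < S.pot

/-- a failure of `Big` gives a pivot with a relation -/
def REL : Prop := ∀ (s N : ℕ) (A : Finset ℤ) (ι : Type) [Fintype ι] [DecidableEq ι] (S : St ι)
  (θ θn : ℕ → ℝ) (γ ρ b H : ℝ) (g : ℕ), S.Inv s N A θ θn γ ρ b → ¬ S.G.Big g H →
    ∃ (S' : St ι) (j : ι) (δ : ℝ) (n : ℕ) (f : MvPolynomial ι ℝ), S'.Inv s N A θ θn γ ρ b ∧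
      S.Sa S' ∧ S.G.g j = g ∧ S'.Pv (gp S.G g \ S.G.ex) j δ ∧ 1 ≤ n ∧ n * δ ≤ H ∧
      Real.exp (-(θn g + Fintype.card ι + 4)) ≤ δ ∧ S'.Rl j n f ∧ l1 f ≤ H

/-- demotion of an exact pivot of weight `≥ 2` -/
def DEM : Prop := ∀ (s N : ℕ) (A : Finset ℤ) (ι : Type) [Fintype ι] [DecidableEq ι] (S : St ι)
  (θ θn : ℕ → ℝ) (γ ρ b β o l : ℝ) (g : ℕ) (j : ι), S.Inv s N A θ θn γ ρ b → S.G.g j = g + 1 →
    S.Pv (gp S.G (g + 1) ∩ S.G.ex) j β → β ≤ Real.exp o → 1 + β⁻¹ ≤ Real.exp l →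
    ∃ S' : St ι, S'.Inv s N A (at1 (at1 θ (g + 1) o) g l) (at1 θn g l) γ (ρ + l) b ∧ S'.pot < S.pot

/-- slice along an exact pivot of weight one -/
def SLI : Prop := ∀ (s N : ℕ) (A : Finset ℤ) (ι : Type) [Fintype ι] [DecidableEq ι] (S : St ι)
  (θ θn : ℕ → ℝ) (γ ρ b β o l η x : ℝ) (j : ι), S.Inv s N A θ θn γ ρ b → S.G.g j = 0 →
    S.Pv (gp S.G 0 ∩ S.G.ex) j β → β ≤ Real.exp o → 1 + β⁻¹ ≤ Real.exp l → 0 < η →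
    Real.exp (-x) ≤ η * b →
    ∃ S' : St {a : ι // a ≠ j}, S'.Inv s N A (at1 θ 0 o) θn (γ + x + l) (ρ + o) ((1 - 2 * η) * b) ∧
      S'.pot < S.pot

/-- round of type A -/
def RA : Prop := ∀ s : ℕ, ∃ c : ℕ, ∀ (N : ℕ) (A : Finset ℤ) (ι : Type) [Fintype ι] [DecidableEq ι]
  (S : St ι) (θ θn : ℕ → ℝ) (γ ρ b η P Λ x h : ℝ) (g : ℕ), S.Inv s N A θ θn γ ρ b → Sz ι P 1 →
    1 ≤ Λ → (∀ g', θ g' ≤ Real.exp Λ) → γ ≤ Real.exp Λ → 0 ≤ x → x ≤ Real.exp Λ → 0 ≤ h →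
    h ≤ Real.exp Λ → 0 ≤ θn g → θn g ≤ Real.exp Λ → Real.exp (-Λ) ≤ η → η ≤ 1 / 2 →
    Real.exp (-x) ≤ η * b → ¬ S.G.Big g (Real.exp h) →
    ∃ S' : St ι, S'.Inv s N A (lo θ g (P ^ c * (h + θn g + Λ)))
      (at1 (lo θn g (P ^ c * (h + θn g + Λ))) g h) (γ + 2 * x + 9) (ρ + P ^ c * (h + θn g + Λ))
      ((1 - η) * b) ∧ S'.pot < S.pot

/-- round of type B -/
def RB : Prop := ∀ (s N : ℕ) (A : Finset ℤ) (ι : Type) [Fintype ι] [DecidableEq ι]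
  (S : St ι) (θ θn : ℕ → ℝ) (γ ρ b η P x o η0 : ℝ) (g : ℕ), S.Inv s N A θ θn γ ρ b → Sz ι P 1 →
    S.Hx → 0 ≤ θ g → 0 ≤ x → 0 ≤ o → 0 < η → Real.exp (-x) ≤ η * b → Real.exp (-o) ≤ η0 →
    ¬ S.G.Small g η0 →
    ∃ (ι' : Type) (_ : Fintype ι') (_ : DecidableEq ι') (S' : St ι'),
      Fintype.card ι' ≤ Fintype.card ι ∧
      S'.Inv s N A (at1 (lo θ g (θ g + P + 5)) g (o + P ^ 2)) (lo θn g (θ g + P + 5))
        (γ + x + θ g + P + 6) (ρ + θ g + P + 5 + o + P ^ 2) ((1 - η) * b) ∧ S'.pot < S.pot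

def REG : Prop := ∀ s c : ℕ, ∃ C : ℕ, ∀ (N : ℕ) (A : Finset ℤ) (D P Y b η : ℝ), D ≤ P → 2 ≤ P →
  1 ≤ Y → Real.exp (-Y) ≤ b → Real.exp (-Y) ≤ η → η ≤ 1 / 2 → Ho0 s N A D Y b →
    RHo s N A D (P ^ C * Y) ((1 - η) * b) (P ^ c) Y

/-- the first host -/
def INI : Prop := ∀ (s : ℕ) (η : ℝ), 1 ≤ s → 0 < η → ∃ C : ℕ, ∀ (X : ℝ) (N : ℕ) (A : Finset ℤ) (b : ℝ),
  (C : ℝ) ≤ X → A ⊆ rg N → Real.exp (-X) ≤ b → X ≤ Real.log N → b * N ≤ A.card →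
    Ho0 s N A 1 (C * X) ((1 - η) * b)

/-! ### Monotonicity -/

theorem dv_nonneg (G : GT ι) (V : Finset ι) : 0 ≤ G.dv V := abs_nonneg _

theorem ms_nonneg (S : St ι) : 0 ≤ S.ms := tsum_nonneg fun _ => (Real.exp_pos _).le

theorem St.Inv.mono {S : St ι} {s N : ℕ} {A : Finset ℤ} {θ θn θ' θn' : ℕ → ℝ} {γ ρ b γ' ρ' b' : ℝ}
    (h : S.Inv s N A θ θn γ ρ b) (h1 : ∀ g, θ g ≤ θ' g) (h2 : ∀ g, θn g ≤ θn' g) (h3 : γ ≤ γ')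
    (h4 : ρ ≤ ρ') (h5 : b' ≤ b) : S.Inv s N A θ' θn' γ' ρ' b' where
  ok := h.ok
  ph g := (h.ph g).trans
    (mul_le_mul_of_nonneg_right (Real.exp_le_exp.2 (h1 g)) (dv_nonneg _ _))
  pn g := (h.pn g).trans
    (mul_le_mul_of_nonneg_right (Real.exp_le_exp.2 (h2 g)) (dv_nonneg _ _))
  ma := (mul_le_mul_of_nonneg_right (Real.exp_le_exp.2 (neg_le_neg h3)) (dv_nonneg _ _)).trans h.ma
  kr := h.kr.trans (mul_le_mul_of_nonneg_right (Real.exp_le_exp.2 h4) (dv_nonneg _ _))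
  de := (mul_le_mul_of_nonneg_right h5 (ms_nonneg S)).trans h.de

end

end Vale.Agent.P057T.Rg
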