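import Vale.Agent.P057T.Rg.Defs
import Vale.Agent.P057T.Sb.Defs

/-! Entry to and exit from the relative step: regular hosts, windows, new coordinates. -/

open MvPolynomial Finset
open scoped Real

namespace Vale.Agent.P057T.Rg

open Vale.Agent.P057T.Eq Vale.Agent.P057T.Cfg Vale.Agent.P057L

noncomputable section

variable {ι : Type} [Fintype ι] [DecidableEq ι]

/-- data of a regular host in the form used by `Sb` -/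
structure Rh (S : St ι) (WW : ℕ → ℝ) (x0 : ℤ) (l : ι → ℤ) (s N : ℕ) (A : Finset ℤ)
    (R b c Y : ℝ) : Prop where
  inv : S.Inv s N A (fun _ => R) (fun _ => R) R R b
  wd : S.G.Wd WW
  w0 : WW 0 ≤ R
  rs : Rs S.G WW c Y s
  l0 : l ≠ 0
  l1 : ∀ a, l a ≠ 0 → S.G.w a = 1
  pj : ∀ z, eval (cz z) S.pi = (Sb.pj x0 l z : ℝ)

def RH (s N : ℕ) (A : Finset ℤ) (D R b c Y : ℝ) : Prop :=
  ∃ (ι : Type) (_ : Fintype ι) (_ : DecidableEq ι) (S : St ι) (WW : ℕ → ℝ) (x0 : ℤ) (l : ι → ℤ),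
    (Fintype.card ι : ℝ) ≤ D ∧ Rh S WW x0 l s N A R b c Y

/-- the window (class `y` mod `n`, narrowing `σ`, centre `c'`) as a state -/
def St.win (S : St ι) (n : ℕ) (σ : ℝ) (y : ι → ℤ) (c' : ι → ℝ) : St ι where
  G := dil S.G n σ
  p := (dat S.G S.AT y n σ c').p
  pi := aeval (fun a => C (y a : ℝ) + C (n : ℝ) * X a) S.pi

/-- periodised Gaussian window -/
def pw (ρ x : ℝ) : ℝ := ∑' y : ℤ, Real.exp (-π * (((y : ℝ) - x) / ρ) ^ 2)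

/-- entry: every host has a regular subhost -/
def ENT : Prop := ∀ (s c : ℕ) (η : ℝ), 1 ≤ s → 0 < η → η ≤ 1 / 2 → ∃ C : ℕ, ∀ (X : ℝ) (N : ℕ)
  (A : Finset ℤ) (D P R Y b : ℝ), (C : ℝ) ≤ X → A ⊆ rg N → 1 ≤ D → D ≤ P → 2 ≤ P → R ≤ Y →
    C * X ≤ Y → C * P ≤ Y → Real.exp (-X) ≤ b → P ^ C * Y < Real.log N → Ho s N A D R b →
    RH s N A D (P ^ C * Y) ((1 - η) * b) (P ^ c) Y

/-- a window is a state; mass and density are read on the window -/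
def WIN : Prop := ∀ (s N : ℕ) (A : Finset ℤ) (ι : Type) [Fintype ι] [DecidableEq ι] (S : St ι)
  (R b Z : ℝ) (n : ℕ) (σ : ℝ) (y : ι → ℤ) (c' : ι → ℝ),
    S.Inv s N A (fun _ => R) (fun _ => R) R R b → 1 ≤ n → (n : ℝ) ≤ Real.exp Z → 1 ≤ σ →
    σ ≤ Real.exp Z →
    (S.win n σ y c').Ok s ∧
    (∀ z, (S.win n σ y c').wt z = ww S.G S.AT σ c' (y + (n : ℤ) • z)) ∧
    (∀ z, eval (cz z) (S.win n σ y c').pi = eval (cz (y + (n : ℤ) • z)) S.pi) ∧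
    (S.win n σ y c').G.dv univ = S.G.dv univ * ((σ * n) ^ Fintype.card ι)⁻¹ ∧
    ∀ γ b' : ℝ, Real.exp (-γ) * (S.win n σ y c').G.dv univ ≤ (S.win n σ y c').ms →
      b' * (S.win n σ y c').ms ≤ (S.win n σ y c').hit A →
      (S.win n σ y c').Inv s N A (fun _ => R + 2 * Fintype.card ι * Z)
        (fun _ => R + 2 * Fintype.card ι * Z) γ (R + 2 * Fintype.card ι * Z) b'

/-- exit through `Sb.Inc` -/
def EXI : Prop := ∀ (s N : ℕ) (A : Finset ℤ) (ι : Type) [Fintype ι] [DecidableEq ι] (S : St ι)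
  (WW : ℕ → ℝ) (x0 : ℤ) (l : ι → ℤ) (D R b c Y Z Z' α κ : ℝ) (M : ℕ), (Fintype.card ι : ℝ) ≤ D →
    Rh S WW x0 l s N A R b c Y → 1 ≤ R → 0 < α → 0 ≤ Z → Z ≤ Z' → Cnts S.G S.AT M (1 / 2) Z' →
    Sb.Inc S.G S.AT (Sb.fA A α x0 l) κ Z → Ho0 s N A D (R + 2 * D * Z) (κ * α)

/-- new coordinates: `Q a` has weighted degree `≤ d a`, the new variable has level `d a` -/
def ADD : Prop := ∀ (s N : ℕ) (A : Finset ℤ) (ι κ : Type) [Fintype ι] [DecidableEq ι] [Fintype κ]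
  [DecidableEq κ] (S : St ι) (R γ γ' b b' ρ l : ℝ) (d : κ → ℕ) (Q : κ → MvPolynomial ι ℝ),
    S.Inv s N A (fun _ => R) (fun _ => R) γ R b → (∀ a, 1 ≤ d a ∧ d a ≤ s) →
    (∀ a, S.G.Dl (d a + 1) (Q a)) → 0 < ρ → 1 + ρ⁻¹ ≤ Real.exp l →
    Real.exp (-γ') * ρ ^ Fintype.card κ * S.G.dv univ ≤
      ∑' z : ι → ℤ, S.wt z * ∏ a, pw ρ (eval (cz z) (Q a)) →
    b' * ∑' z : ι → ℤ, S.wt z * ∏ a, pw ρ (eval (cz z) (Q a)) ≤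
      ∑' z : ι → ℤ, S.wt z * (∏ a, pw ρ (eval (cz z) (Q a))) * S.ind A z →
    ∃ S' : St (ι ⊕ κ), S'.Inv s N A (fun _ => R + Fintype.card κ * l) (fun _ => R + Fintype.card κ * l)
      γ' (R + Fintype.card κ * l) b'

/-- any periodic Lipschitz window is a mixture of narrow Gaussian windows -/
def MIXW : Prop := ∃ c : ℕ, ∀ (α κ : Type) [Countable α] [Fintype κ] [DecidableEq κ] (μ f : α → ℝ)
  (u : α → κ → ℝ) (w : (κ → ℝ) → ℝ) (M b η Z : ℝ), Summable μ → (∀ z, 0 ≤ μ z) →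
    (∀ z, 0 ≤ f z ∧ f z ≤ 1) → (∀ x, 0 ≤ w x ∧ w x ≤ 1) →
    (∀ (x : κ → ℝ) (k : κ → ℤ), w (x + fun a => (k a : ℝ)) = w x) →
    (∀ x x', |w x - w x'| ≤ Real.exp Z * ∑ a, |x a - x' a|) → 1 ≤ Z → (Fintype.card κ : ℝ) ≤ Real.exp Z →
    0 < M → ∑' z, μ z ≤ Real.exp Z * M → Real.exp (-Z) * M ≤ ∑' z, μ z * w (u z) →
    Real.exp (-Z) ≤ b → Real.exp (-Z) ≤ η → η ≤ 1 / 2 →
    b * ∑' z, μ z * w (u z) ≤ ∑' z, μ z * w (u z) * f z →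
    ∃ ζ : κ → ℝ,
      Real.exp (-(c * Z)) * Real.exp (-(c * Z)) ^ Fintype.card κ * M ≤
        ∑' z, μ z * ∏ a, pw (Real.exp (-(c * Z))) (u z a - ζ a) ∧
      (1 - η) * b * ∑' z, μ z * ∏ a, pw (Real.exp (-(c * Z))) (u z a - ζ a) ≤
        ∑' z, μ z * (∏ a, pw (Real.exp (-(c * Z))) (u z a - ζ a)) * f z

/-- a window of the host times a Lipschitz window in `r` polynomials with large mean -/
def IncW (S : St ι) (s r : ℕ) (F : (ι → ℤ) → ℝ) (κ Z : ℝ) : Prop :=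
  ∃ (n : ℕ) (σ : ℝ) (y : ι → ℤ) (c' : ι → ℝ) (τ : Type) (_ : Fintype τ) (_ : DecidableEq τ)
    (d : τ → ℕ) (Q : τ → MvPolynomial ι ℝ) (w : (τ → ℝ) → ℝ),
    1 ≤ n ∧ (n : ℝ) ≤ Real.exp Z ∧ 1 ≤ σ ∧ σ ≤ Real.exp Z ∧ Fintype.card τ ≤ r ∧
    (∀ a, 1 ≤ d a ∧ d a ≤ s ∧ S.G.Dl (d a + 1) (Q a)) ∧ (∀ x, 0 ≤ w x ∧ w x ≤ 1) ∧
    (∀ (x : τ → ℝ) (k : τ → ℤ), w (x + fun a => (k a : ℝ)) = w x) ∧
    (∀ x x', |w x - w x'| ≤ Real.exp Z * ∑ a, |x a - x' a|) ∧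
    Real.exp (-Z) * (S.G.dv univ * ((σ * n) ^ Fintype.card ι)⁻¹) ≤
      ∑' z : ι → ℤ, ww S.G S.AT σ c' (y + (n : ℤ) • z) *
        w (fun a => eval (cz (y + (n : ℤ) • z)) (Q a)) ∧
    κ * ∑' z : ι → ℤ, ww S.G S.AT σ c' (y + (n : ℤ) • z) *
        w (fun a => eval (cz (y + (n : ℤ) • z)) (Q a)) ≤
      ∑' z : ι → ℤ, ww S.G S.AT σ c' (y + (n : ℤ) • z) *
        w (fun a => eval (cz (y + (n : ℤ) • z)) (Q a)) * F (y + (n : ℤ) • z)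

/-- exit with new coordinates -/
def EXW : Prop := ∃ c : ℕ, ∀ (s N : ℕ) (A : Finset ℤ) (ι : Type) [Fintype ι] [DecidableEq ι]
  (S : St ι) (WW : ℕ → ℝ) (x0 : ℤ) (l : ι → ℤ) (D R b c0 Y Z Z' α κ η : ℝ) (M r : ℕ),
    (Fintype.card ι : ℝ) ≤ D → Rh S WW x0 l s N A R b c0 Y → 1 ≤ R → 1 ≤ Z → Z ≤ Z' →
    (r : ℝ) ≤ Real.exp Z → 0 < α → Real.exp (-Z) ≤ κ * α → Real.exp (-Z) ≤ η → η ≤ 1 / 2 →
    Cnts S.G S.AT M (1 / 2) Z' → IncW S s r (Sb.fA A α x0 l) κ Z →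
    Ho0 s N A (D + r) (R + c * (D + r + 1) * Z) ((1 - η) * (κ * α))

end

end Vale.Agent.P057T.Rg
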