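import Vale.Agent.P057T.Rg.Defs2
import Vale.Agent.P057T.Rg.Br

/-! Entry: every host has a regular subhost. -/

open MvPolynomial Finset

namespace Vale.Agent.P057T.Rg

open Vale.Agent.P057T.Eq Vale.Agent.P057T.Cfg Vale.Agent.P057L

set_option linter.unusedSectionVars false

namespace En

variable {ι : Type} [Fintype ι] [DecidableEq ι]

theorem low {w : ι → ℕ} (hw : ∀ a, 1 ≤ w a) {m : ι →₀ ℕ} (h : Finsupp.weight w m < 2) :
    m = 0 ∨ ∃ a, m = Finsupp.single a 1 ∧ w a = 1 := by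
  by_cases h0 : m = 0
  · exact Or.inl h0
  right
  obtain ⟨a, ha⟩ := Finsupp.support_nonempty_iff.2 h0
  have e : Finsupp.weight w m = ∑ i ∈ m.support, m i * w i := by
    rw [Finsupp.weight_apply]; rfl
  rw [e] at h
  have h1 : 1 ≤ m a := Nat.one_le_iff_ne_zero.2 (Finsupp.mem_support_iff.1 ha)
  have h2 : m a * w a ≤ ∑ i ∈ m.support, m i * w i :=
    Finset.single_le_sum (f := fun i => m i * w i) (fun _ _ => Nat.zero_le _) ha
  have h3 := hw a
  have h4 : m a = 1 := by nlinarith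
  have h5 : w a = 1 := by nlinarith
  refine ⟨a, ?_, h5⟩
  ext b
  by_cases hb : b = a
  · simp [hb, h4]
  · rw [Finsupp.single_eq_of_ne hb]
    by_contra h6
    have h7 : ({a, b} : Finset ι) ⊆ m.support := by
      intro x hx
      rcases mem_insert.1 hx with rfl | hx
      · exact ha
      · rw [mem_singleton.1 hx]; exact Finsupp.mem_support_iff.2 h6
    have h8 := Finset.sum_le_sum_of_subset (f := fun i => m i * w i) h7
    rw [Finset.sum_pair (Ne.symm hb)] at h8
    have h9 : 1 ≤ m b * w b := Nat.mul_pos (Nat.pos_of_ne_zero h6) (hw b)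
    rw [h4, h5] at h8
    omega

theorem aff {G : GT ι} (hw : ∀ a, 1 ≤ G.w a) {p : MvPolynomial ι ℝ} (hz : IsZ p) (hd : G.Dl 2 p) :
    ∃ (x0 : ℤ) (l : ι → ℤ), (∀ a, l a ≠ 0 → G.w a = 1) ∧
      p = C (x0 : ℝ) + ∑ a, C (l a : ℝ) * X a := by
  choose k hk using hz
  refine ⟨k 0, fun a => k (Finsupp.single a 1), fun a ha => ?_, ?_⟩
  · have h1 : Finsupp.single a 1 ∈ p.support := by
      rw [mem_support_iff, hk]; exact_mod_cast ha
    have h2 := hd _ h1
    rw [Finsupp.weight_single] at h2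
    have := hw a
    simp only [smul_eq_mul] at h2
    omega
  · ext m
    simp only [coeff_add, coeff_C, coeff_sum, coeff_C_mul, coeff_X', mul_ite, mul_one, mul_zero]
    by_cases h0 : m = 0
    · subst h0
      simp [hk, Finsupp.single_eq_zero]
    · rw [if_neg (Ne.symm h0), zero_add]
      by_cases h1 : ∃ a, Finsupp.single a 1 = m
      · obtain ⟨a, rfl⟩ := h1
        rw [Finset.sum_eq_single a, if_pos rfl, hk]
        · intro b _ hb
          rw [if_neg]
          intro h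
          exact hb (Finsupp.single_left_injective one_ne_zero h)
        · simp
      · rw [Finset.sum_eq_zero fun a _ => if_neg fun h => h1 ⟨a, h⟩]
        by_contra h2
        rcases low hw (hd m (mem_support_iff.2 h2)) with h | ⟨a, h, -⟩
        · exact h0 h
        · exact h1 ⟨a, h.symm⟩

theorem big_mono {G : GT ι} {g : ℕ} {H H' : ℝ} (h : G.Big g H) (hH : H' ≤ H) : G.Big g H' :=
  fun e k I h1 h2 h3 h4 ⟨b, hb, hl⟩ => h e k I h1 h2 h3 h4 ⟨b, hb, hl.trans hH⟩

theorem small_mono {G : GT ι} {g : ℕ} {η η' : ℝ} (h : G.Small g η) (hη : η ≤ η') :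
    G.Small g η' := fun j hj hg =>
  let ⟨v, h1, h2, h3⟩ := h j hj hg
  ⟨v, h1, h2, fun a => (h3 a).trans hη⟩

theorem num {P Y u v : ℝ} {c C0 : ℕ} (hP : 2 ≤ P) (hY : 1 ≤ Y) (hu : Y ≤ u) (hv0 : 0 < v)
    (hv : v ≤ Y + P ^ C0 * Y) (h : 2 * ((c + C0 + 1 : ℕ) : ℝ) * P ≤ Y) :
    Real.exp (-(P ^ (c + 1) * u)) ≤ Real.exp (-(P ^ c * u)) * (P ^ c * v)⁻¹ := by
  have P0 : 0 ≤ P := by linarith
  have Pc : 1 ≤ P ^ c := one_le_pow₀ (by linarith)
  have PC : 1 ≤ P ^ C0 := one_le_pow₀ (by linarith)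
  have PE : P ≤ Real.exp P := by have := Real.add_one_le_exp P; linarith
  have e1 : P ^ (c + C0 + 1) ≤ Real.exp (Y / 2) := by
    have e := pow_le_pow_left₀ P0 PE (c + C0 + 1)
    rw [← Real.exp_nat_mul] at e
    exact e.trans (Real.exp_le_exp.2 (by linarith))
  have e2 : Y ≤ Real.exp (Y / 2) := by
    have h1 := Real.add_one_le_exp (Y / 2 - 1)
    have h2 : Real.exp (Y / 2) = Real.exp (Y / 2 - 1) * Real.exp 1 := by
      rw [← Real.exp_add]; congr 1; ring
    have h3 := Real.add_one_le_exp 1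
    have h4 := Real.exp_pos (Y / 2 - 1)
    nlinarith
  have e3 : P ^ c * v ≤ P ^ (c + C0 + 1) * Y := by
    have h1 : v ≤ P ^ C0 * P * Y := by
      have := mul_le_mul_of_nonneg_right PC (by linarith : 0 ≤ Y)
      have := mul_le_mul_of_nonneg_right hP (by positivity : 0 ≤ P ^ C0 * Y)
      linarith
    have h2 := mul_le_mul_of_nonneg_left h1 (by linarith : 0 ≤ P ^ c)
    calc P ^ c * v ≤ P ^ c * (P ^ C0 * P * Y) := h2
      _ = _ := by ring
  have e4 : P ^ c * v ≤ Real.exp (P ^ c * u) := by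
    refine e3.trans ((mul_le_mul e1 e2 (by linarith) (Real.exp_pos _).le).trans ?_)
    rw [← Real.exp_add]
    refine Real.exp_le_exp.2 ?_
    have := mul_le_mul Pc hu (by linarith) (by linarith)
    linarith
  have e5 : Real.exp (-(P ^ c * u)) ≤ (P ^ c * v)⁻¹ := by
    rw [Real.exp_neg]
    exact inv_anti₀ (by positivity) e4
  refine le_trans ?_ (mul_le_mul_of_nonneg_left e5 (Real.exp_pos _).le)
  rw [← Real.exp_add]
  refine Real.exp_le_exp.2 ?_
  have := mul_le_mul_of_nonneg_right hP (by nlinarith : 0 ≤ P ^ c * u)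
  have e : P ^ (c + 1) * u = P * (P ^ c * u) := by ring
  linarith

theorem ho0_mono {s N : ℕ} {A : Finset ℤ} {D R b D' R' b' : ℝ} (h : Ho0 s N A D R b) (h1 : D ≤ D')
    (h2 : R ≤ R') (h3 : b' ≤ b) : Ho0 s N A D' R' b' := by
  obtain ⟨ι, _, _, S, hc, hI⟩ := h
  exact ⟨ι, _, _, S, hc.trans h1, hI.mono (fun _ => h2) (fun _ => h2) h2 h2 h3⟩

theorem ho_mono {s N : ℕ} {A : Finset ℤ} {D R b D' R' b' : ℝ} (h : Ho s N A D R b) (h1 : D ≤ D')
    (h2 : R ≤ R') (h3 : b' ≤ b) : Ho s N A D' R' b' := by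
  rcases h with h | h
  · exact Or.inl ⟨h.1, (mul_le_mul_of_nonneg_right h3 (Nat.cast_nonneg N)).trans h.2⟩
  · exact Or.inr (ho0_mono h h1 h2 h3)

end En

open En in
theorem ent (hI : INI) (hR : REG) : ENT := by
  intro s c η hs η0 η2
  obtain ⟨C0, hR⟩ := hR s (c + 1)
  obtain ⟨C1, hI⟩ := hI s (η / 2) hs (by linarith)
  obtain ⟨C2, hC2⟩ := exists_nat_ge (2 / η)
  refine ⟨2 * (c + C0 + 1) + C1 + C2, ?_⟩
  intro X N A D P R Y b hX hA D1 hD P2 hRY hXY hPY hb hN hH
  have c0 : (0 : ℝ) ≤ c := Nat.cast_nonneg _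
  have C00 : (0 : ℝ) ≤ C0 := Nat.cast_nonneg _
  have C10 : (0 : ℝ) ≤ C1 := Nat.cast_nonneg _
  have C20 : (0 : ℝ) ≤ C2 := Nat.cast_nonneg _
  push_cast at hX hXY hPY
  have X2 : 2 ≤ X := by linarith
  have b0 : 0 < b := (Real.exp_pos _).trans_le hb
  have hY2 : 2 * X ≤ Y := by nlinarith
  have hY1 : C1 * X ≤ Y := by nlinarith
  have hY3 : C2 ≤ Y := by linarith
  have Y1 : 1 ≤ Y := by linarith
  have hP1 : 1 ≤ P := by linarith
  have hC : P ^ C0 ≤ P ^ (2 * (c + C0 + 1) + C1 + C2) := pow_le_pow_right₀ hP1 (by omega)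
  have hCY := mul_le_mul_of_nonneg_right hC (by linarith : 0 ≤ Y)
  have PC : 1 ≤ P ^ C0 := one_le_pow₀ hP1
  have hYY : Y ≤ P ^ C0 * Y := le_mul_of_one_le_left (by linarith) PC
  have h0 : Ho0 s N A D Y ((1 - η / 2) * b) := by
    rcases hH with h | h
    · exact ho0_mono (hI X N A b (by linarith) hA hb (by linarith) h.2) D1 hY1 le_rfl
    · exact ho0_mono h le_rfl hRY (by nlinarith)
  have hb1 : Real.exp (-Y) ≤ (1 - η / 2) * b := by
    have e1 : Real.exp (-Y) ≤ Real.exp (-1) * Real.exp (-X) := by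
      rw [← Real.exp_add]; exact Real.exp_le_exp.2 (by linarith)
    have e2 : Real.exp (-1) ≤ 1 / 2 := by
      have := Real.add_one_le_exp 1
      rw [Real.exp_neg, one_div]
      exact inv_anti₀ (by norm_num) (by linarith)
    exact e1.trans (mul_le_mul (by linarith) hb (Real.exp_pos _).le (by linarith))
  have hη1 : Real.exp (-Y) ≤ η / 2 := by
    have e1 : 2 / η ≤ Real.exp Y := by have := Real.add_one_le_exp Y; linarith
    rw [Real.exp_neg, ← inv_div]
    exact inv_anti₀ (by positivity) e1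
  obtain ⟨ι, _, _, S, WW, hc, hInv, hW, hW0, hRg⟩ :=
    hR N A D P Y _ (η / 2) hD P2 Y1 hb1 hη1 (by linarith) h0
  obtain ⟨x0, l, l1, hpi⟩ := aff hInv.ok.ok.w1 hInv.ok.pz hInv.ok.p1
  have hev : ∀ z : ι → ℤ, eval (cz z) S.pi = (Sb.pj x0 l z : ℝ) := fun z => by
    rw [hpi]
    simp [Sb.pj, cz]
  refine ⟨ι, _, _, S, WW, x0, l, hc, hInv.mono (fun _ => hCY) (fun _ => hCY) hCY hCY ?_, hW,
    hW0.trans hCY, fun g hg => ⟨big_mono (hRg g hg).1 (Real.exp_le_exp.2 ?_),
      small_mono (hRg g hg).2 ((min_le_left _ _).trans ?_)⟩, ?_, l1, hev⟩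
  · have : 1 - η ≤ (1 - η / 2) * (1 - η / 2) := by nlinarith
    have := mul_le_mul_of_nonneg_right this b0.le
    linarith
  · have := hW.nn g
    exact mul_le_mul_of_nonneg_right (pow_le_pow_right₀ hP1 (Nat.le_succ c)) (by linarith)
  · have h1 := hW.nn (g + 1)
    have h2 := hW.nn g
    have h3 := hW.anti (Nat.zero_le g)
    refine num P2 Y1 (by linarith) (by linarith) (C0 := C0) (by linarith) ?_
    push_cast
    nlinarith
  · rintro rfl
    have hk : S.ker = Lat (gp S.G 0) := by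
      ext z
      simp only [St.ker, Set.mem_setOf_eq, SetLike.mem_coe, and_iff_left_iff_imp]
      intro _
      rw [hpi]
      simp
    have hV : ∀ a b, a ∉ gp S.G 0 → b ∈ gp S.G 0 → S.G.A a b = 0 := by
      intro a b ha hb'
      by_contra h
      have := (hInv.ok.ok.blk a b (Or.inl h)).1
      simp only [gp, mem_filter, mem_univ, true_and] at ha hb'
      exact ha (this.trans hb')
    have h1 := BrP.dv_pos hInv.ok.ok hV
    have h2 := BrP.dv_le_tk hInv.ok.ok hV
    have h3 := hInv.kr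
    rw [hk] at h3
    have h4 := mul_le_mul_of_nonneg_left h2 (Nat.cast_nonneg N)
    have h5 : (N : ℝ) ≤ Real.exp (P ^ C0 * Y) := le_of_mul_le_mul_right (h4.trans h3) h1
    have h6 : 0 < Real.log N := by linarith
    have h7 : (0 : ℝ) < N := by
      rcases (Nat.cast_nonneg N : (0 : ℝ) ≤ N).eq_or_lt with h | h
      · rw [← h, Real.log_zero] at h6; exact absurd h6 (lt_irrefl _)
      · exact h
    have h8 := (Real.log_le_iff_le_exp h7).2 h5
    linarith

end Vale.Agent.P057T.Rg
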