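import Vale.Agent.P057T.Rg.Defs2
import Vale.Agent.P057T.Rg.Pert

/-! Exit from the relative step: a dense window is a host. -/

set_option linter.all false

open MvPolynomial Finset
open scoped Real

namespace Vale.Agent.P057T.Rg

open Vale.Agent.P057T.Eq Vale.Agent.P057T.Cfg Vale.Agent.P057L

noncomputable section

namespace Xi

variable {ι : Type} [Fintype ι] [DecidableEq ι]

open Pe in
theorem dl_sub {G : GT ι} {u : ι → MvPolynomial ι ℝ} (h : ∀ a, G.Dl (G.w a + 1) (u a)) {e : ℕ}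
    {f : MvPolynomial ι ℝ} (hf : G.Dl (e + 1) f) : G.Dl (e + 1) (aeval u f) := by
  rw [f.as_sum, map_sum]
  refine sum_induction _ (G.Dl (e + 1)) (fun _ _ => dl_add) (dl_zero _) fun m hm => ?_
  have h0 : ∀ a, Nr G (G.w a) (u a) (u a) := fun a => ⟨h a, by rw [sub_self]; exact dl_zero _⟩
  have h1 : ∀ t : Finset ι, Nr G (∑ a ∈ t, m a * G.w a) (∏ a ∈ t, u a ^ m a)
      (∏ a ∈ t, u a ^ m a) := fun t => by
    induction t using Finset.induction_on with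
    | empty => simpa using nr_C (G := G) 1
    | insert a t ha ih =>
      rw [sum_insert ha, prod_insert ha]
      exact ((h0 a).pow (m a)).mul ih
  have h2 := ((nr_C (coeff m f)).mul (h1 m.support)).1
  have h3 := hf m hm
  rw [Finsupp.weight_apply] at h3
  rw [zero_add] at h2
  rw [aeval_monomial]
  exact h2.mono h3

open Pe in
theorem dl_aff (G : GT ι) (x y : ℝ) (a : ι) : G.Dl (G.w a + 1) (C x + C y * X a) := by
  refine dl_add ((hm_dl (isWeightedHomogeneous_C G.w x)).mono (by omega)) ?_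
  have := dl_mul (hm_dl (isWeightedHomogeneous_C G.w y)) (hm_dl (isWeightedHomogeneous_X ℝ G.w a))
  exact this.mono (by omega)

theorem ev_aff (y z : ι → ℤ) (n : ℕ) (F : MvPolynomial ι ℝ) :
    eval (cz z) (aeval (fun a => C (y a : ℝ) + C (n : ℝ) * X a) F) =
      eval (cz (y + (n : ℤ) • z)) F := by
  rw [Pe.ev_aeval]
  congr 2
  funext a
  simp [cz]

theorem hit_nonneg (S : St ι) (A : Finset ℤ) : 0 ≤ S.hit A :=
  tsum_nonneg fun z => mul_nonneg (Real.exp_pos _).le (by unfold St.ind; split_ifs <;> norm_num)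

theorem ind01 (S : St ι) (A : Finset ℤ) (z : ι → ℤ) : 0 ≤ S.ind A z ∧ S.ind A z ≤ 1 := by
  unfold St.ind
  split_ifs <;> norm_num

theorem ind_eq {S W : St ι} {x0 : ℤ} {l : ι → ℤ} (A : Finset ℤ) {α : ℝ} (hα : 0 < α)
    (h : ∀ z, eval (cz z) S.pi = (Sb.pj x0 l z : ℝ)) {z z' : ι → ℤ}
    (e : eval (cz z) W.pi = eval (cz z') S.pi) : W.ind A z = α * Sb.fA A α x0 l z' := by
  unfold St.ind Sb.fA
  rw [e, h]
  by_cases h1 : Sb.pj x0 l z' ∈ A
  · rw [if_pos ⟨_, h1, rfl⟩, if_pos h1, mul_one_div_cancel hα.ne']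
  · rw [if_neg h1, mul_zero, if_neg]
    rintro ⟨x, hx, h2⟩
    exact h1 ((Int.cast_injective h2).symm ▸ hx)

theorem win_ms (hB : BR) {S W : St ι} {s M n : ℕ} {σ Z Z' : ℝ} {y : ι → ℤ} {c' : ι → ℝ}
    (h : S.Ok s) (hC : Cnts S.G S.AT M (1 / 2) Z') (hZ : Z ≤ Z') (n1 : 1 ≤ n)
    (nZ : (n : ℝ) ≤ Real.exp Z) (σ1 : 1 ≤ σ) (σZ : σ ≤ Real.exp Z)
    (hw : ∀ z, W.wt z = ww S.G S.AT σ c' (y + (n : ℤ) • z))
    (hd : W.G.dv univ = S.G.dv univ * ((σ * n) ^ Fintype.card ι)⁻¹) :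
    Real.exp (-1) * W.G.dv univ ≤ W.ms ∧ W.ms ≤ Real.exp 1 * W.G.dv univ := by
  have h1 := (hC.1 n σ n1 (nZ.trans (Real.exp_le_exp.2 hZ)) (by linarith)
    (σZ.trans (Real.exp_le_exp.2 hZ)) y c').2
  let e : Lat (univ : Finset ι) ≃ (ι → ℤ) :=
    Equiv.subtypeUnivEquiv (p := fun z => z ∈ Lat (univ : Finset ι))
      fun z a ha => absurd (mem_univ a) ha
  have h2 : ∑' z : Lat S.AT.U, ww S.G S.AT σ c' (y + (n : ℤ) • z.1) = W.ms := by
    rw [St.ms, ← e.tsum_eq]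
    exact tsum_congr fun z => (hw _).symm
  have h3 : S.G.mn S.AT.sg S.AT.U * ((σ * n) ^ S.AT.U.card)⁻¹ = W.G.dv univ := by
    rw [hd, (hB s ι S h).2.2.2.1]
    rfl
  rw [h2, h3] at h1
  have h4 := abs_le.1 h1
  have h5 : (2 : ℝ) ≤ Real.exp 1 := by linarith [Real.add_one_le_exp 1]
  have h6 : Real.exp (-1) ≤ 1 / 2 := by
    rw [Real.exp_neg, one_div]
    exact inv_anti₀ (by norm_num) h5
  have d0 := dv_nonneg W.G univ
  constructor <;> nlinarith [h4.1, h4.2]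

end Xi

open Xi

theorem exi (hW : WIN) (hB : BR) : EXI := by
  rintro s N A ι _ _ S WW x0 l D R b c Y Z Z' α κ M hD h R1 hα Z0 hZ hC ⟨n, σ, y, c', n1, nZ, σ1, σZ, hk⟩
  obtain ⟨k1, k2, k3, k4, k5⟩ := hW s N A ι S R b Z n σ y c' h.inv n1 nZ σ1 σZ
  have m1 := (win_ms hB h.inv.ok hC hZ n1 nZ σ1 σZ k2 k4).1
  have m2 : κ * α * (S.win n σ y c').ms ≤ (S.win n σ y c').hit A := by
    have e1 : (S.win n σ y c').ms = ∑' z : ι → ℤ, ww S.G S.AT σ c' (y + (n : ℤ) • z) :=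
      tsum_congr k2
    have e2 : (S.win n σ y c').hit A = α * ∑' z : ι → ℤ, ww S.G S.AT σ c' (y + (n : ℤ) • z) *
        Sb.fA A α x0 l (y + (n : ℤ) • z) := by
      rw [← tsum_mul_left]
      exact tsum_congr fun z => by rw [k2, ind_eq A hα h.pj (k3 z)]; ring
    rw [e1, e2, mul_comm κ, mul_assoc]
    exact mul_le_mul_of_nonneg_left hk hα.le
  have c0 : (0 : ℝ) ≤ Fintype.card ι := Nat.cast_nonneg _
  have t1 : R + 2 * Fintype.card ι * Z ≤ R + 2 * D * Z := by nlinarith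
  exact ⟨ι, inferInstance, inferInstance, _, hD, (k5 1 _ m1 m2).mono (fun _ => t1) (fun _ => t1)
    (by nlinarith) t1 le_rfl⟩

theorem exw (hW : WIN) (hA : ADD) (hM : MIXW) (hB : BR) : EXW := by
  obtain ⟨c, hM⟩ := hM
  refine ⟨c + 2, ?_⟩
  rintro s N A ι _ _ S WW x0 l D R b c0 Y Z Z' α κ η M r hD h R1 Z1 hZ hr hα hκ η0 η1 hC
    ⟨n, σ, y, c', τ, _, _, d, Q, w, n1, nZ, σ1, σZ, τr, hd, w0, wp, wl, hm, hk⟩
  obtain ⟨k1, k2, k3, k4, k5⟩ := hW s N A ι S R b Z n σ y c' h.inv n1 nZ σ1 σZ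
  obtain ⟨m1, m2⟩ := win_ms hB h.inv.ok hC hZ n1 nZ σ1 σZ k2 k4
  have i1 := k5 1 0 m1 (by rw [zero_mul]; exact hit_nonneg _ A)
  obtain ⟨-, s1, -, -, d1⟩ := hB s ι _ k1
  have τr' : (Fintype.card τ : ℝ) ≤ r := Nat.cast_le.2 τr
  obtain ⟨ζ, z1, z2⟩ := hM (ι → ℤ) τ (S.win n σ y c').wt ((S.win n σ y c').ind A)
    (fun z a => eval (cz (y + (n : ℤ) • z)) (Q a)) w ((S.win n σ y c').G.dv univ) (κ * α) η Z s1
    (fun _ => (Real.exp_pos _).le) (ind01 _ A) w0 wp wl Z1 (τr'.trans hr)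
    (d1 univ fun a _ ha => absurd (mem_univ a) ha)
    (m2.trans (mul_le_mul_of_nonneg_right (Real.exp_le_exp.2 Z1) (dv_nonneg _ _)))
    (by rw [k4]; simp only [k2]; exact hm) hκ η0 η1 (by
      have e2 : ∑' z : ι → ℤ, (S.win n σ y c').wt z * w (fun a => eval (cz (y + (n : ℤ) • z)) (Q a)) *
          (S.win n σ y c').ind A z = α * ∑' z : ι → ℤ, ww S.G S.AT σ c' (y + (n : ℤ) • z) *
          w (fun a => eval (cz (y + (n : ℤ) • z)) (Q a)) * Sb.fA A α x0 l (y + (n : ℤ) • z) := by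
        rw [← tsum_mul_left]
        exact tsum_congr fun z => by rw [k2, ind_eq A hα h.pj (k3 z)]; ring
      rw [e2, mul_comm κ, mul_assoc]
      simp only [k2]
      exact mul_le_mul_of_nonneg_left hk hα.le)
  have ev : ∀ (z : ι → ℤ) (a : τ), eval (cz z)
      (aeval (fun a => C (y a : ℝ) + C (n : ℝ) * X a) (Q a) - C (ζ a)) =
      eval (cz (y + (n : ℤ) • z)) (Q a) - ζ a := fun z a => by rw [map_sub, ev_aff, eval_C]
  have cZ : 0 ≤ c * Z := by positivity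
  obtain ⟨S', i2⟩ := hA s N A ι τ (S.win n σ y c') _ 1 (c * Z) 0 ((1 - η) * (κ * α))
    (Real.exp (-(c * Z))) (c * Z + 1) d
    (fun a => aeval (fun a => C (y a : ℝ) + C (n : ℝ) * X a) (Q a) - C (ζ a)) i1
    (fun a => ⟨(hd a).1, (hd a).2.1⟩) (fun a => by
      rw [sub_eq_add_neg, ← map_neg]
      exact Pe.dl_add (dl_sub (G := S.G) (fun b => dl_aff _ _ _ b) (hd a).2.2)
        ((Pe.hm_dl (isWeightedHomogeneous_C S.G.w _)).mono (by omega))) (Real.exp_pos _) (by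
      rw [Real.exp_neg, inv_inv, Real.exp_add]
      nlinarith [Real.add_one_le_exp 1, Real.add_one_le_exp (c * Z)])
    (by simp only [ev]; exact z1) (by simp only [ev]; exact z2)
  have c1 : (0 : ℝ) ≤ Fintype.card ι := Nat.cast_nonneg _
  have c2 : (0 : ℝ) ≤ Fintype.card τ := Nat.cast_nonneg _
  have c3 : (0 : ℝ) ≤ c := Nat.cast_nonneg _
  have D0 : 0 ≤ D := c1.trans hD
  have r0 : (0 : ℝ) ≤ r := Nat.cast_nonneg _
  have t0 : ((c + 2 : ℕ) : ℝ) * (D + r + 1) * Z =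
      2 * D * Z + r * (c * Z + 2 * Z) + c * Z + (c * Z * D + 2 * Z) := by push_cast; ring
  have t2 : Fintype.card τ * (c * Z + 1) ≤ r * (c * Z + 2 * Z) :=
    mul_le_mul τr' (by linarith) (by linarith) r0
  have t3 : 2 * Fintype.card ι * Z ≤ 2 * D * Z := by nlinarith
  have t4 : 0 ≤ c * Z * D := by positivity
  have t5 : 0 ≤ 2 * D * Z := by positivity
  have t6 : 0 ≤ r * (c * Z + 2 * Z) := by positivity
  have t1 : R + 2 * Fintype.card ι * Z + Fintype.card τ * (c * Z + 1) ≤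
      R + ((c + 2 : ℕ) : ℝ) * (D + r + 1) * Z := by rw [t0]; linarith
  refine ⟨ι ⊕ τ, inferInstance, inferInstance, S', ?_, i2.mono (fun _ => t1) (fun _ => t1)
    (by rw [t0]; linarith) t1 le_rfl⟩
  rw [Fintype.card_sum]
  push_cast
  linarith

end

end Vale.Agent.P057T.Rg
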