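import Vale.Agent.P057T.Rg.Defs2
import Vale.Agent.P057T.Rg.Pert
import Vale.Agent.P057T.Rg.Br

/-! Row `EXW`: exit with new coordinates. -/

open MvPolynomial Finset
open scoped Real

namespace Vale.Agent.P057T.Rg.ExwH29

open Vale.Agent.P057T.Eq Vale.Agent.P057T.Cfg Vale.Agent.P057L Vale.Agent.P057T.Rg.Pe

set_option linter.all false

noncomputable section

variable {ι : Type} [Fintype ι] [DecidableEq ι]

theorem dl_le {G : GT ι} {e e' : ℕ} {F : MvPolynomial ι ℝ} (h : G.Dl e F) (he : e ≤ e') :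
    G.Dl e' F := fun m hm => lt_of_lt_of_le (h m hm) he

theorem dl_sub {G : GT ι} {u : ι → MvPolynomial ι ℝ} (h : ∀ a, G.Dl (G.w a + 1) (u a)) {e : ℕ}
    {f : MvPolynomial ι ℝ} (hf : G.Dl (e + 1) f) : G.Dl (e + 1) (aeval u f) := by
  rw [f.as_sum, map_sum]
  refine sum_induction _ (G.Dl (e + 1)) (fun _ _ => dl_add) (dl_zero _) fun m hm => ?_
  have h0 : ∀ a, Nr G (G.w a) (u a) (u a) := fun a => ⟨h a, by rw [sub_self]; exact dl_zero _⟩
  have h1 : ∀ t : Finset ι, Nr G (∑ a ∈ t, m a * G.w a) (∏ a ∈ t, u a ^ m a)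
      (∏ a ∈ t, u a ^ m a) := fun t => by
    induction t using Finset.induction_on with
    | empty => simpa using nr_C (G := G) 1
    | insert a t ha ih =>
      rw [sum_insert ha, prod_insert ha]
      exact ((h0 a).pow (m a)).mul ih
  have h2 := ((nr_C (coeff m f)).mul (h1 m.support)).1
  have h3 := hf m hm
  rw [Finsupp.weight_apply] at h3
  rw [zero_add] at h2
  rw [aeval_monomial]
  exact dl_le h2 h3

theorem dl_C (G : GT ι) (e : ℕ) (c : ℝ) : G.Dl (e + 1) (C c) :=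
  dl_le (nr_C (G := G) c).1 (by omega)

theorem dl_aff (G : GT ι) (x c : ℝ) (a : ι) : G.Dl (G.w a + 1) (C x + C c * X a) := by
  refine dl_add (dl_C G _ x) ?_
  have h := dl_mul (dl_C G 0 c) (hm_dl (G := G) (isWeightedHomogeneous_X ℝ G.w a))
  exact dl_le h (by omega)

theorem ev_aff (y z : ι → ℤ) (n : ℕ) (F : MvPolynomial ι ℝ) :
    eval (cz z) (aeval (fun b => C (y b : ℝ) + C (n : ℝ) * X b) F) =
      eval (cz (y + (n : ℤ) • z)) F := by
  rw [ev_aeval]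
  congr 2
  funext b
  simp [cz]

theorem mass {S : St ι} {s : ℕ} (hB : BR) (h : S.Ok s) {n : ℕ} {σ : ℝ}
    (hc : Cnt S.G S.AT (1 / 2) n σ) (y : ι → ℤ) (c : ι → ℝ) :
    1 / 2 * (S.G.dv univ * ((σ * n) ^ Fintype.card ι)⁻¹) ≤
        ∑' z : ι → ℤ, ww S.G S.AT σ c (y + (n : ℤ) • z) ∧
      ∑' z : ι → ℤ, ww S.G S.AT σ c (y + (n : ℤ) • z) ≤
        3 / 2 * (S.G.dv univ * ((σ * n) ^ Fintype.card ι)⁻¹) := by
  have h1 := (hc y c).2
  rw [(hB s ι S h).2.2.2.1] at h1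
  have h2 := (BrP.latU (ι := ι)).tsum_eq fun z => ww S.G S.AT σ c (y + (n : ℤ) • z.1)
  have h3 : S.AT.U.card = Fintype.card ι := card_univ
  rw [h3] at h1
  have h4 : ∑' z : ι → ℤ, ww S.G S.AT σ c (y + (n : ℤ) • z) =
      ∑' z : Lat S.AT.U, ww S.G S.AT σ c (y + (n : ℤ) • z.1) := h2
  rw [h4]
  have h5 := abs_le.1 h1
  constructor <;> linarith [h5.1, h5.2]

theorem num {c D r Z k t : ℝ} (c0 : 0 ≤ c) (hk : k ≤ D) (k0 : 0 ≤ k) (ht : t ≤ r) (t0 : 0 ≤ t)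
    (hZ : 1 ≤ Z) : 2 * k * Z + t * (c * Z + 1) ≤ (c + 2) * (D + r + 1) * Z ∧
      c * Z ≤ (c + 2) * (D + r + 1) * Z := by
  have h1 : k * Z ≤ D * Z := mul_le_mul_of_nonneg_right hk (by linarith)
  have h2 : t * (c * Z + 1) ≤ r * (c * Z + Z) :=
    mul_le_mul ht (by linarith) (by positivity) (by linarith)
  have D0 : 0 ≤ D * Z := mul_nonneg (by linarith) (by linarith)
  have r0 : 0 ≤ r * Z := mul_nonneg (by linarith) (by linarith)
  have h3 := mul_nonneg c0 D0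
  have h4 := mul_nonneg c0 r0
  have h5 : 0 ≤ c * Z := mul_nonneg c0 (by linarith)
  constructor <;> nlinarith

theorem exw (hW : WIN) (hA : ADD) (hM : MIXW) (hB : BR) : EXW := by
  obtain ⟨c1, hM⟩ := hM
  refine ⟨c1 + 2, ?_⟩
  intro s N A ι _ _ S WW x0 l D R b c0 Y Z Z' α κ η M r hD hR R1 Z1 ZZ hr α0 hκ hη η1 hC hI
  obtain ⟨n, σ, y, c', τ, i1, i2, d, Q, w, n1, nZ, σ1, σZ, tr, hd, w0, wp, wl, m1, m2⟩ := hI
  obtain ⟨ok1, wt1, pi1, dv1, inv1⟩ := hW s N A ι S R b Z n σ y c' hR.inv n1 nZ σ1 σZ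
  have eZ := Real.exp_le_exp.2 ZZ
  obtain ⟨a1, a2⟩ := mass hB hR.inv.ok (hC.1 n σ n1 (nZ.trans eZ) (by linarith) (σZ.trans eZ)) y c'
  set S1 := S.win n σ y c' with hS1
  have ms1 : S1.ms = ∑' z : ι → ℤ, ww S.G S.AT σ c' (y + (n : ℤ) • z) := tsum_congr wt1
  rw [← dv1, ← ms1] at a1 a2
  rw [← dv1] at m1
  simp only [← wt1] at m1 m2
  obtain ⟨-, sm1, -, -, dp1⟩ := hB s ι S1 ok1
  have M0 : 0 < S1.G.dv univ := dp1 univ fun a _ ha _ => absurd (mem_univ a) ha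
  have e2 : (2 : ℝ) ≤ Real.exp 1 := by linarith [Real.add_one_le_exp (1 : ℝ)]
  have ind0 : ∀ z, 0 ≤ S1.ind A z ∧ S1.ind A z ≤ 1 := fun z => by
    unfold St.ind
    split_ifs <;> norm_num
  have I1 := inv1 1 0 (by
      refine le_trans (mul_le_mul_of_nonneg_right ?_ M0.le) a1
      rw [Real.exp_neg, one_div]
      exact inv_anti₀ two_pos e2)
    (by rw [zero_mul]; exact tsum_nonneg fun z => mul_nonneg (Real.exp_pos _).le (ind0 z).1)
  have hF : ∀ z, Sb.fA A α x0 l (y + (n : ℤ) • z) = α⁻¹ * S1.ind A z := by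
    intro z
    unfold Sb.fA St.ind
    rw [pi1, hR.pj]
    by_cases h : Sb.pj x0 l (y + (n : ℤ) • z) ∈ A
    · rw [if_pos h, if_pos ⟨_, h, rfl⟩, mul_one, one_div]
    · rw [if_neg h, if_neg, mul_zero]
      rintro ⟨x, hx, e⟩
      exact h ((Int.cast_injective e : _ = x) ▸ hx)
  obtain ⟨ζ, z1, z2⟩ := hM (ι → ℤ) τ S1.wt (S1.ind A)
    (fun z a => eval (cz (y + (n : ℤ) • z)) (Q a)) w (S1.G.dv univ) (κ * α) η Z sm1
    (fun z => (Real.exp_pos _).le) ind0 w0 wp wl Z1 ((Nat.cast_le.2 tr).trans hr) M0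
    (a2.trans (mul_le_mul_of_nonneg_right (by linarith [Real.add_one_le_exp Z]) M0.le)) m1 hκ hη η1
    (by
      simp only [hF] at m2
      have h1 : ∀ z, S1.wt z * w (fun a => eval (cz (y + (n : ℤ) • z)) (Q a)) * (α⁻¹ * S1.ind A z) =
          α⁻¹ * (S1.wt z * w (fun a => eval (cz (y + (n : ℤ) • z)) (Q a)) * S1.ind A z) :=
        fun z => by ring
      simp only [h1] at m2
      rw [tsum_mul_left, le_inv_mul_iff₀ α0] at m2
      linarith)
  have hev : ∀ z a, eval (cz z) (aeval (fun b => C (y b : ℝ) + C (n : ℝ) * X b) (Q a) - C (ζ a)) =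
      eval (cz (y + (n : ℤ) • z)) (Q a) - ζ a := fun z a => by
    rw [map_sub, ev_aff, eval_C]
  have c0' : (0 : ℝ) ≤ c1 * Z := by positivity
  obtain ⟨S2, I2⟩ := hA s N A ι τ S1 _ 1 (c1 * Z) 0 ((1 - η) * (κ * α)) (Real.exp (-(c1 * Z)))
    (c1 * Z + 1) d (fun a => aeval (fun b => C (y b : ℝ) + C (n : ℝ) * X b) (Q a) - C (ζ a)) I1
    (fun a => ⟨(hd a).1, (hd a).2.1⟩)
    (fun a => by
      rw [sub_eq_add_neg, ← map_neg]
      exact dl_add (dl_sub (G := S.G) (fun b => dl_aff S.G _ _ b) (hd a).2.2) (dl_C _ _ _))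
    (Real.exp_pos _)
    (by
      rw [Real.exp_neg, inv_inv, Real.exp_add]
      nlinarith [Real.one_le_exp c0'])
    (by simp only [hev]; exact z1) (by simp only [hev]; exact z2)
  obtain ⟨k1, k2⟩ := num (c := c1) (Nat.cast_nonneg _) hD (Nat.cast_nonneg _)
    (Nat.cast_le.2 tr : (Fintype.card τ : ℝ) ≤ r) (Nat.cast_nonneg _) Z1
  refine ⟨ι ⊕ τ, inferInstance, inferInstance, S2, ?_, I2.mono (fun _ => ?_) (fun _ => ?_) ?_ ?_
    le_rfl⟩
  · rw [Fintype.card_sum, Nat.cast_add]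
    exact add_le_add hD (Nat.cast_le.2 tr)
  all_goals
    push_cast
    linarith

end

end Vale.Agent.P057T.Rg.ExwH29
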