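import Vale.Agent.P057T.Rg.Br
import Vale.Agent.P057T.Gau2H52
import Vale.Agent.P057T.L1

/-! Row `INI`: the first host. -/

open MvPolynomial Finset Matrix
open scoped Real
open Vale.Agent.P267.H775 Vale.Agent.P057T.Poi

namespace Vale.Agent.P057T.Rg.IniH29

open Vale.Agent.P057T.Eq Vale.Agent.P057L

set_option linter.all false

noncomputable section

def G0 (α : ℝ) : GT Unit := ⟨fun _ => 0, fun _ => 1, fun _ _ => α, fun _ _ => α⁻¹, fun _ => 0, ∅⟩

def S0 (α : ℝ) (c : ℤ) : St Unit := ⟨G0 α, fun _ => 0, X () + C (c : ℝ)⟩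

theorem gok {α : ℝ} (h : α ≠ 0) {s : ℕ} (hs : 1 ≤ s) : (G0 α).Ok s where
  w1 _ := le_rfl
  ws _ := hs
  gs _ := hs
  AB := by
    ext a b
    rw [Matrix.mul_apply, Matrix.one_apply_eq]
    simp [G0, mul_inv_cancel₀ h]
  blk _ _ _ := ⟨rfl, rfl⟩
  qh _ := isWeightedHomogeneous_zero _ _ _
  ql _ b hb := by simp [G0] at hb
  qe _ _ := rfl

theorem sok {α : ℝ} (h : α ≠ 0) {s : ℕ} (hs : 1 ≤ s) (c : ℤ) : (S0 α c).Ok s where
  ok := gok h hs
  lv _ := rfl
  pd _ m hm := by simp [S0] at hm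
  tri a ha := by simp [S0, G0] at ha
  pz := L1.IsInt.add (L1.isInt_X _) (L1.isInt_C c)
  p1 m hm := by
    have h1 := support_add hm
    rw [mem_union, support_X, mem_singleton] at h1
    rcases h1 with h1 | h1
    · rw [h1]; simp [S0, G0, Finsupp.weight_single]
    · have h2 : m = 0 := by
        by_contra h3
        rw [mem_support_iff, coeff_C, if_neg (Ne.symm h3)] at h1
        exact h1 rfl
      rw [h2]; simp

theorem qf0 (α : ℝ) (z : Unit → ℤ) : qf (G0 α).A (0 + toR z) = (α * z ()) ^ 2 := by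
  simp [qf, G0, toR, Matrix.mulVec, dotProduct]

theorem wt0 (α : ℝ) (c : ℤ) (z : Unit → ℤ) : (S0 α c).wt z = gq (G0 α).A (0 + toR z) := by
  rw [gq, qf0]
  simp [St.wt, St.sq, St.ch, GT.th, S0, G0, cz]

theorem det0 {α : ℝ} (h : α ≠ 0) : (G0 α).A.det ≠ 0 := by
  rw [Matrix.det_unique]; exact h

theorem ms0 (α : ℝ) (c : ℤ) : (S0 α c).ms = th (G0 α).A 0 := tsum_congr fun z => wt0 α c z

theorem dvu {α : ℝ} (h : 0 < α) : (G0 α).dv univ = α⁻¹ := by
  haveI : Unique (univ : Finset Unit) := ⟨⟨⟨(), mem_univ _⟩⟩, fun _ => Subtype.ext rfl⟩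
  rw [GT.dv, Matrix.det_unique]
  exact abs_of_pos (inv_pos.2 h)

theorem hV (α : ℝ) (V : Finset Unit) : ∀ a b, a ∉ V → b ∈ V → (G0 α).A a b = 0 :=
  fun _ _ ha hb => absurd hb ha

theorem tk_le {α : ℝ} (h : 0 < α) (h1 : α ≤ 1) (V : Finset Unit) :
    tk (G0 α) (Lat V) ≤ 4 * (G0 α).dv V := by
  have hG := gok h.ne' (le_refl 1)
  rw [BrP.tk_dual hG (hV α V)]
  refine mul_le_mul_of_nonneg_right ?_ (dv_nonneg _ _)
  have h2 := th_dual_le (BrP.detA_ne hG (hV α V)) zero_le_one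
    (fun i j => (abs_of_pos h).le.trans h1) 0
  rw [Matrix.inv_eq_left_inv (BrP.bl_mul hG (hV α V))] at h2
  refine h2.trans ?_
  have h3 : Fintype.card V ≤ 1 := by
    rw [Fintype.card_coe]; exact (card_le_univ V).trans (by simp)
  interval_cases (Fintype.card V) <;> norm_num

theorem tk_u (α : ℝ) : tk (G0 α) (Lat (univ : Finset Unit)) = th (G0 α).A 0 := by
  rw [th_zero]
  exact tsum_congr fun z => Set.indicator_of_mem (fun a ha => absurd (mem_univ a) ha) _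

theorem tk_ker (α : ℝ) (c : ℤ) : tk (G0 α) (S0 α c).ker ≤ 1 := by
  rw [tk, tsum_eq_single 0]
  · exact Set.indicator_apply_le' (fun _ => gq_le_one _ _) fun _ => zero_le_one
  · intro z hz
    refine Set.indicator_of_notMem (fun h => hz ?_) _
    have h1 := h.2
    funext a
    simpa [S0, cz] using h1

theorem ind01 (α : ℝ) (c : ℤ) (A : Finset ℤ) (z : Unit → ℤ) :
    0 ≤ (S0 α c).ind A z ∧ (S0 α c).ind A z ≤ 1 := by
  unfold St.ind
  split_ifs <;> norm_num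

theorem cnt (α : ℝ) {N L : ℕ} {A : Finset ℤ} (hA : A ⊆ rg N) (z : Unit → ℤ) (hz : |z ()| ≤ L) :
    (A.card : ℝ) ≤ ∑ c ∈ Ico (-(L : ℤ)) (N + L), (S0 α c).ind A z := by
  have h1 : A.image (fun x => x - z ()) ⊆ Ico (-(L : ℤ)) (N + L) := by
    intro c hc
    obtain ⟨x, hx, rfl⟩ := mem_image.1 hc
    have h2 := mem_Ico.1 (hA hx)
    have h3 := abs_le.1 hz
    rw [mem_Ico]; omega
  refine le_trans ?_ (sum_le_sum_of_subset_of_nonneg h1 fun c _ _ => (ind01 α c A z).1)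
  rw [sum_image fun x _ y _ h => sub_left_injective h, card_eq_sum_ones, Nat.cast_sum]
  refine sum_le_sum fun x hx => ?_
  unfold St.ind
  rw [if_pos ⟨x, hx, by simp [S0, cz]⟩]
  simp

theorem avg {α K : ℝ} (h : α ≠ 0) {N L : ℕ} {A : Finset ℤ} (hA : A ⊆ rg N)
    (hK : ∀ y : ℤ, (α * y) ^ 2 < K → |y| ≤ L) :
    A.card * ((1 - Real.exp (-(3 / 4 * π * K)) * 2) * th (G0 α).A 0) ≤
      ∑ c ∈ Ico (-(L : ℤ)) (N + L), (S0 α c).hit A := by
  have hs := summable_gq (det0 h) 0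
  have hc : ∀ c, Summable fun z => (S0 α c).wt z * (S0 α c).ind A z := fun c =>
    hs.of_nonneg_of_le (fun z => mul_nonneg (Real.exp_pos _).le (ind01 α c A z).1) fun z => by
      rw [wt0]; exact mul_le_of_le_one_right (gq_pos _ _).le (ind01 α c A z).2
  have ht : Summable fun n : Unit → ℤ =>
      if K ≤ qf (G0 α).A (0 + toR n) then gq (G0 α).A (0 + toR n) else 0 :=
    hs.of_nonneg_of_le (fun z => by split_ifs; exacts [(gq_pos _ _).le, le_rfl])
      fun z => by split_ifs; exacts [le_rfl, (gq_pos _ _).le]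
  have h1 := tail_le (det0 h) 0 K
  rw [Fintype.card_unit, pow_one] at h1
  unfold St.hit
  rw [← Summable.tsum_finsetSum fun c _ => hc c]
  have h2 : ∑' z : Unit → ℤ, (A.card : ℝ) * (gq (G0 α).A (0 + toR z) -
      if K ≤ qf (G0 α).A (0 + toR z) then gq (G0 α).A (0 + toR z) else 0) ≤
      ∑' z : Unit → ℤ, ∑ c ∈ Ico (-(L : ℤ)) (N + L), (S0 α c).wt z * (S0 α c).ind A z := by
    refine ((hs.sub ht).mul_left _).tsum_le_tsum (fun z => ?_) (summable_sum fun c _ => hc c)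
    simp only [wt0, ← mul_sum]
    split_ifs with h3
    · rw [sub_self, mul_zero]
      exact mul_nonneg (gq_pos _ _).le (sum_nonneg fun c _ => (ind01 α c A z).1)
    · rw [sub_zero, mul_comm]
      rw [qf0, not_le] at h3
      exact mul_le_mul_of_nonneg_left (cnt α hA z (hK _ h3)) (gq_pos _ _).le
  refine le_trans ?_ h2
  rw [tsum_mul_left, hs.tsum_sub ht]
  refine mul_le_mul_of_nonneg_left ?_ (Nat.cast_nonneg _)
  have : th (G0 α).A 0 = ∑' z : Unit → ℤ, gq (G0 α).A (0 + toR z) := rfl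
  linarith

theorem eps {m η : ℝ} (hm : 6 ≤ m) (h : 6 ≤ η * m) :
    Real.exp (-(3 / 4 * π * m ^ 2)) * 2 ≤ η / 3 := by
  have h1 : m ≤ 3 / 4 * π * m ^ 2 := by nlinarith [Real.pi_gt_three]
  have h2 : m ≤ Real.exp (3 / 4 * π * m ^ 2) := by linarith [Real.add_one_le_exp (3 / 4 * π * m ^ 2)]
  have h3 : Real.exp (-(3 / 4 * π * m ^ 2)) ≤ m⁻¹ := by
    rw [Real.exp_neg]; exact inv_anti₀ (by linarith) h2
  have h4 : m⁻¹ * 6 ≤ η := by
    rw [inv_mul_le_iff₀ (by linarith)]; linarith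
  linarith

theorem near {m N : ℕ} (hm : 1 ≤ m) (hN : 1 ≤ N) (y : ℤ)
    (h : ((m : ℝ) ^ 2 / N * y) ^ 2 < (m : ℝ) ^ 2) : |y| ≤ ((N / m : ℕ) : ℤ) := by
  have m0 : (0 : ℝ) < m := by exact_mod_cast hm
  have N0 : (0 : ℝ) < N := by exact_mod_cast hN
  have h1 := abs_lt_of_sq_lt_sq h m0.le
  rw [abs_mul, abs_of_pos (by positivity), div_mul_eq_mul_div, div_lt_iff₀ N0] at h1
  have h2 : (m : ℝ) * |(y : ℝ)| < N := by nlinarith
  have h3 : (m : ℤ) * |y| < N := by exact_mod_cast h2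
  rw [Int.natCast_div]
  exact Int.le_ediv_of_mul_le (by exact_mod_cast hm) (by rw [mul_comm]; exact h3.le)

theorem ini0 (s : ℕ) (η : ℝ) (hs : 1 ≤ s) (h0 : 0 < η) (h1 : η ≤ 1) : ∃ C : ℕ,
    ∀ (X : ℝ) (N : ℕ) (A : Finset ℤ) (b : ℝ), (C : ℝ) ≤ X → A ⊆ rg N → 0 ≤ b → X ≤ Real.log N →
      b * N ≤ A.card → Ho0 s N A 1 (C * X) ((1 - η) * b) := by
  obtain ⟨m, hm⟩ := exists_nat_ge (6 / η)
  rw [div_le_iff₀ h0] at hm
  have m6 : (6 : ℝ) ≤ m := by nlinarith [(Nat.cast_nonneg m : (0 : ℝ) ≤ m)]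
  have m1 : 1 ≤ m := by exact_mod_cast (by linarith : (1 : ℝ) ≤ m)
  refine ⟨m ^ 2, fun X N A b hX hA b0 hN hb => ?_⟩
  push_cast at hX ⊢
  have M36 : (36 : ℝ) ≤ (m : ℝ) ^ 2 := by nlinarith
  have N1 : 1 ≤ N := by
    by_contra h
    have : N = 0 := by omega
    rw [this] at hN; simp at hN; linarith
  have N0 : (0 : ℝ) < N := by exact_mod_cast N1
  have mN : (m : ℝ) ^ 2 ≤ N := by linarith [Real.log_le_sub_one_of_pos N0]
  set α : ℝ := (m : ℝ) ^ 2 / N with hα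
  have a0 : 0 < α := by positivity
  have a1 : α ≤ 1 := (div_le_one N0).2 mN
  have hR : (m : ℝ) ^ 2 ≤ (m : ℝ) ^ 2 * X := by nlinarith
  have hE : (m : ℝ) ^ 2 ≤ Real.exp ((m : ℝ) ^ 2 * X) := by
    linarith [Real.add_one_le_exp ((m : ℝ) ^ 2 * X)]
  have h2 := avg a0.ne' hA (near m1 N1)
  have h3 := eps m6 (by linarith : 6 ≤ η * m)
  have T0 := (th_pos (det0 a0.ne') 0).le
  have hL : ((N / m : ℕ) : ℝ) * 6 ≤ η * N := by
    have h4 : ((N / m : ℕ) : ℝ) * m ≤ N := by exact_mod_cast Nat.div_mul_le_self N m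
    have h5 : (0 : ℝ) ≤ ((N / m : ℕ) : ℝ) := Nat.cast_nonneg _
    nlinarith
  obtain ⟨c, -, hc⟩ := exists_le_of_sum_le (s := Ico (-((N / m : ℕ) : ℤ)) (N + (N / m : ℕ)))
    (f := fun _ => (1 - η) * b * th (G0 α).A 0) (g := fun c => (S0 α c).hit A)
    ⟨0, by rw [mem_Ico]; generalize N / m = L; omega⟩ (by
      refine le_trans ?_ h2
      rw [sum_const, nsmul_eq_mul, Int.card_Ico]
      have h4 : ((N : ℤ) + (N / m : ℕ) - -((N / m : ℕ) : ℤ)).toNat = N + 2 * (N / m) := by omega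
      rw [h4]
      rw [Nat.cast_add, Nat.cast_mul, Nat.cast_ofNat]
      generalize ((N / m : ℕ) : ℝ) = L at hL ⊢
      generalize Real.exp (-(3 / 4 * π * (m : ℝ) ^ 2)) * 2 = ε at h3 ⊢
      have h5 : ((N : ℝ) + 2 * L) * (1 - η) ≤ N * (1 - ε) := by
        have : ((N : ℝ) + 2 * L) * (1 - η) ≤ (N + η * N / 3) * (1 - η) :=
          mul_le_mul_of_nonneg_right (by linarith) (by linarith)
        nlinarith [mul_pos h0 N0, mul_pos (mul_pos h0 h0) N0]
      have h6 := mul_le_mul_of_nonneg_right h5 (mul_nonneg b0 T0)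
      have h7 := mul_le_mul_of_nonneg_right hb
        (mul_nonneg (by linarith : 0 ≤ 1 - ε) T0)
      linarith)
  refine ⟨Unit, inferInstance, inferInstance, S0 α c, by simp, sok a0.ne' hs c, fun g => ?_,
    fun g => ?_, ?_, ?_, ?_⟩
  · exact (tk_le a0 a1 _).trans (mul_le_mul_of_nonneg_right (by linarith) (dv_nonneg _ _))
  · exact (tk_le a0 a1 _).trans (mul_le_mul_of_nonneg_right (by linarith) (dv_nonneg _ _))
  · rw [ms0, ← tk_u]
    refine le_trans (mul_le_of_le_one_left (dv_nonneg _ _) ?_)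
      (BrP.dv_le_tk (gok a0.ne' hs) (hV α univ))
    exact Real.exp_le_one_iff.2 (by linarith)
  · have h4 : gp (S0 α c).G 0 = univ := by ext a; simp [gp, S0, G0]
    rw [h4]
    show _ ≤ _ * (G0 α).dv univ
    rw [dvu a0, hα, inv_div, ← mul_div_assoc, le_div_iff₀ (by positivity)]
    have h5 := mul_le_mul_of_nonneg_left (tk_ker α c) N0.le
    have h6 := mul_le_mul h5 hE (by positivity) (by positivity)
    show (N : ℝ) * tk (G0 α) (S0 α c).ker * _ ≤ _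
    linarith
  · rw [ms0]; exact hc

theorem ini : INI := by
  intro s η hs h0
  obtain ⟨C, hC⟩ := ini0 s (min η 1) hs (lt_min h0 one_pos) (min_le_right _ _)
  refine ⟨C, fun X N A b h1 h2 h3 h4 h5 => ?_⟩
  have b0 := (Real.exp_pos _).le.trans h3
  obtain ⟨ι, i1, i2, S, e1, e2⟩ := hC X N A b h1 h2 b0 h4 h5
  exact ⟨ι, i1, i2, S, e1, e2.mono (fun _ => le_rfl) (fun _ => le_rfl) le_rfl le_rfl
    (mul_le_mul_of_nonneg_right (by linarith [min_le_left η 1]) b0)⟩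

end

end Vale.Agent.P057T.Rg.IniH29
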