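import Vale.Agent.P057T.Rg.Defs2
import Vale.Agent.P057T.Sb.Nap
import Vale.Agent.P057T.Sb.Marg0

/-! Leaving a host: a dense progression free set on an interval. -/

open MvPolynomial Finset
open scoped Real

namespace Vale.Agent.P057T.Rg

open Vale.Agent.P057T.Eq Vale.Agent.P057T.Cfg Vale.Agent.P057L Vale.Agent.P057T.Sb

set_option linter.unusedSectionVars false
set_option linter.unusedVariables false

noncomputable section

/-- the field `kil`, rank at most `P` -/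
def KIL : Prop := ∀ s : ℕ, 1 ≤ s → ∃ C : ℕ, ∀ (k : ℕ) (X P : ℝ) (N : ℕ) (A : Finset ℤ) (D R b : ℝ),
  (C : ℝ) ≤ X → X ≤ P → A ⊆ rg N → APF k A → 1 ≤ D → D ≤ P → 1 ≤ R → Real.exp (-X) ≤ b →
    P ^ C * R ≤ Real.log N → Ho s N A D R b →
    ∃ (L : ℕ) (A' : Finset ℤ), Lg N L (P ^ C) ∧ A' ⊆ rg L ∧ APF k A' ∧ b / 2 * L ≤ A'.card

namespace Kil

variable {ι : Type} [Fintype ι] [DecidableEq ι]

theorem pull {k L : ℕ} {A : Finset ℤ} (hF : APF k A) (x d : ℤ) (hd : d ≠ 0) :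
    APF k ((rg L).filter fun t => x + d * t ∈ A) := by
  intro a e he h
  have h' : ∀ i : ℕ, i < k → x + d * (a + i * e) ∈ A := fun i hi => (mem_filter.1 (h i hi)).2
  rcases lt_or_gt_of_ne hd with hn | hp
  · refine hF (x + d * (a + ((k : ℤ) - 1) * e)) (-d * e) (by nlinarith) fun i hi => ?_
    have := h' (k - 1 - i) (by omega)
    have e1 : ((k - 1 - i : ℕ) : ℤ) = (k : ℤ) - 1 - i := by omega
    rw [e1] at this
    convert this using 1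
    ring
  · refine hF (x + d * a) (d * e) (by positivity) fun i hi => ?_
    convert h' i hi using 1
    ring

/-- the indicator on the host -/
def fI (A : Finset ℤ) (x0 : ℤ) (l : ι → ℤ) (z : ι → ℤ) : ℝ := if pj x0 l z ∈ A then 1 else 0

theorem fI01 (A : Finset ℤ) (x0 : ℤ) (l z : ι → ℤ) : 0 ≤ fI A x0 l z ∧ fI A x0 l z ≤ 1 := by
  unfold fI; split_ifs <;> norm_num

theorem sm {α : Type} {W H : α → ℝ} {B : ℝ} (hW : Summable W) (h0 : ∀ x, 0 ≤ W x)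
    (hH : ∀ x, 0 ≤ H x ∧ H x ≤ B) : Summable fun x => W x * H x :=
  Summable.of_nonneg_of_le (fun x => mul_nonneg (h0 x) (hH x).1)
    (fun x => mul_le_mul_of_nonneg_left (hH x).2 (h0 x)) (hW.mul_right B)

open Classical in
/-- degenerate lines -/
def dg (G : GT ι) (l : ι → ℤ) (β : Bx G 1) : ℝ := if ∃ t ∈ bz 1 2, ∃ t' ∈ bz 1 2, t ≠ t' ∧
  pj 0 l (ev (pt t) β) = pj 0 l (ev (pt t') β) then 1 else 0

theorem dg01 (G : GT ι) (l : ι → ℤ) (β : Bx G 1) : 0 ≤ dg G l β ∧ dg G l β ≤ 1 := by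
  unfold dg; split_ifs <;> norm_num

theorem line {k L : ℕ} {G : GT ι} {u : ℝ} {A : Finset ℤ} {x0 : ℤ} {l : ι → ℤ}
    (l1 : ∀ a, l a ≠ 0 → G.w a = 1) (hF : APF k A) (u0 : 0 ≤ u)
    (hc : ∀ A' : Finset ℤ, A' ⊆ rg L → APF k A' → (A'.card : ℝ) < u) (β : Bx G 1) :
    ∑ t ∈ rg L, fI A x0 l (ev (pt fun _ => t) β) ≤ u + L * dg G l β := by
  have cL : ((rg L).card : ℝ) = L := by simp [rg]
  by_cases hd : Nap.sl l β (some 0) = 0
  · have : dg G l β = 1 := by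
      unfold dg
      rw [if_pos]
      refine ⟨fun _ => 0, by simp [bz, rg], fun _ => 1, by simp [bz, rg], fun e => ?_, ?_⟩
      · exact absurd (congrFun e 0) (by norm_num)
      · simp [Nap.pj_aff l1, hd]
    rw [this]
    have : ∑ t ∈ rg L, fI A x0 l (ev (pt fun _ : Fin 1 => t) β) ≤ ∑ t ∈ rg L, (1 : ℝ) :=
      sum_le_sum fun t _ => (fI01 _ _ _ _).2
    rw [sum_const, nsmul_eq_mul, cL] at this
    linarith
  · have q := hc _ (filter_subset _ _) (pull (L := L) hF (x0 + Nap.sl l β none) _ hd)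
    have : ∑ t ∈ rg L, fI A x0 l (ev (pt fun _ : Fin 1 => t) β) =
        (((rg L).filter fun t => x0 + Nap.sl l β none + Nap.sl l β (some 0) * t ∈ A).card : ℝ) := by
      rw [card_filter]
      push_cast
      refine sum_congr rfl fun t _ => ?_
      simp [fI, Nap.pj_aff l1]
    rw [this]
    linarith [mul_nonneg (Nat.cast_nonneg (α := ℝ) L) (dg01 G l β).1]

theorem avg {α : Type} {W Bd : α → ℝ} {f : ℤ → α → ℝ} {L : ℕ} {b μ : ℝ} (sw : Summable W)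
    (W0 : ∀ β, 0 ≤ W β) (B01 : ∀ β, 0 ≤ Bd β ∧ Bd β ≤ 1) (f01 : ∀ t β, 0 ≤ f t β ∧ f t β ≤ 1)
    (L1 : 1 ≤ L) (b0 : 0 < b) (μ0 : 0 < μ) (a6 : ∑' β, W β ≤ 101 / 100 * μ)
    (nap : ∑' β, W β * Bd β ≤ b / 100 * μ)
    (a2 : ∀ t ∈ rg L, 19 / 20 * b * μ ≤ ∑' β, W β * f t β)
    (a3 : ∀ β, ∑ t ∈ rg L, f t β ≤ 4 / 5 * b * L + L * Bd β) : False := by
  have L0 : (0 : ℝ) < L := by exact_mod_cast L1
  have cL : ((rg L).card : ℝ) = L := by simp [rg]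
  have s1 : ∀ t ∈ rg L, Summable fun β => W β * f t β := fun t _ => sm sw W0 (f01 t)
  have s2 := sm sw W0 B01
  have a4 : ∑ t ∈ rg L, ∑' β, W β * f t β ≤
      4 / 5 * b * L * ∑' β, W β + L * ∑' β, W β * Bd β := by
    rw [← Summable.tsum_finsetSum s1, ← tsum_mul_left, ← tsum_mul_left,
      ← (sw.mul_left _).tsum_add (s2.mul_left _)]
    refine (summable_sum s1).tsum_le_tsum (fun β => ?_) ((sw.mul_left _).add (s2.mul_left _))
    rw [← mul_sum]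
    linarith [mul_le_mul_of_nonneg_left (a3 β) (W0 β)]
  have a5 := sum_le_sum a2
  rw [sum_const, nsmul_eq_mul, cL] at a5
  have a7 : 4 / 5 * b * L * ∑' β, W β ≤ 4 / 5 * b * L * (101 / 100 * μ) :=
    mul_le_mul_of_nonneg_left a6 (by positivity)
  have a8 := mul_le_mul_of_nonneg_left nap L0.le
  have a9 : 0 < L * b * μ := by positivity
  linarith

theorem fl {Z b : ℝ} (Z1 : 1 ≤ Z) (hZ : 1600 * Real.exp (-Z) ≤ b) :
    ∃ n : ℕ, 1 ≤ n ∧ (n : ℝ) ≤ Real.exp Z ∧ 2 * ((2 : ℕ) : ℝ) ^ (2 * 1) / n ≤ b / 100 := by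
  have E1 : 1 ≤ Real.exp Z := Real.one_le_exp (by linarith)
  have d0 := Real.exp_pos (-Z)
  have n1 : 1 ≤ ⌊Real.exp Z⌋₊ := Nat.floor_pos.2 E1
  have n1' : (1 : ℝ) ≤ ⌊Real.exp Z⌋₊ := by exact_mod_cast n1
  have n3 := Nat.lt_floor_add_one (Real.exp Z)
  refine ⟨_, n1, Nat.floor_le (by linarith), ?_⟩
  rw [div_le_iff₀ (by linarith)]
  have e : Real.exp (-Z) * Real.exp Z = 1 := by rw [← Real.exp_add]; simp
  have : 1 ≤ Real.exp (-Z) * (2 * ⌊Real.exp Z⌋₊) := by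
    rw [← e]; exact mul_le_mul_of_nonneg_left (by linarith) d0.le
  have := mul_le_mul_of_nonneg_right hZ (Nat.cast_nonneg (α := ℝ) ⌊Real.exp Z⌋₊)
  norm_num
  linarith

theorem bas {m μ b δ x u v : ℝ} (m0 : 0 < m) (μ0 : 0 < μ) (b0 : 0 < b)
    (hm : |m * x - μ * u| ≤ δ * (m * μ)) (hb : b * v ≤ u) (m1 : |v - m| ≤ δ * m) :
    (b * (1 - δ) - δ) * μ ≤ x := by
  refine le_of_mul_le_mul_left ?_ m0
  have q1 := (abs_le.1 hm).1
  have q2 := (abs_le.1 m1).1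
  have q3 : b * ((1 - δ) * m) ≤ u := le_trans (mul_le_mul_of_nonneg_left (by linarith) b0.le) hb
  linarith [mul_le_mul_of_nonneg_left q3 μ0.le]

theorem core (hD : DILB) (hM : MASB) (hI : INVT) (hN : NAP) {s k L : ℕ} {G : GT ι} {T : AT ι}
    {P K Z ε b : ℝ} {A : Finset ℤ} {x0 : ℤ} {l : ι → ℤ} (h : Hs G T s 1 P K Z)
    (hC : Cnts G T (4 * 1 + 4) (Real.exp (-Z)) Z) (l0 : l ≠ 0) (l1 : ∀ a, l a ≠ 0 → G.w a = 1)
    (hF : APF k A)
    (hm : |G.mn T.sg univ * ∑' β : Bx G 1, bw G T (om s K) 1 0 β * fI A x0 l (ev (pt 0) β) -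
        bm G T (om (m := 1) s K) * ∑' z : ι → ℤ, G.nu T z * fI A x0 l z| ≤
      Real.exp (-Z) * (G.mn T.sg univ * bm G T (om (m := 1) s K)))
    (hb : b * ∑' z : ι → ℤ, G.nu T z ≤ ∑' z : ι → ℤ, G.nu T z * fI A x0 l z)
    (e0 : 0 ≤ ε) (e1 : 2 * s * ε * P ≤ 1) (e2 : 2 * s * ε * P ^ 2 ≤ b / 100) (hL : (L : ℝ) ≤ ε * K)
    (L1 : 1 ≤ L) (hZ : 1600 * Real.exp (-Z) ≤ b) (hZ' : Real.exp (-Z) ≤ 1 / 100) :
    ∃ A' : Finset ℤ, A' ⊆ rg L ∧ APF k A' ∧ 4 / 5 * b * L ≤ A'.card := by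
  by_contra hc
  push Not at hc
  have P0 : 0 < P := by linarith [h.P2]
  have K0 : 0 < K := by linarith [h.K1]
  have d0 := Real.exp_pos (-Z)
  have b0 : 0 < b := by linarith
  have E1 : 1 ≤ Real.exp Z := Real.one_le_exp (by linarith [h.Z1])
  obtain ⟨d1, -, -, -, μ0, -⟩ := hD s 1 ι G T P K 1 h.ok P0 h.ao h.un K0 le_rfl
  obtain ⟨⟨m0, -, m1⟩, -, m2⟩ := hM s 1 ι G T P K Z _ h hC
  obtain ⟨sw, m3⟩ := m2 1 1 0 le_rfl (by simpa using E1) one_pos E1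
  simp only [Nat.cast_one, one_smul, zero_add, mul_one, one_pow, inv_one] at sw m3
  obtain ⟨n, n1, n2, n4⟩ := fl h.Z1 hZ
  have nap := (hN s 1 ι G T P K Z _ 2 n l h hC (by linarith) n1 n2 l0 l1).1
  have a1 := bas m0 μ0 b0 hm hb m1
  refine avg (Bd := dg G l) (f := fun t β => fI A x0 l (ev (pt fun _ => t) β)) sw
    (fun β => (Real.exp_pos _).le) (dg01 G l) (fun _ _ => fI01 _ _ _ _) L1 b0 μ0 ?_
    (le_trans nap (mul_le_mul_of_nonneg_right n4 μ0.le)) (fun t ht => ?_)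
    (line l1 hF (by positivity) hc)
  · linarith [(abs_le.1 m3).2, mul_le_mul_of_nonneg_right hZ' μ0.le]
  · obtain ⟨t0, t1⟩ := mem_Ico.1 ht
    have t2 : |((t : ℤ) : ℝ)| ≤ ε * K := by
      rw [abs_of_nonneg (by exact_mod_cast t0)]
      exact le_trans (by exact_mod_cast t1.le) hL
    have := hI s 1 ι G T P K Z _ ε (fun _ => t) (fun β => fI A x0 l (ev (pt 0) β)) h hC d0.le
      (by linarith) e0 e1 (fun _ => t2) (fun β => fI01 _ _ _ _)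
    simp only [d1, smul_zero, add_zero] at this
    have q : (19 / 20 * b + (2 * Real.exp (-Z) + 2 * s * ε * P ^ 2)) * bm G T (om (m := 1) s K) ≤
        (b * (1 - Real.exp (-Z)) - Real.exp (-Z)) * bm G T (om (m := 1) s K) :=
      mul_le_mul_of_nonneg_right (by linarith [mul_le_mul_of_nonneg_left hZ' b0.le]) μ0.le
    linarith

/-- numerics of the choice of scales -/
theorem num {s : ℕ} {Q X Z b : ℝ} (s1 : 1 ≤ s) (Q1 : 2000 ≤ Q) (sQ : 4 * (s : ℝ) ≤ Q) (XQ : X ≤ Q)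
    (hZ : Q ^ 3 ≤ Z) (hb : Real.exp (-X) ≤ b) :
    2 * s * Real.exp (-(Z / (2 * s))) * Q ≤ 1 ∧
    2 * s * Real.exp (-(Z / (2 * s))) * Q ^ 2 ≤ 9 / 10 * b / 100 ∧
    1600 * Real.exp (-Z) ≤ 9 / 10 * b ∧ Real.exp (-Z) ≤ 1 / 100 ∧
    1 ≤ ⌊Real.exp (Z / (2 * s))⌋₊ ∧ Z ≤ Q * Real.log ⌊Real.exp (Z / (2 * s))⌋₊ := by
  have s1' : (1 : ℝ) ≤ s := by exact_mod_cast s1
  have Q0 : 0 < Q := by linarith
  have eQ : Q ≤ Real.exp Q := by linarith [Real.add_one_le_exp Q]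
  have Q3 : 5 * Q * Q ≤ Q ^ 3 := by nlinarith [mul_pos Q0 Q0]
  have u5 : 5 * Q ≤ Z / (2 * s) := by
    rw [le_div_iff₀ (by linarith)]
    nlinarith
  have uZ : Z / (2 * s) ≤ Z := div_le_self (by nlinarith) (by linarith)
  have k1 : Real.exp (-(Z / (2 * s))) * Q ^ 4 ≤ Real.exp (-Q) := by
    refine le_trans (mul_le_mul (Real.exp_le_exp.2 (neg_le_neg u5)) (pow_le_pow_left₀ Q0.le eQ 4)
      (by positivity) (Real.exp_pos _).le) (le_of_eq ?_)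
    rw [← Real.exp_nat_mul, ← Real.exp_add]
    congr 1
    push_cast
    ring
  have k2 : Real.exp (-Q) ≤ b := (Real.exp_le_exp.2 (by linarith)).trans hb
  have k3 : Real.exp (-Q) ≤ 1 := Real.exp_le_one_iff.2 (by linarith)
  have k4 : Real.exp (-Z) ≤ Real.exp (-(Z / (2 * s))) := Real.exp_le_exp.2 (by linarith)
  set ε := Real.exp (-(Z / (2 * s)))
  have ε0 : 0 < ε := Real.exp_pos _
  have p1 : 2000 * (ε * Q ^ 3) ≤ ε * Q ^ 4 := by
    have : ε * Q ^ 4 = Q * (ε * Q ^ 3) := by ring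
    rw [this]; exact mul_le_mul_of_nonneg_right Q1 (by positivity)
  have p2 : 2 * s * ε * Q ^ 2 ≤ ε * Q ^ 3 := by
    have : ε * Q ^ 3 = Q * ε * Q ^ 2 := by ring
    rw [this]; gcongr; linarith
  have p3 : 2 * s * ε * Q ≤ 2 * s * ε * Q ^ 2 :=
    mul_le_mul_of_nonneg_left (by nlinarith) (by positivity)
  have p4 : ε ≤ ε * Q ^ 3 := le_mul_of_one_le_right ε0.le (one_le_pow₀ (by linarith))
  have E1 : 1 ≤ Real.exp (Z / (2 * s)) := Real.one_le_exp (by linarith)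
  have n1 : 1 ≤ ⌊Real.exp (Z / (2 * s))⌋₊ := Nat.floor_pos.2 E1
  have n1' : (1 : ℝ) ≤ ⌊Real.exp (Z / (2 * s))⌋₊ := by exact_mod_cast n1
  have n3 := Nat.lt_floor_add_one (Real.exp (Z / (2 * s)))
  refine ⟨by linarith, by linarith, by linarith, by linarith, n1, ?_⟩
  have l1 : Z / (2 * s) - 1 ≤ Real.log ⌊Real.exp (Z / (2 * s))⌋₊ := by
    rw [Real.le_log_iff_exp_le (by linarith), Real.exp_sub, div_le_iff₀ (Real.exp_pos _)]
    nlinarith [Real.add_one_le_exp (1 : ℝ)]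
  have l2 : Z = 2 * s * (Z / (2 * s)) := by field_simp
  have l3 : Z / (2 * s) ≤ 2 * Real.log ⌊Real.exp (Z / (2 * s))⌋₊ := by linarith
  have l4 := Real.log_natCast_nonneg ⌊Real.exp (Z / (2 * s))⌋₊
  nlinarith [mul_le_mul_of_nonneg_left l3 (by linarith : (0 : ℝ) ≤ 2 * s),
    mul_le_mul_of_nonneg_right sQ l4]

theorem nu_wt (S : St ι) (z : ι → ℤ) : S.G.nu S.AT z = S.wt z := by
  simp [GT.nu, St.AT, St.wt, St.sq, St.ch, GT.ch]

/-- from a regular host -/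
theorem reg (hB : BR) (hD : DILB) (hM : MASB) (hI : INVT) (hN : NAP) (hC : COUNT) (h0 : MARG0)
    (s : ℕ) (s1 : 1 ≤ s) : ∃ c c' : ℕ, ∀ (k N : ℕ) (ι : Type) [Fintype ι] [DecidableEq ι] (S : St ι)
    (WW : ℕ → ℝ) (x0 : ℤ) (l : ι → ℤ) (A : Finset ℤ) (Q X Z R b : ℝ), 2000 ≤ Q →
    8 * (s : ℝ) ^ 3 + 4 * s + 7 ≤ Q → X ≤ Q → Q ^ 3 ≤ Z → Real.exp (-X) ≤ b →
    (Fintype.card ι : ℝ) * 9 ^ s ≤ Q → APF k A →
    Rh S WW x0 l s N A R ((1 - 1 / 10) * b) (Q ^ c) (Q ^ c' * Z) →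
    ∃ (L : ℕ) (A' : Finset ℤ), 1 ≤ L ∧ Z ≤ Q * Real.log L ∧ A' ⊆ rg L ∧ APF k A' ∧
      b / 2 * L ≤ A'.card := by
  obtain ⟨c1, hC⟩ := hC s
  obtain ⟨c2, h0⟩ := h0 s
  refine ⟨c1 + c2, c2 + 1, fun k N ι _ _ S WW x0 l A Q X Z R b Q1 sQ XQ hZ hb cd hF h => ?_⟩
  have s1' : (1 : ℝ) ≤ s := by exact_mod_cast s1
  have s3 : (0 : ℝ) ≤ (s : ℝ) ^ 3 := by positivity
  have Q1' : 1 ≤ Q := by linarith
  have Z1 : 1 ≤ Z := (one_le_pow₀ Q1').trans hZ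
  obtain ⟨e1, e2, z1, z2, L1, L2⟩ := num s1 Q1 (by linarith) XQ hZ hb
  have c0 : (Fintype.card ι : ℝ) ≤ Q :=
    (le_mul_of_one_le_right (Nat.cast_nonneg _) (one_le_pow₀ (by norm_num))).trans cd
  have ao := (hB s ι S h.inv.ok).1 Q Q1'
  have hs : Hs S.G S.AT s 1 Q (Real.exp (Z / s)) Z :=
    ⟨h.inv.ok.ok, ao, rfl, by linarith, by norm_num; exact cd, by norm_num; linarith,
      Real.one_le_exp (by positivity), Z1, le_of_eq (by
        rw [← Real.exp_nat_mul]; congr 1; field_simp)⟩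
  have p2 : 1 ≤ Q ^ c2 := one_le_pow₀ Q1'
  have y1 : Q * Z ≤ Q ^ (c2 + 1) * Z :=
    mul_le_mul_of_nonneg_right (le_self_pow₀ Q1' (by omega)) (by linarith)
  have cn := hC ι S.G S.AT WW Q Z Z (4 * 1 + 4) h.inv.ok.ok h.wd ⟨c0, by linarith, Z1⟩ ao rfl
    (by linarith) (by norm_num; exact cd)
    (Marg0.rs_mono2 h.rs h.wd.nn (by positivity) (pow_le_pow_right₀ Q1' (by omega))
      (by positivity) (by
        refine le_trans ?_ y1
        push_cast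
        nlinarith [mul_le_mul_of_nonneg_right sQ (by linarith : 0 ≤ Z),
          mul_le_mul_of_nonneg_left Z1 s3, mul_nonneg (by linarith : (0 : ℝ) ≤ s) (by linarith : 0 ≤ Z)]))
  have mg := h0 1 ι S.G S.AT WW Q _ Z (fI A x0 l) hs h.wd
    (Marg0.rs_mono2 h.rs h.wd.nn (by positivity) (pow_le_pow_right₀ Q1' (by omega))
      (by positivity) (mul_le_mul_of_nonneg_right (pow_le_pow_right₀ Q1' (by omega)) (by linarith)))
    (fun z => abs_le.2 ⟨by linarith [(fI01 A x0 l z).1], (fI01 A x0 l z).2⟩)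
  have de : (1 - 1 / 10) * b * ∑' z : ι → ℤ, S.G.nu S.AT z ≤
      ∑' z : ι → ℤ, S.G.nu S.AT z * fI A x0 l z := by
    have := h.inv.de
    simp only [nu_wt]
    refine this.trans (le_of_eq (tsum_congr fun z => ?_))
    simp [St.ind, fI, h.pj]
  obtain ⟨A', a1, a2, a3⟩ := core (L := ⌊Real.exp (Z / (2 * s))⌋₊) hD hM hI hN hs cn h.l0 h.l1 hF mg de
    (Real.exp_pos _).le e1 (by linarith) ((Nat.floor_le (Real.exp_pos _).le).trans (le_of_eq (by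
      rw [← Real.exp_add]; congr 1; field_simp; ring))) L1 (by linarith) z2
  refine ⟨_, A', L1, L2, a1, a2, le_trans ?_ a3⟩
  exact mul_le_mul_of_nonneg_right (by linarith [Real.exp_pos (-X)]) (Nat.cast_nonneg _)

end Kil

open Kil in
theorem kil (hE : ENT) (hB : BR) (hD : DILB) (hM : MASB) (hI : INVT) (hN : NAP) (hC : COUNT)
    (h0 : MARG0) : KIL := by
  intro s s1
  obtain ⟨c, c', hR⟩ := reg hB hD hM hI hN hC h0 s s1
  obtain ⟨Ce, hE⟩ := hE s c (1 / 10) s1 (by norm_num) (by norm_num)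
  refine ⟨2 * (Ce + c' + 4) + Ce + 9 ^ s + 8 * s ^ 3 + 4 * s + 2000,
    fun k X P N A D R b hX XP hA hF D1 DP R1 hb hL H => ?_⟩
  push_cast at hX
  have n1 : (0 : ℝ) ≤ Ce := Nat.cast_nonneg _
  have n2 : (0 : ℝ) ≤ c' := Nat.cast_nonneg _
  have n3 : (0 : ℝ) ≤ s := Nat.cast_nonneg _
  have n4 : (0 : ℝ) ≤ (s : ℝ) ^ 3 := by positivity
  have n5 : (0 : ℝ) ≤ 9 ^ s := by positivity
  have P1 : 1 ≤ P := by linarith
  have PQ : P ≤ P ^ 2 := le_self_pow₀ P1 (by norm_num)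
  have hQ : (P ^ 2) ^ (Ce + c' + 4) ≤
      P ^ (2 * (Ce + c' + 4) + Ce + 9 ^ s + 8 * s ^ 3 + 4 * s + 2000) := by
    rw [← pow_mul]; exact pow_le_pow_right₀ P1 (by generalize 9 ^ s = t; omega)
  have cd : D * 9 ^ s ≤ P ^ 2 := by
    rw [sq]; exact mul_le_mul DP (by linarith) n5 (by linarith)
  generalize P ^ (2 * (Ce + c' + 4) + Ce + 9 ^ s + 8 * s ^ 3 + 4 * s + 2000) = B at hQ hL ⊢
  generalize P ^ 2 = Q at PQ hQ cd
  have Q1 : 1 ≤ Q := by linarith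
  have Q0 : 0 < Q ^ (Ce + c' + 1) := by positivity
  obtain ⟨Z, hZ⟩ : ∃ Z, Real.log N = Q ^ (Ce + c' + 1) * Z :=
    ⟨Real.log N / Q ^ (Ce + c' + 1), by field_simp⟩
  have z1 : Q ^ 3 * R ≤ Z := by
    refine le_of_mul_le_mul_left ?_ Q0
    rw [← hZ, ← mul_assoc, ← pow_add]
    exact (mul_le_mul_of_nonneg_right hQ (by linarith)).trans hL
  have q3 : 1 ≤ Q ^ 3 := one_le_pow₀ Q1
  have z2 : Q ^ 3 ≤ Z := (le_mul_of_one_le_right (by linarith) R1).trans z1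
  have z3 : R ≤ Z := (le_mul_of_one_le_left (by linarith) q3).trans z1
  have z4 : Z ≤ Q ^ c' * Z := le_mul_of_one_le_left (by linarith) (one_le_pow₀ Q1)
  have z5 : Ce * Q ≤ Z := by
    refine le_trans (mul_le_mul_of_nonneg_right (by linarith : (Ce : ℝ) ≤ Q) (by linarith)) ?_
    exact le_trans (by rw [← sq]; exact pow_le_pow_right₀ Q1 (by norm_num)) z2
  obtain ⟨ι, _, _, S, WW, x0, l, cι, h⟩ := hE X N A D Q R (Q ^ c' * Z) b (by linarith) hA D1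
    (by linarith) (by linarith) (by linarith)
    (le_trans (mul_le_mul_of_nonneg_left (by linarith) n1) (z5.trans z4)) (z5.trans z4) hb (by
      rw [hZ, ← mul_assoc, ← pow_add]
      exact mul_lt_mul_of_pos_right (pow_lt_pow_right₀ (by linarith) (by omega)) (by linarith)) H
  obtain ⟨L, A', L1, L2, a⟩ := hR k N ι S WW x0 l A Q X Z _ b (by linarith) (by linarith)
    (by linarith) z2 hb ((mul_le_mul_of_nonneg_right cι n5).trans cd) hF h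
  refine ⟨L, A', ⟨L1, ?_⟩, a⟩
  rw [hZ]
  refine (mul_le_mul_of_nonneg_left L2 Q0.le).trans ?_
  rw [← mul_assoc, ← pow_succ]
  exact mul_le_mul_of_nonneg_right ((pow_le_pow_right₀ Q1 (by omega)).trans hQ)
    (Real.log_natCast_nonneg L)

/-- the field `kil` of `H74.Sys2` for the rank `D ^ e` (`e = 1`: `Ho` itself), all large `C` -/
theorem KIL.sys (h : KIL) (s e : ℕ) (s1 : 1 ≤ s) : ∃ C0 : ℕ, ∀ C, C0 ≤ C → ∀ (k : ℕ) (X : ℝ) (N : ℕ)
    (A : Finset ℤ) (D R b : ℝ), (C : ℝ) ≤ X → A ⊆ rg N → APF k A → 1 ≤ D → 1 ≤ R →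
    Real.exp (-X) ≤ b → (D * X) ^ C * R ≤ Real.log N → Ho s N A (D ^ e) R b →
    ∃ (L : ℕ) (A' : Finset ℤ), Lg N L ((D * X) ^ C) ∧ A' ⊆ rg L ∧ APF k A' ∧
      b / 2 * L ≤ A'.card := by
  obtain ⟨c, h⟩ := h s s1
  refine ⟨(e + 1) * c + c + 1, fun C hC k X N A D R b hX hA hF D1 R1 hb hL H => ?_⟩
  have c1 : ((c + 1 : ℕ) : ℝ) ≤ X := le_trans (by exact_mod_cast (by omega : c + 1 ≤ C)) hX
  push_cast at c1
  have X1 : 1 ≤ X := by linarith [Nat.cast_nonneg (α := ℝ) c]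
  have u1 : X ≤ D * X := le_mul_of_one_le_left (by linarith) D1
  have u2 : D ≤ D * X := le_mul_of_one_le_right (by linarith) X1
  have u3 : 1 ≤ D * X := X1.trans u1
  have u4 : ((D * X) ^ (e + 1)) ^ c ≤ (D * X) ^ C := by
    rw [← pow_mul]; exact pow_le_pow_right₀ u3 (by omega)
  obtain ⟨L, A', a, r⟩ := h k X ((D * X) ^ (e + 1)) N A (D ^ e) R b (by linarith)
    (u1.trans (le_self_pow₀ u3 (by omega))) hA hF (one_le_pow₀ D1)
    ((pow_le_pow_left₀ (by linarith) u2 e).trans (pow_le_pow_right₀ u3 (by omega))) R1 hb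
    ((mul_le_mul_of_nonneg_right u4 (by linarith)).trans hL) H
  exact ⟨L, A', a.mono u4, r⟩


end

end Vale.Agent.P057T.Rg
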