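import Vale.Agent.P057T.Rg.Kil
import Vale.Agent.P057T.Rg.All
import Vale.Agent.P057T.Rg.Ent
import Vale.Agent.P057T.Rg.IniH29
import Vale.Agent.P057T.Cp.All
import Vale.Agent.P057T.Cfg.CFG
import Vale.Agent.P057T.Cfg.Dil
import Vale.Agent.P057T.Sb.Dilb
import Vale.Agent.P057T.Sb.Invt

/-! Closed forms. -/

namespace Vale.Agent.P057T.Rg.KilAll

open Vale.Agent.P057T.Eq Vale.Agent.P057T.Cfg

theorem cfgc : CFG := cfg jok
theorem count1c : COUNT1 := H98.count1 dil_ok summ Eq.All.masss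
theorem countc : COUNT := H98.count jok cfgc count1c
theorem dilbc : Sb.DILB := Sb.dilb jok Eq.All.detc
theorem invtc : Sb.INVT := Sb.invt jok dilbc Sb.masb'
theorem napc : Sb.NAP := Sb.nap Sb.masb'
theorem marg0c : Sb.MARG0 := Sb.marg0 jok cfgc Cp.All.fibrc Eq.All.detc
theorem entc : ENT := ent IniH29.ini All.regc
theorem kilc : KIL := kil entc br0 dilbc Sb.masb' invtc napc countc marg0c

end Vale.Agent.P057T.Rg.KilAll
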