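import Vale.Agent.P057T.Rg.Defs2
import Vale.Agent.P057T.Rg.Sli0

/-! Row MIXW: a Lipschitz periodic window is a mixture of periodised Gaussian windows. -/

set_option linter.all false

open Finset
open scoped Real

namespace Vale.Agent.P057T.Rg

namespace MxA

/-- the terms of `pw` -/
noncomputable def gt (β t : ℝ) (y : ℤ) : ℝ := Real.exp (-π * (((y : ℝ) - t) / β) ^ 2)

lemma gt_pos (β t : ℝ) (y : ℤ) : 0 < gt β t y := Real.exp_pos _

lemma sum_le {β : ℝ} (hβ : 0 < β) (t : ℝ) (s : Finset ℤ) : ∑ y ∈ s, gt β t y ≤ 1 + β := by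
  have h := SlA.th1 hβ (-(t / β)) s
  refine le_of_eq_of_le (sum_congr rfl fun y _ => ?_) h
  unfold gt
  congr 3
  field_simp
  ring

lemma sm {β : ℝ} (hβ : 0 < β) (t : ℝ) : Summable (gt β t) :=
  summable_of_sum_le (fun y => (gt_pos β t y).le) (sum_le hβ t)

lemma pw_eq (β t : ℝ) : pw β t = ∑' y, gt β t y := rfl

lemma pw_le {β : ℝ} (hβ : 0 < β) (t : ℝ) : pw β t ≤ 1 + β :=
  (sm hβ t).tsum_le_of_sum_le (sum_le hβ t)

lemma pw_nn (β t : ℝ) : 0 ≤ pw β t := tsum_nonneg fun y => (gt_pos β t y).le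

lemma pw_ge {β : ℝ} (hβ : 0 < β) (t : ℝ) : β - 1 ≤ pw β t := by
  classical
  have hb : 0 < π * β⁻¹ ^ 2 := by positivity
  let f : ℝ → ℝ := fun x => Real.exp (-(π * β⁻¹ ^ 2) * (x - t) ^ 2)
  have ef : ∀ y : ℤ, gt β t y = f y := by
    intro y
    simp only [f, gt]
    congr 1
    field_simp
  have hi : MeasureTheory.Integrable f := (integrable_exp_neg_mul_sq hb).comp_sub_right t
  have hv : ∫ x, f x = β := by
    simp only [f]
    rw [MeasureTheory.integral_sub_right_eq_self (fun x => Real.exp (-(π * β⁻¹ ^ 2) * x ^ 2)),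
      integral_gaussian]
    have : π / (π * β⁻¹ ^ 2) = β ^ 2 := by field_simp
    rw [this, Real.sqrt_sq hβ.le]
  have hs := hi.hasSum_intervalIntegral 0
  rw [hv] at hs
  have hy1 := Int.floor_le t
  have hy2 := Int.lt_floor_add_one t
  set y0 := ⌊t⌋ with hy0
  let k : ℤ → ℤ := fun y => if y0 < y then y else y + 1
  have hc : ∀ (y : ℤ) (c : ℝ), (∀ x, (y : ℝ) ≤ x → x ≤ y + 1 → f x ≤ c) →
      ∫ x in (0 : ℝ) + y..(0 : ℝ) + y + 1, f x ≤ c := by
    intro y c h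
    have h2 := intervalIntegral.integral_mono_on (μ := MeasureTheory.volume)
      (a := (0 : ℝ) + y) (b := (0 : ℝ) + y + 1) (g := fun _ => c) (f := f) (by linarith)
      hi.intervalIntegrable intervalIntegrable_const fun x hx => h x (by linarith [hx.1]) (by linarith [hx.2])
    simpa using h2
  have h1 : ∀ y, y ≠ y0 → ∫ x in (0 : ℝ) + y..(0 : ℝ) + y + 1, f x ≤ gt β t (k y) := by
    intro y hy
    rw [ef]
    refine hc y _ fun x hx1 hx2 => ?_
    refine Real.exp_le_exp.2 (mul_le_mul_of_nonpos_left ?_ (by linarith))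
    simp only [k]
    by_cases h : y0 < y
    · rw [if_pos h]
      have h3 : (y0 : ℝ) + 1 ≤ y := by exact_mod_cast h
      exact sq_le_sq' (by linarith) (by linarith)
    · rw [if_neg h]
      have h3 : (y : ℝ) + 1 ≤ y0 := by exact_mod_cast (by omega : y + 1 ≤ y0)
      push_cast
      rw [← neg_sq (x - t)]
      exact sq_le_sq' (by linarith) (by linarith)
  have h0 : ∫ x in (0 : ℝ) + y0..(0 : ℝ) + y0 + 1, f x ≤ 1 := by
    refine hc y0 _ fun x _ _ => Real.exp_le_one_iff.2 ?_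
    nlinarith [sq_nonneg (x - t)]
  have h4 : β ≤ 1 + pw β t := by
    refine hasSum_le_of_sum_le hs fun E => ?_
    have h5 : ∑ y ∈ E.erase y0, ∫ x in (0 : ℝ) + y..(0 : ℝ) + y + 1, f x ≤ pw β t := by
      refine (sum_le_sum fun y hy => h1 y (ne_of_mem_erase hy)).trans ?_
      rw [← sum_image (f := gt β t) (g := k) fun a ha b hb e => by
        have := ne_of_mem_erase ha
        have := ne_of_mem_erase hb
        simp only [k] at e
        split_ifs at e <;> omega]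
      exact (sm hβ t).sum_le_tsum _ fun y _ => (gt_pos β t y).le
    by_cases hE : y0 ∈ E
    · rw [← add_sum_erase _ _ hE]
      linarith
    · rw [erase_eq_of_notMem hE] at h5
      linarith
  linarith

lemma grid {ρ : ℝ} (hρ : 0 < ρ) (N : ℕ) [NeZero N] (t : ℝ) :
    ∑ j : Fin N, pw ρ (t - ((j : ℕ) : ℝ) / N) = pw (N * ρ) (N * t) := by
  have hN : (0 : ℝ) < N := by exact_mod_cast Nat.pos_of_ne_zero (NeZero.ne N)
  have h := (Int.divModEquiv N).symm.summable_iff.2 (sm (mul_pos hN hρ) (N * t))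
  rw [pw_eq (N * ρ), ← (Int.divModEquiv N).symm.tsum_eq]
  have e : ∀ p : ℤ × Fin N, gt (N * ρ) (N * t) ((Int.divModEquiv N).symm p) =
      gt ρ (t - ((p.2 : ℕ) : ℝ) / N) p.1 := by
    intro p
    rw [Int.divModEquiv_symm_apply]
    unfold gt
    congr 3
    push_cast
    field_simp
    ring
  have h' : Summable fun p : ℤ × Fin N => gt ρ (t - ((p.2 : ℕ) : ℝ) / N) p.1 := h.congr e
  rw [tsum_congr e, h'.tsum_prod]
  simp only [tsum_fintype]
  rw [Summable.tsum_finsetSum fun j _ => sm hρ _]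
  rfl

lemma fr_le {ρ : ℝ} (hρ : 0 < ρ) (s : ℝ) : |s - round s| * pw ρ s ≤ ρ * pw (2 * ρ) s := by
  rw [pw_eq, pw_eq, ← tsum_mul_left, ← tsum_mul_left]
  refine ((sm hρ s).mul_left _).tsum_le_tsum (fun y => ?_) ((sm (by positivity) s).mul_left _)
  have h1 : |s - round s| ≤ |s - y| := round_le s y
  set v := ((y : ℝ) - s) / ρ with hv
  have h2 : |s - y| = ρ * |v| := by
    rw [hv, abs_div, abs_of_pos hρ, abs_sub_comm]
    field_simp
  have h3 : gt (2 * ρ) s y = Real.exp (3 / 4 * π * v ^ 2) * gt ρ s y := by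
    unfold gt
    rw [← Real.exp_add, hv]
    congr 1
    field_simp
    ring
  have h4 : |v| ≤ Real.exp (3 / 4 * π * v ^ 2) := by
    have := Real.add_one_le_exp (3 / 4 * π * v ^ 2)
    have := Real.pi_gt_three
    have h5 : |v| ^ 2 = v ^ 2 := sq_abs v
    nlinarith [sq_nonneg v, sq_nonneg (|v| - 1)]
  rw [h3, ← mul_assoc]
  refine mul_le_mul_of_nonneg_right ?_ (gt_pos _ _ _).le
  rw [h2] at h1
  exact h1.trans (mul_le_mul_of_nonneg_left h4 hρ.le)

lemma near (r : ℕ) {e : ℝ} (he : 0 < e) (he1 : e ≤ 1) :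
    ∃ δ : ℝ, 0 < δ ∧ δ ≤ 1 ∧ (1 + δ) ^ r ≤ 1 + e ∧ 1 - e ≤ (1 - δ) ^ r := by
  have hr : (0 : ℝ) ≤ r := Nat.cast_nonneg r
  have hd : 0 < e / (2 * (r + 1)) := by positivity
  have hm : (r + 1) * (e / (2 * (r + 1))) = e / 2 := by field_simp
  set δ := e / (2 * (r + 1)) with hδ
  have h1 : δ ≤ 1 := by nlinarith
  have h2 := one_add_mul_le_pow (a := -δ) (by linarith) r
  have h3 : 1 - e / 2 ≤ (1 - δ) ^ r := by
    rw [sub_eq_add_neg 1 δ]
    nlinarith
  have h4 : (1 + δ) ^ r * (1 - δ) ^ r ≤ 1 := by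
    rw [← mul_pow]
    exact pow_le_one₀ (by nlinarith) (by nlinarith)
  have h5 : 0 ≤ (1 + δ) ^ r := by positivity
  refine ⟨δ, hd, h1, ?_, by linarith⟩
  by_contra h
  rw [not_le] at h
  nlinarith [mul_le_mul_of_nonneg_left h3 h5]

/-- the mixture of the windows is close to a multiple of `w` -/
lemma mix {κ : Type} [Fintype κ] [DecidableEq κ] (w : (κ → ℝ) → ℝ) {L ρ δ e : ℝ} (N : ℕ) [NeZero N]
    (hρ : 0 < ρ) (hL : 0 ≤ L) (hw : ∀ x, 0 ≤ w x ∧ w x ≤ 1)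
    (hp : ∀ (x : κ → ℝ) (k : κ → ℤ), w (x + fun a => (k a : ℝ)) = w x)
    (hl : ∀ x x', |w x - w x'| ≤ L * ∑ a, |x a - x' a|) (hδ1 : δ ≤ 1) (hN : 1 ≤ δ * (N * ρ))
    (h1 : (1 + δ) ^ Fintype.card κ ≤ 1 + e) (h2 : 1 - e ≤ (1 - δ) ^ Fintype.card κ) (he : e ≤ 1)
    (x : κ → ℝ) :
    |∑ k : κ → Fin N, w (fun a => ((k a : ℕ) : ℝ) / N) * ∏ a, pw ρ (x a - ((k a : ℕ) : ℝ) / N) -
      (N * ρ) ^ Fintype.card κ * w x| ≤ (N * ρ) ^ Fintype.card κ * (4 * L * Fintype.card κ * ρ + e) := by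
  have hN0 : (0 : ℝ) < N := by exact_mod_cast Nat.pos_of_ne_zero (NeZero.ne N)
  set β := (N : ℝ) * ρ with hβ
  have hβ0 : 0 < β := mul_pos hN0 hρ
  set r := Fintype.card κ with hr
  have hB : 0 < β ^ r := pow_pos hβ0 r
  have hup : (1 + β) ^ r ≤ β ^ r * (1 + e) := by
    refine le_trans ?_ (mul_le_mul_of_nonneg_left h1 hB.le)
    rw [← mul_pow]
    exact pow_le_pow_left₀ (by linarith) (by nlinarith) r
  have hT : ∑ k : κ → Fin N, ∏ a, pw ρ (x a - ((k a : ℕ) : ℝ) / N) = ∏ a, pw β (N * x a) := by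
    rw [← Fintype.piFinset_univ, ← prod_univ_sum (fun _ => univ)
      (fun a (j : Fin N) => pw ρ (x a - ((j : ℕ) : ℝ) / N))]
    exact prod_congr rfl fun a _ => grid hρ N (x a)
  have hT1 : ∏ a, pw β (N * x a) ≤ β ^ r * (1 + e) := by
    refine le_trans ?_ hup
    rw [hr, ← card_univ, ← prod_const]
    exact prod_le_prod (fun a _ => pw_nn _ _) fun a _ => pw_le hβ0 _
  have hT2 : β ^ r * (1 - e) ≤ ∏ a, pw β (N * x a) := by
    refine (mul_le_mul_of_nonneg_left h2 hB.le).trans ?_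
    rw [← mul_pow, hr, ← card_univ, ← prod_const]
    exact prod_le_prod (fun a _ => mul_nonneg hβ0.le (by linarith)) fun a _ =>
      le_trans (by nlinarith) (pw_ge hβ0 _)
  let p : κ → κ → Fin N → ℝ := fun a b j =>
    if b = a then ρ * pw (2 * ρ) (x b - ((j : ℕ) : ℝ) / N) else pw ρ (x b - ((j : ℕ) : ℝ) / N)
  have hk : ∀ k : κ → Fin N, |(w (fun a => ((k a : ℕ) : ℝ) / N) - w x) *
      ∏ a, pw ρ (x a - ((k a : ℕ) : ℝ) / N)| ≤ L * ∑ a, ∏ b, p a b (k b) := by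
    intro k
    have hP : 0 ≤ ∏ a, pw ρ (x a - ((k a : ℕ) : ℝ) / N) := prod_nonneg fun a _ => pw_nn _ _
    rw [abs_mul, abs_of_nonneg hP, abs_sub_comm,
      ← hp (fun a => ((k a : ℕ) : ℝ) / N) fun a => round (x a - ((k a : ℕ) : ℝ) / N)]
    refine (mul_le_mul_of_nonneg_right (hl _ _) hP).trans ?_
    rw [mul_assoc, sum_mul]
    refine mul_le_mul_of_nonneg_left (sum_le_sum fun a _ => ?_) hL
    have e1 : ∀ c : ℝ, c * ∏ b, pw ρ (x b - ((k b : ℕ) : ℝ) / N) =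
        ∏ b, (if b = a then c else 1) * pw ρ (x b - ((k b : ℕ) : ℝ) / N) := by
      intro c
      rw [prod_mul_distrib, prod_ite_eq' univ a fun _ => c, if_pos (mem_univ a)]
    rw [e1]
    refine prod_le_prod (fun b _ => mul_nonneg (by split_ifs <;> positivity) (pw_nn _ _)) fun b _ => ?_
    simp only [p]
    split_ifs with h
    · subst h
      refine le_of_eq_of_le ?_ (fr_le hρ _)
      simp only [Pi.add_apply]
      congr 2
      ring
    · rw [one_mul]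
  have hS : ∀ a, ∑ k : κ → Fin N, ∏ b, p a b (k b) ≤ 2 * ρ * (1 + β) ^ r := by
    intro a
    rw [← Fintype.piFinset_univ, ← prod_univ_sum (fun _ => univ) (p a)]
    have e1 : 2 * ρ * (1 + β) ^ r = ∏ b : κ, (if b = a then 2 * ρ else 1) * (1 + β) := by
      rw [prod_mul_distrib, prod_ite_eq' univ a fun _ => 2 * ρ, if_pos (mem_univ a), prod_const,
        card_univ]
    rw [e1]
    refine prod_le_prod (fun b _ => sum_nonneg fun j _ => ?_) fun b _ => ?_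
    · simp only [p]
      split_ifs
      · exact mul_nonneg hρ.le (pw_nn _ _)
      · exact pw_nn _ _
    · simp only [p]
      split_ifs with h
      · rw [← mul_sum, grid (by positivity) N]
        have := pw_le (β := N * (2 * ρ)) (by positivity) (N * x b)
        nlinarith
      · rw [grid hρ N, one_mul]
        exact pw_le hβ0 _
  have hA : |∑ k : κ → Fin N, (w (fun a => ((k a : ℕ) : ℝ) / N) - w x) *
      ∏ a, pw ρ (x a - ((k a : ℕ) : ℝ) / N)| ≤ L * (r * (2 * ρ * (1 + β) ^ r)) := by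
    refine (abs_sum_le_sum_abs _ _).trans ((sum_le_sum fun k _ => hk k).trans ?_)
    rw [← mul_sum, sum_comm]
    refine mul_le_mul_of_nonneg_left ((sum_le_sum fun a _ => hS a).trans ?_) hL
    rw [sum_const, card_univ, nsmul_eq_mul]
  simp only [sub_mul, sum_sub_distrib] at hA
  rw [← mul_sum, hT] at hA
  have h3 : L * (r * (2 * ρ * (1 + β) ^ r)) ≤ β ^ r * (4 * L * r * ρ) := by
    have : (1 + β) ^ r ≤ 2 * β ^ r := by nlinarith
    have h4 : 0 ≤ L * r * ρ := by positivity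
    nlinarith
  obtain ⟨w0, w1⟩ := hw x
  obtain ⟨a1, a2⟩ := abs_le.1 (hA.trans h3)
  have he0 : 0 ≤ β ^ r * e := by nlinarith
  rw [abs_le]
  constructor <;> nlinarith

lemma sb {α : Type} {μ : α → ℝ} (hμ : Summable μ) (hμ0 : ∀ z, 0 ≤ μ z) (g : α → ℝ) (C : ℝ)
    (h0 : ∀ z, 0 ≤ g z) (h : ∀ z, g z ≤ C) : Summable fun z => μ z * g z :=
  (hμ.mul_right C).of_nonneg_of_le (fun z => mul_nonneg (hμ0 z) (h0 z)) fun z =>
    mul_le_mul_of_nonneg_left (h z) (hμ0 z)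

lemma sf {α : Type} {g f : α → ℝ} (hf : ∀ z, 0 ≤ f z ∧ f z ≤ 1) (h0 : ∀ z, 0 ≤ g z)
    (h : Summable g) : Summable (fun z => g z * f z) ∧ ∑' z, g z * f z ≤ ∑' z, g z := by
  have h1 : ∀ z, g z * f z ≤ g z := fun z => mul_le_of_le_one_right (h0 z) (hf z).2
  have h2 : Summable fun z => g z * f z :=
    h.of_nonneg_of_le (fun z => mul_nonneg (h0 z) (hf z).1) h1
  exact ⟨h2, h2.tsum_le_tsum h1 h⟩

/-- pigeonhole over the pieces of a mixture -/
lemma core {α K : Type} [Fintype K] [Nonempty K] {μ f W : α → ℝ} (c : K → ℝ) (P : K → α → ℝ)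
    {B ε t C L : ℝ} (hμ : Summable μ) (hμ0 : ∀ z, 0 ≤ μ z) (hf : ∀ z, 0 ≤ f z ∧ f z ≤ 1)
    (hW : ∀ z, 0 ≤ W z ∧ W z ≤ 1) (hc : ∀ k, 0 ≤ c k ∧ c k ≤ 1) (hP0 : ∀ k z, 0 ≤ P k z)
    (hP : ∀ k z, P k z ≤ C) (ht0 : 0 ≤ t) (ht1 : t ≤ 1)
    (hm : ∀ z, |∑ k, c k * P k z - B * W z| ≤ B * ε) (hL : 0 < L)
    (hB : Fintype.card K * L ≤
      B * (∑' z, μ z * W z * f z - t * ∑' z, μ z * W z - ε * ∑' z, μ z)) :
    ∃ k, L ≤ ∑' z, μ z * P k z ∧ t * ∑' z, μ z * P k z ≤ ∑' z, μ z * P k z * f z := by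
  have sw := sb hμ hμ0 W 1 (fun z => (hW z).1) fun z => (hW z).2
  have swf := (sf hf (fun z => mul_nonneg (hμ0 z) (hW z).1) sw).1
  have sP : ∀ k, Summable fun z => μ z * P k z := fun k => sb hμ hμ0 _ C (hP0 k) (hP k)
  have sPf := fun k => sf hf (fun z => mul_nonneg (hμ0 z) (hP0 k z)) (sP k)
  let H : K → ℝ := fun k => ∑' z, μ z * P k z * f z - t * ∑' z, μ z * P k z
  have h1 : HasSum (fun z => ∑ k, c k * (μ z * P k z * f z - t * (μ z * P k z)))
      (∑ k, c k * H k) :=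
    hasSum_sum fun k _ => ((sPf k).1.hasSum.sub ((sP k).hasSum.mul_left t)).mul_left (c k)
  have h2 : HasSum (fun z => B * (μ z * W z * f z - t * (μ z * W z) - ε * μ z))
      (B * (∑' z, μ z * W z * f z - t * ∑' z, μ z * W z - ε * ∑' z, μ z)) :=
    ((swf.hasSum.sub (sw.hasSum.mul_left t)).sub (hμ.hasSum.mul_left _)).mul_left B
  have h3 := hasSum_le (fun z => ?_) h2 h1
  · have h5 : ∑ _k : K, L ≤ ∑ k, c k * H k := by
      rw [sum_const, card_univ, nsmul_eq_mul]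
      exact hB.trans h3
    obtain ⟨k, -, hk⟩ := exists_le_of_sum_le univ_nonempty h5
    obtain ⟨w0, w1⟩ := hc k
    have hH : 0 ≤ H k := by
      by_contra h
      rw [not_le] at h
      exact absurd (hL.trans_le hk) (not_lt.2 (mul_nonpos_of_nonneg_of_nonpos w0 h.le))
    have hH1 : L ≤ H k := hk.trans (mul_le_of_le_one_left hH w1)
    have hS0 : 0 ≤ ∑' z, μ z * P k z := tsum_nonneg fun z => mul_nonneg (hμ0 z) (hP0 k z)
    refine ⟨k, hH1.trans ?_, sub_nonneg.1 hH⟩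
    exact (sub_le_self _ (mul_nonneg ht0 hS0)).trans (sPf k).2
  · have e1 : ∑ k, c k * (μ z * P k z * f z - t * (μ z * P k z)) =
        μ z * ((f z - t) * ∑ k, c k * P k z) := by
      rw [mul_sum, mul_sum]
      exact sum_congr rfl fun k _ => by ring
    have e2 : B * (μ z * W z * f z - t * (μ z * W z) - ε * μ z) =
        μ z * ((f z - t) * (B * W z) - B * ε) := by ring
    rw [e1, e2]
    refine mul_le_mul_of_nonneg_left ?_ (hμ0 z)
    have e4 : |f z - t| ≤ 1 := abs_le.2 ⟨by linarith [(hf z).1], by linarith [(hf z).2]⟩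
    have e5 : |(f z - t) * (∑ k, c k * P k z - B * W z)| ≤ 1 * (B * ε) := by
      rw [abs_mul]
      exact mul_le_mul e4 (hm z) (abs_nonneg _) zero_le_one
    have e6 := (abs_le.1 e5).1
    linarith

lemma num {ι E M S W F b η : ℝ} (hι0 : 0 < ι) (hιE : ι * E = 1) (hM : 0 < M) (hS : S ≤ E * M)
    (hW : ι * M ≤ W) (hb : ι ≤ b) (hη : ι ≤ η) (hF : b * W ≤ F) :
    ι ^ 3 / 2 * M ≤ F - (1 - η) * b * W - ι ^ 4 / 2 * S := by
  have e1 : ι ^ 4 / 2 * (E * M) = ι ^ 3 / 2 * M := by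
    have : ι ^ 4 / 2 * (E * M) = (ι * E) * (ι ^ 3 / 2 * M) := by ring
    rw [this, hιE, one_mul]
  have e2 := mul_le_mul_of_nonneg_left hS (by positivity : 0 ≤ ι ^ 4 / 2)
  have e3 : ι * ι ≤ η * b := mul_le_mul hη hb hι0.le (by linarith)
  have e4 : ι * ι * (ι * M) ≤ η * b * W :=
    mul_le_mul e3 hW (by positivity) (le_trans (by positivity) e3)
  linarith

lemma num2 {ι E r : ℝ} (hι0 : 0 < ι) (hιE : ι * E = 1) (hE : 2 ≤ E) (hr : r ≤ E) :
    ι ^ 4 / 4 ≤ 1 ∧ 4 * E * r * ι ^ 10 + ι ^ 4 / 4 ≤ ι ^ 4 / 2 ∧ ι ^ 10 ≤ ι ^ 3 / 2 := by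
  have hι2 : ι ≤ 1 / 2 := by nlinarith
  have hι4 : ι ^ 4 ≤ 1 / 16 := le_trans (pow_le_pow_left₀ hι0.le hι2 4) (by norm_num)
  have h8 : ι ^ 7 ≤ 1 / 2 := le_trans (pow_le_pow_left₀ hι0.le hι2 7) (by norm_num)
  have h1 : 4 * E * r * ι ^ 10 ≤ 4 * E * E * ι ^ 10 := by gcongr
  have h2 : E * E * ι ^ 10 = ι ^ 4 * ι ^ 4 := by
    have : E * E * ι ^ 10 = (ι * E) ^ 2 * (ι ^ 4 * ι ^ 4) := by ring
    rw [this, hιE]
    ring
  have h3 := mul_le_mul_of_nonneg_left hι4 (by positivity : 0 ≤ ι ^ 4)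
  have h4 := mul_le_mul_of_nonneg_left h8 (by positivity : 0 ≤ ι ^ 3)
  refine ⟨by linarith, by linarith, by linarith⟩

end MxA

open MxA in
theorem mixw : MIXW := by
  refine ⟨10, ?_⟩
  intro α κ _ _ _ μ f u w M b η Z hμ hμ0 hf hw hp hl hZ hκ hM hμM hwM hb hη hη2 hbf
  have hE : 2 ≤ Real.exp Z := by linarith [Real.add_one_le_exp Z]
  have eρ : Real.exp (-(((10 : ℕ) : ℝ) * Z)) = Real.exp (-Z) ^ 10 := by
    rw [← Real.exp_nat_mul]
    congr 1
    ring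
  rw [eρ]
  have hE0 : 0 < Real.exp Z := Real.exp_pos Z
  have hι0 : 0 < Real.exp (-Z) := Real.exp_pos _
  have hιE : Real.exp (-Z) * Real.exp Z = 1 := by rw [← Real.exp_add]; simp
  generalize Real.exp (-Z) = ι at *
  generalize Real.exp Z = E at *
  obtain ⟨n1, n2, n3⟩ := num2 hι0 hιE hE hκ
  have n4 := num hι0 hιE hM hμM hwM hb hη hbf
  have hρ : 0 < ι ^ 10 := by positivity
  generalize ι ^ 10 = ρ at *
  obtain ⟨δ, hδ0, hδ1, hn1, hn2⟩ := near (Fintype.card κ) (e := ι ^ 4 / 4) (by positivity) n1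
  obtain ⟨N0, hN0⟩ := exists_nat_ge (δ * ρ)⁻¹
  obtain ⟨N, hNe⟩ : ∃ N : ℕ, N = N0 + 1 := ⟨_, rfl⟩
  haveI : NeZero N := ⟨by omega⟩
  have hN : 1 ≤ δ * (N * ρ) := by
    have h1 : (δ * ρ)⁻¹ ≤ (N : ℝ) := hN0.trans (by exact_mod_cast (by omega : N0 ≤ N))
    have h2 := mul_le_mul_of_nonneg_left h1 (mul_pos hδ0 hρ).le
    rw [mul_inv_cancel₀ (mul_pos hδ0 hρ).ne'] at h2
    linarith
  have hNp : (0 : ℝ) < N := by exact_mod_cast Nat.pos_of_ne_zero (NeZero.ne N)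
  have hmix := mix w N hρ hE0.le hw hp hl hδ1 hN hn1 hn2 n1
  have hB : 0 < ((N : ℝ) * ρ) ^ Fintype.card κ := by positivity
  have hb1 : b ≤ 1 := by
    have h1 := (sf hf (fun z => mul_nonneg (hμ0 z) (hw (u z)).1)
      (sb hμ hμ0 _ 1 (fun z => (hw (u z)).1) fun z => (hw (u z)).2)).2
    have hW : 0 < ∑' z, μ z * w (u z) := lt_of_lt_of_le (by positivity) hwM
    exact le_of_mul_le_mul_right (by rw [one_mul]; exact hbf.trans h1) hW
  obtain ⟨k, k1, k2⟩ := core (K := κ → Fin N) (W := fun z => w (u z))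
    (fun k => w fun a => ((k a : ℕ) : ℝ) / N)
    (fun k z => ∏ a, pw ρ (u z a - ((k a : ℕ) : ℝ) / N)) (B := (N * ρ) ^ Fintype.card κ)
    (ε := ι ^ 4 / 2) (t := (1 - η) * b) (C := (1 + ρ) ^ Fintype.card κ)
    (L := ρ ^ Fintype.card κ * (ι ^ 3 / 2 * M)) hμ hμ0 hf (fun z => hw _) (fun k => hw _)
    (fun k z => prod_nonneg fun a _ => pw_nn _ _)
    (fun k z => by
      rw [← card_univ, ← prod_const]
      exact prod_le_prod (fun a _ => pw_nn _ _) fun a _ => pw_le hρ _)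
    (mul_nonneg (by linarith) (by linarith)) (mul_le_one₀ (by linarith) (by linarith) hb1)
    (fun z => (hmix (u z)).trans (mul_le_mul_of_nonneg_left n2 hB.le)) (by positivity)
    (le_trans (le_of_eq (by
      rw [Fintype.card_fun, Fintype.card_fin, mul_pow]
      push_cast
      ring)) (mul_le_mul_of_nonneg_left n4 hB.le))
  refine ⟨fun a => ((k a : ℕ) : ℝ) / N, le_trans ?_ k1, k2⟩
  calc ρ * ρ ^ Fintype.card κ * M = ρ ^ Fintype.card κ * (ρ * M) := by ring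
    _ ≤ _ := by gcongr

end Vale.Agent.P057T.Rg
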