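import Vale.Agent.P057T.Rg.Defs
import Vale.Agent.P057T.Eq.Bdw
import Vale.Agent.P057T.Eq.Marg

/-! Row `REL`: a failure of `Big` gives a pivot with a relation. -/

open MvPolynomial Finset Matrix
open scoped Real

namespace Vale.Agent.P057T.Rg.RelH29

open Vale.Agent.P057T.Eq Vale.Agent.P057T.Eq.MargP

set_option linter.all false

noncomputable section

variable {ι : Type} [Fintype ι] [DecidableEq ι]

theorem aeval_congr {u v : ι → MvPolynomial ι ℝ} {F : MvPolynomial ι ℝ}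
    (h : ∀ a ∈ F.vars, u a = v a) : aeval u F = aeval v F := by
  refine MvPolynomial.hom_congr_vars (f₁ := (aeval u : MvPolynomial ι ℝ →ₐ[ℝ] _).toRingHom)
    (f₂ := (aeval v : MvPolynomial ι ℝ →ₐ[ℝ] _).toRingHom) ?_ (fun i hi _ => ?_) rfl
  · ext1 r; simp
  · simpa using h i hi

theorem coeff_lin (x : ι → ℝ) (a : ι) : coeff (Finsupp.single a 1) (lin x) = x a := by
  simp only [lin, coeff_sum, coeff_C_mul, coeff_X', Finsupp.single_left_inj (one_ne_zero)]
  simp

theorem coeff_lin_ne (x : ι → ℝ) (m : ι →₀ ℕ) (h : coeff m (lin x) ≠ 0) :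
    ∃ a ∈ m.support, x a ≠ 0 := by
  rw [lin, coeff_sum] at h
  obtain ⟨a, -, ha⟩ := exists_ne_zero_of_sum_ne_zero h
  rw [coeff_C_mul, coeff_X'] at ha
  refine ⟨a, ?_, left_ne_zero_of_mul ha⟩
  have h2 := right_ne_zero_of_mul ha
  split_ifs at h2 with h3
  · rw [← h3]; simp
  · exact absurd rfl h2

theorem sum_single_le (b : MvPolynomial ι ℝ) : ∑ a, |coeff (Finsupp.single a 1) b| ≤ l1 b := by
  rw [l1_eq b (b.support ∪ univ.image fun a : ι => Finsupp.single a 1) subset_union_left,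
    ← sum_image (s := univ) (g := fun a : ι => Finsupp.single a 1) (f := fun m => |coeff m b|)
      (fun a _ c _ h => (Finsupp.single_left_inj one_ne_zero).1 h)]
  exact sum_le_sum_of_subset_of_nonneg subset_union_right fun _ _ _ => abs_nonneg _

/-- a form below the group plus a linear form in the group -/
theorem split {G : GT ι} {g : ℕ} {f : MvPolynomial ι ℝ} {x : ι → ℝ} (hf : G.Lo g f)
    (hx : ∀ a, x a ≠ 0 → G.g a = g) : l1 f ≤ l1 (f + lin x) ∧ ∑ a, |x a| ≤ l1 (f + lin x) := by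
  have h1 := (vars_iff (fun b => G.g b < g) f).1 hf
  constructor
  · refine L1.nrm_le_of_coeff fun m => ?_
    by_cases h0 : coeff m f = 0
    · rw [h0, abs_zero]; exact abs_nonneg _
    · have h2 : coeff m (lin x) = 0 := by
        by_contra h3
        obtain ⟨a, ha, h4⟩ := coeff_lin_ne x m h3
        exact (h1 m h0 a ha).ne (hx a h4)
      rw [coeff_add, h2, add_zero]
  · refine le_trans (sum_le_sum fun a _ => ?_) (sum_single_le _)
    by_cases h0 : x a = 0
    · rw [h0, abs_zero]; exact abs_nonneg _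
    · have h2 : coeff (Finsupp.single a 1) f = 0 := by
        by_contra h3
        exact (h1 _ h3 a (by simp)).ne (hx a h0)
      rw [coeff_add, h2, zero_add, coeff_lin]

theorem sqrt_le_sum (V : Finset ι) (x : ι → ℝ) : √(∑ a ∈ V, x a ^ 2) ≤ ∑ a, |x a| := by
  refine Real.sqrt_le_iff.2 ⟨sum_nonneg fun _ _ => abs_nonneg _, ?_⟩
  refine (sum_le_sum_of_subset_of_nonneg (subset_univ V) fun _ _ _ => sq_nonneg _).trans ?_
  rw [sq (∑ a, |x a|), sum_mul]
  refine sum_le_sum fun a _ => ?_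
  rw [← sq_abs, sq]
  exact mul_le_mul_of_nonneg_left
    (single_le_sum (f := fun a => |x a|) (fun _ _ => abs_nonneg _) (mem_univ a)) (abs_nonneg _)

theorem rel (hU : UNI) (hC : RECO) (hR : ROTO) (hP : PHI) : REL := by
  intro s N A ι _ _ S θ θn γ ρ b H g hI hB
  have hO := hI.ok.ok
  simp only [GT.Big, not_forall] at hB
  obtain ⟨e, k, I, hk, i1, i2, i3, ⟨b0, e1, e2⟩, a0, ha0, ha1⟩ := hB
  set V := gp S.G g \ S.G.ex with hV
  have mV : ∀ a, a ∈ V ↔ S.G.g a = g ∧ a ∉ S.G.ex := fun a => by simp [hV, gp]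
  set x : ι → ℝ := fun a => ∑ c, cz k c * S.G.B c a with hx
  have hx0 : ∀ a, x a ≠ 0 → S.G.g a = g := by
    intro a ha
    obtain ⟨c, -, hc⟩ := exists_ne_zero_of_sum_ne_zero ha
    have h1 : k c ≠ 0 := fun h => left_ne_zero_of_mul hc (by simp [cz, h])
    rw [← (hO.blk c a (Or.inr (right_ne_zero_of_mul hc))).1]
    exact (hk c h1).1
  set f := b0 - lin x with hf
  have f1 : aeval S.G.th f = I + ∑ c, C (cz k c) * S.G.q c := by
    rw [hf, map_sub, e1, hx, sum_th hO]; ring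
  have f2 : S.G.Lo g f := by
    refine (lo_iff hO g f).2 ?_
    rw [f1]
    refine (vars_iff (fun b => S.G.g b < g) _).2 (Sup.add ((vars_iff _ _).1 i2)
      (Sup.sum _ _ fun c _ => Sup.cmul _ fun hc => (vars_iff _ _).1 ?_))
    have h1 : k c ≠ 0 := fun h => hc (by simp [cz, h])
    rw [← (hk c h1).1]
    exact hO.ql c
  have f3 : S.G.Hm e f := by
    refine (hm_iff hO e f).2 ?_
    rw [f1]
    refine fun m hm => (Sup.add (φ := fun m => Finsupp.weight S.G.w m = e) (fun m hm => i3 hm)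
      (Sup.sum _ _ fun c _ => Sup.cmul _ fun hc => ?_)) m hm
    have h1 : k c ≠ 0 := fun h => hc (by simp [cz, h])
    rw [← (hk c h1).2]
    exact fun m hm => hO.qh c hm
  obtain ⟨f4, f5⟩ := split f2 hx0
  have hb0 : f + lin x = b0 := by rw [hf]; ring
  rw [hb0] at f4 f5
  set k' : ι → ℤ := fun a => if a ∈ V then k a else 0 with hk'
  have a0V : a0 ∈ V := (mV a0).2 ⟨(hk a0 ha0).1, ha1⟩
  have k0 : k' ≠ 0 := fun h => ha0 (by simpa [hk', a0V] using congrFun h a0)
  obtain ⟨n, j, U, U', n1, jV, hUU, hs1, hs2, hkn⟩ :=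
    hU ι V k' k0 (fun a ha => by simp [hk', ha])
  obtain ⟨S1, I1, ⟨g1, w1, x1⟩, -, B1, q1, t1⟩ :=
    hC s N A ι S θ θn γ ρ b g V U U' hI (Or.inr rfl) hUU hs1 hs2
  have hV1 : V = gp S1.G g \ S1.G.ex := by rw [hV, gp, gp, g1, x1]
  obtain ⟨S2, I2, ⟨g2, w2, x2⟩, q2, pv, t2⟩ :=
    hR s N A ι S1 θ θn γ ρ b g V j I1 (Or.inr hV1) jV
  have jg := ((mV j).1 jV).1
  have hB1 : ∀ a, S1.G.B j a = ∑ c, (U' j c : ℝ) * S.G.B c a := fun a => by
    rw [B1, Matrix.mul_apply]; rfl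
  have hkc : ∀ c, c ∉ S.G.ex → cz k c = n * (U' j c : ℝ) := by
    intro c hc
    have h1 : k c = k' c := by
      by_cases h : c ∈ V
      · simp [hk', h]
      · have : k c = 0 := by
          by_contra h2
          exact h ((mV c).2 ⟨(hk c h2).1, hc⟩)
        simp [hk', h, this]
    rw [cz, h1, hkn c]; push_cast; rfl
  have hxa : ∀ a ∈ V, x a = n * S1.G.B j a := by
    intro a ha
    rw [hB1, mul_sum]
    refine sum_congr rfl fun c _ => ?_
    by_cases hc : c ∈ S.G.ex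
    · rw [(hI.ok.tri c hc a ((mV a).1 ha).2).2]; simp
    · rw [hkc c hc, mul_assoc]
  refine ⟨S2, j, _, n, f, I2, ⟨g2.trans g1, w2.trans w1, x2.trans x1⟩, jg, pv, n1, ?_, ?_,
    ⟨?_, ?_, ?_⟩, f4.trans e2⟩
  · have h1 : (n : ℝ) * √(∑ a ∈ V, S1.G.B j a ^ 2) = √(∑ a ∈ V, x a ^ 2) := by
      have h2 : ∑ a ∈ V, x a ^ 2 = (n : ℝ) ^ 2 * ∑ a ∈ V, S1.G.B j a ^ 2 := by
        rw [mul_sum]
        exact sum_congr rfl fun a ha => by rw [hxa a ha, mul_pow]
      rw [h2, Real.sqrt_mul (sq_nonneg _), Real.sqrt_sq (Nat.cast_nonneg n)]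
    rw [h1]
    exact (sqrt_le_sum V x).trans (f5.trans e2)
  · obtain ⟨a, aV, ha⟩ := hP s ι S.G V (θn g) (U' j) hO (fun a c ha hc => by
        by_contra h0
        have h1 := (hO.blk a c (Or.inl h0)).1
        have h2 := (mV c).1 hc
        by_cases h3 : a ∈ S.G.ex
        · exact h0 (hI.ok.tri a h3 c h2.2).1
        · exact ha ((mV a).2 ⟨h1.trans h2.1, h3⟩)) (hI.pn g)
      (fun h => k0 (funext fun c => by rw [hkn c, congrFun h c]; simp))
      (fun c hc => by
        by_contra h0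
        rcases hs1 j c (Or.inr h0) with h | h
        · exact hc (h ▸ jV)
        · exact hc h.2)
    refine ha.trans ?_
    rw [← hB1]
    exact Real.abs_le_sqrt
      (single_le_sum (f := fun a => S1.G.B j a ^ 2) (fun _ _ => sq_nonneg _) aV)
  · intro c hc
    rw [g2, g1, jg]
    exact f2 c hc
  · have h1 : S.G.w j = e := by
      rw [← hI.ok.lv j, jg, ← (hk a0 ha0).2, ← hI.ok.lv a0, (hk a0 ha0).1]
    show IsWeightedHomogeneous S2.G.w f (S2.G.w j)
    rw [w2, w1, h1]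
    exact f3
  · have h1 : aeval S2.G.th f = aeval S.G.th f := aeval_congr fun a ha => by
      rw [t2 a (by rw [g1]; exact (f2 a ha).ne), t1 a (f2 a ha)]
    have h2 : C (n : ℝ) * S2.G.q j = ∑ c, C (cz k c) * S.G.q c := by
      rw [q2, q1 j jg, mul_sum]
      refine sum_congr rfl fun c _ => ?_
      by_cases hc : c ∈ S.G.ex
      · rw [hO.qe c hc]; simp
      · rw [hkc c hc, map_mul, mul_assoc]
    rw [h1, h2, f1]
    intro m
    obtain ⟨z, hz⟩ := i1 m
    refine ⟨-z, ?_⟩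
    rw [show (∑ c, C (cz k c) * S.G.q c - (I + ∑ c, C (cz k c) * S.G.q c)) = -I by ring,
      coeff_neg, hz]
    push_cast; rfl

end

end Vale.Agent.P057T.Rg.RelH29
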