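import Vale.Agent.P057T.Rg.Defs2
import Vale.Agent.P057T.Rg.Dil
import Vale.Agent.P057T.Rg.Br

/-! A window of a state is a state. -/

set_option linter.all false

open MvPolynomial Finset
open scoped Real

namespace Vale.Agent.P057T.Rg

open Vale.Agent.P057T.Eq Vale.Agent.P057T.Cfg DlA

noncomputable section

namespace WinA

variable {ι : Type} [Fintype ι] [DecidableEq ι] {s : ℕ}

lemma tk_dil {G : GT ι} (hG : G.Ok s) {n : ℕ} {σ : ℝ} (hn : 1 ≤ n) (hσ : 1 ≤ σ)
    {Q Q' : Set (ι → ℤ)} (h : ∀ z ∈ Q', pz (fun _ => n) 0 z ∈ Q) :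
    tk (Cfg.dil G n σ) Q' ≤ tk G Q := by
  have h1 : ∀ _ : ι, 1 ≤ n := fun _ => hn
  refine le_trans ?_ (tk_dG (m := fun _ => n) h1 (fun _ _ _ => rfl) hG h)
  have hG' := ok_dG (m := fun _ => n) h1 (fun _ _ _ => rfl) hG
  have hdet : (dG G fun _ => n).A.det ≠ 0 := by
    have := congrArg Matrix.det hG'.AB
    rw [Matrix.det_mul, Matrix.det_one] at this
    exact left_ne_zero_of_mul_eq_one this
  have hs : Summable fun z : ι → ℤ => Poi.gq (dG G fun _ => n).A (cz z) :=
    (Poi.summable_gq hdet 0).congr fun z => by rw [zero_add]; rfl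
  have e : ∀ x : ι → ℝ, Poi.gq (Cfg.dil G n σ).A x ≤ Poi.gq (dG G fun _ => n).A x := by
    intro x
    have e1 : ∀ a, (Cfg.dil G n σ).A.mulVec x a = σ * (dG G fun _ => n).A.mulVec x a := by
      intro a
      unfold Matrix.mulVec dotProduct
      rw [Finset.mul_sum]
      refine Finset.sum_congr rfl fun c _ => ?_
      show σ * n * G.A a c * x c = σ * (n * G.A a c * x c)
      ring
    unfold Poi.gq P267.H775.qf
    refine Real.exp_le_exp.2 (mul_le_mul_of_nonpos_left (Finset.sum_le_sum fun a _ => ?_)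
      (by linarith [Real.pi_pos]))
    rw [e1, mul_pow]
    exact le_mul_of_one_le_left (sq_nonneg _) (one_le_pow₀ hσ)
  have hle : ∀ z, Q'.indicator (fun z => Poi.gq (Cfg.dil G n σ).A (cz z)) z ≤
      Q'.indicator (fun z => Poi.gq (dG G fun _ => n).A (cz z)) z := fun z =>
    Set.indicator_le_indicator (e _)
  exact Summable.tsum_le_tsum hle (Summable.of_nonneg_of_le
    (Set.indicator_nonneg fun z _ => (Poi.gq_pos _ _).le) hle (hs.indicator Q')) (hs.indicator Q')

end WinA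

open WinA in
theorem win : WIN := by
  intro s N A ι _ _ S R b Z n σ y c' hI hn hnZ hσ hσZ
  have hσ0 : 0 < σ := by linarith
  have hn0 : (0 : ℝ) < n := by exact_mod_cast hn
  have hn1 : (1 : ℝ) ≤ n := by exact_mod_cast hn
  obtain ⟨d1, d2, -, d4, -⟩ := dil_ok s ι S.G n σ hI.ok.ok hn hσ0
  obtain ⟨a1, a2⟩ := d4 S.AT 1 y c' ((br0 s ι S hI.ok).1 1 le_rfl)
  have hD := ok_dS (m := fun _ => n) (fun _ => hn) (fun _ _ _ => rfl) hI.ok y
  have hok : (S.win n σ y c').Ok s := ⟨d1, hI.ok.lv, fun a => a1.pd a (mem_univ a),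
    fun a ha b hb => ⟨mul_eq_zero_of_right _ (hI.ok.tri a ha b hb).1,
      mul_eq_zero_of_right _ (hI.ok.tri a ha b hb).2⟩, hD.pz, hD.p1⟩
  have hE : 1 ≤ Real.exp (2 * Z) := by
    rw [two_mul, Real.exp_add]
    exact one_le_mul_of_one_le_of_one_le (hσ.trans hσZ) (hσ.trans hσZ)
  have hdv : ∀ V : Finset ι, Real.exp R * S.G.dv V ≤
      Real.exp (R + 2 * Fintype.card ι * Z) * (Cfg.dil S.G n σ).dv V := by
    intro V
    have h1 : (σ * n) ^ V.card ≤ Real.exp (2 * Fintype.card ι * Z) := by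
      calc (σ * n) ^ V.card ≤ Real.exp (2 * Z) ^ V.card := by
            refine pow_le_pow_left₀ (by positivity) ?_ _
            rw [two_mul, Real.exp_add]
            exact mul_le_mul hσZ hnZ hn0.le (Real.exp_pos _).le
        _ ≤ Real.exp (2 * Z) ^ Fintype.card ι := pow_le_pow_right₀ hE (card_le_univ V)
        _ = _ := by rw [← Real.exp_nat_mul]; congr 1; ring
    have h2 : 0 < (σ * n) ^ V.card := by positivity
    rw [d2, Real.exp_add, mul_assoc]
    refine mul_le_mul_of_nonneg_left ?_ (Real.exp_pos _).le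
    rw [mul_left_comm]
    exact le_mul_of_one_le_right (dv_nonneg _ _) ((one_le_div h2).2 h1)
  refine ⟨hok, fun z => ?_, fun z => DilA.eval_sh y z n S.pi, d2 univ, fun γ b' h1 h2 =>
    ⟨hok, fun g => ?_, fun g => ?_, h1, ?_, h2⟩⟩
  · rw [← a2]
    unfold St.wt St.sq GT.nu
    congr 2
    refine Finset.sum_congr rfl fun a _ => ?_
    exact congrArg (· ^ 2) (one_mul _).symm
  · exact (tk_dil hI.ok.ok hn hσ fun z hz => pz_lat _ hz).trans ((hI.ph g).trans (hdv _))
  · exact (tk_dil hI.ok.ok hn hσ fun z hz => pz_lat _ hz).trans ((hI.pn g).trans (hdv _))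
  · exact (mul_le_mul_of_nonneg_left (tk_dil hI.ok.ok hn hσ (ker_dS hI.ok (fun _ => n) y))
      (Nat.cast_nonneg N)).trans (hI.kr.trans (hdv _))

end

end Vale.Agent.P057T.Rg
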